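import Vale.Agent.P283R.C3.St

/-!
# P283R, block C3: every point of the projective line has a vertex
-/

open Set

noncomputable section

namespace Vale.Agent.P283R.C3

open Vale.Agent.P287D Vale.Agent.P283M Vale.Agent.P283R.To

namespace E16

theorem od_sum (n : ℂ →₀ ℤ) (A : Finset (Option ℂ)) (h0 : none ∈ A)
    (h : ∀ p, n p ≠ 0 → some p ∈ A) : ∑ r ∈ A, od n r = 0 := by
  have : ∑ r ∈ Finset.insertNone n.support, od n r = ∑ r ∈ A, od n r := by
    refine Finset.sum_subset (fun r hr => ?_) fun r _ hr => ?_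
    · cases r with
      | none => exact h0
      | some p => exact h p (Finsupp.mem_support_iff.1 (Finset.some_mem_insertNone.1 hr))
    · cases r with
      | none => exact (hr Finset.none_mem_insertNone).elim
      | some p => exact Finsupp.notMem_support_iff.1 fun h => hr (Finset.some_mem_insertNone.2 h)
  rw [← this, Finset.sum_insertNone]
  simp [od, Finsupp.sum]

open Classical in
/-- weights: `ξ` on the finite set `I`, and `t` on one prime over each point outside of `S` -/
def wt {ι ρ : Type} (I : Finset ι) (ξ : I → ℝ) (b : ρ → ι) (S : Finset ρ) (t : ℝ) (E : ι) : ℝ :=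
  (if h : E ∈ I then ξ ⟨E, h⟩ else 0) + if ∃ r ∉ S, b r = E then t else 0

theorem wt_sum {ι ρ : Type} (I : Finset ι) (ξ : I → ℝ) {b : ρ → ι} (hb : Function.Injective b)
    (S : Finset ρ) (t : ℝ) (F : ι → ℤ) (A : Finset ρ) (hA : ∀ r ∈ A, r ∉ S)
    (h : ∀ r ∉ S, F (b r) ≠ 0 → r ∈ A) :
    (Function.support fun E => wt I ξ b S t E * F E).Finite ∧
    ∑ᶠ E, wt I ξ b S t E * F E = ∑ l, ξ l * F l + t * ∑ r ∈ A, (F (b r) : ℝ) := by
  classical
  have s1 : (Function.support fun E => (if h : E ∈ I then ξ ⟨E, h⟩ else 0) * (F E : ℝ)) ⊆ I :=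
    fun E hE => by
      by_contra hc
      exact hE (by simp only [Finset.mem_coe] at hc; simp [hc])
  have s2 : (Function.support fun E => (if ∃ r ∉ S, b r = E then t else 0) * (F E : ℝ)) ⊆
      A.image b := fun E hE => by
    by_cases hc : ∃ r ∉ S, b r = E
    · obtain ⟨r, hr, rfl⟩ := hc
      exact Finset.mem_coe.2 (Finset.mem_image_of_mem b (h r hr fun h0 => hE (by simp [h0])))
    · exact (hE (by simp only [if_neg hc, zero_mul])).elim
  have f1 := I.finite_toSet.subset s1
  have f2 := (A.image b).finite_toSet.subset s2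
  simp only [wt, add_mul]
  refine ⟨(f1.union f2).subset (Function.support_add _ _), ?_⟩
  rw [finsum_add_distrib f1 f2, finsum_eq_sum_of_support_subset _ s1,
    finsum_eq_sum_of_support_subset _ s2, Finset.sum_image fun _ _ _ _ e => hb e,
    ← Finset.sum_coe_sort I, Finset.mul_sum]
  refine congrArg₂ _ (Finset.sum_congr rfl fun l _ => by simp [l.2])
    (Finset.sum_congr rfl fun r hr => by rw [if_pos ⟨r, hA r hr, rfl⟩])

end E16

open E16 in
/-- **ELLR** -/
theorem ellr : ELLR := by
  intro fac sums czr count ε q ε0 q1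
  obtain ⟨N, hN⟩ := count ε q ε0 q1
  refine ⟨N, fun K _ _ ι s y w P X g κ g0 gT κf hκ hw ev => ?_⟩
  classical
  obtain ⟨f1, f2, -, f4, f5, f6, f7⟩ := fac K s y X.rat
  obtain ⟨-, s2, -⟩ := sums K s y X.rat
  obtain ⟨c1, c2, -, c4⟩ := czr K s y X.rat
  obtain ⟨G, hG, rfl⟩ := X.lau g g0 gT
  choose b bw bA using ev
  have bi : Function.Injective b := fun r r' e => f4 _ _ _ (bA r) (e ▸ bA r')
  choose cc nn cc0 hnn using fun u : G.support => f1 u (G u) (hG u) (Finsupp.mem_support_iff.1 u.2)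
  let pt₀ : ι → Option ℂ := fun E => if h : ∃ r, At s (P E) r then h.choose else none
  have p0 : ∀ E r, At s (P E) r → pt₀ E = r := fun E r h => by
    have h' : ∃ r, At s (P E) r := ⟨r, h⟩
    simp only [pt₀, dif_pos h']
    exact f4 _ _ _ h'.choose_spec h
  have fb : {E | w E ∧ ((∃ j, (P E).ord (y j) ≠ 0) ∨ κ E ≠ 0 ∨ cz s y (P E) ≠ 0)}.Finite :=
    (((Set.finite_iUnion fun j => X.fin (y j)).union κf).union X.finc).subset fun E hE => by
      obtain ⟨h0, ⟨j, h⟩ | h | h⟩ := hE
      · exact .inl (.inl (mem_iUnion.2 ⟨j, h0, h⟩))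
      · exact .inl (.inr ⟨h0, h⟩)
      · exact .inr ⟨h0, h⟩
  obtain ⟨S, S0, S1, S2⟩ : ∃ S : Finset (Option ℂ), none ∈ S ∧
      (∀ u p, nn u p ≠ 0 → some p ∈ S) ∧ ∀ r ∉ S, ∀ E, w E → At s (P E) r →
        (∀ j, (P E).ord (y j) = 0) ∧ κ E = 0 ∧ cz s y (P E) = 0 ∧ mu s (P E) r = 1 := by
    refine ⟨insert none (fb.toFinset.image pt₀ ∪
      Finset.univ.biUnion fun u => (nn u).support.image some), Finset.mem_insert_self _ _,
      fun u p h => Finset.mem_insert_of_mem (Finset.mem_union_right _ (Finset.mem_biUnion.2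
        ⟨u, Finset.mem_univ _, Finset.mem_image_of_mem _ (Finsupp.mem_support_iff.2 h)⟩)),
      fun r hr E hE hA => ?_⟩
    have : ¬ ((∃ j, (P E).ord (y j) ≠ 0) ∨ κ E ≠ 0 ∨ cz s y (P E) ≠ 0) := fun h =>
      hr (Finset.mem_insert_of_mem (Finset.mem_union_left _ (Finset.mem_image.2
        ⟨E, fb.mem_toFinset.2 ⟨hE, h⟩, p0 E r hA⟩)))
    simp only [not_or, not_exists, not_not] at this
    refine ⟨this.1, this.2.1, this.2.2, ?_⟩
    cases r with
    | none => exact (hr (Finset.mem_insert_self _ _)).elim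
    | some p =>
      have h1 := c1 (P E) p
      have h2 : 0 < mu s (P E) (some p) := hA
      rw [this.2.2] at h1
      omega
  have fI : {E | w E ∧ ∃ r ∈ S, At s (P E) r}.Finite :=
    (S.finite_toSet.biUnion (t := fun r => {E | w E ∧ At s (P E) r}) fun r _ => by
      cases r with
      | none => exact (X.fin s).subset fun E hE => ⟨hE.1, fun h => by
          have : 0 < -(P E).ord s := hE.2
          omega⟩
      | some p => exact (X.fin (s - algebraMap ℂ K p)).subset fun E hE => ⟨hE.1, ne_of_gt hE.2⟩).subset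
      fun E ⟨h0, r, hr, h⟩ => mem_biUnion hr ⟨h0, h⟩
  obtain ⟨I, hI⟩ : ∃ I : Finset ι, ∀ E, E ∈ I ↔ w E ∧ ∃ r ∈ S, At s (P E) r :=
    ⟨fI.toFinset, fun E => fI.mem_toFinset⟩
  have Iw : ∀ l : I, w l := fun l => ((hI l).1 l.2).1
  choose pv pS pA using fun l : I => ((hI l).1 l.2).2
  let pt : I → S := fun l => ⟨pv l, pS l⟩
  have pe : ∀ (l : I) (r : S), At s (P l) r → pt l = r := fun l r h =>
    Subtype.ext (f4 _ _ _ (pA l) h)
  have oG : ∀ (u : G.support) (Q : Pl K), Q.ord (G u) = Q.ord (hm s y (nn u) u) := fun u Q => by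
    rw [hnn u, Pl.ord_smul _ (cc0 u)]
  obtain ⟨Kp, e, k, τ, a, b', k1, k2, k3, k4⟩ := hN S I G.support pt ⟨none, S0⟩
    (fun l => mu s (P l) (pv l)) (fun l => cz s y (P l)) (fun l => κ l)
    (fun l j => (P l).ord (y j)) (fun u => u) (fun u r => od (nn u) r)
    (fun r => ⟨⟨b r, (hI _).2 ⟨bw r, r, r.2, bA r⟩⟩, pe _ _ (bA r)⟩) (fun l => pA l)
    (fun l h => by
      obtain h' | ⟨p, h'⟩ := (pv l).eq_none_or_eq_some
      · exact (h (Subtype.ext h')).elim
      · rw [h']
        exact c1 _ p)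
    (fun l => by
      have h0 : 0 < mu s (P l) (pv l) := pA l
      obtain h' | ⟨p, h'⟩ := (pv l).eq_none_or_eq_some
      · rw [h']
        exact c2 _
      · have := c1 (P l) p
        rw [h'] at h0 ⊢
        omega)
    (fun u => by
      rw [Finset.sum_coe_sort S fun r => od (nn u) r]
      exact od_sum _ _ S0 (S1 u))
    (fun u l => by
      have h1 := hκ l (Iw l)
      have h2 := X.inv l (Iw l) (f5 _ _ (pA l)) G hG u (Finsupp.mem_support_iff.1 u.2)
      rw [oG, f6 _ _ _ _ (pA l)] at h2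
      simp only [dotProduct, pt]
      linarith)
    (fun ξ t v ξ0 ht hv => by
      have t0 : 0 ≤ t := ht ⟨none, S0⟩ ▸ Finset.sum_nonneg fun l _ =>
        mul_nonneg (ξ0 l) (Int.cast_nonneg (pA l).le)
      have W0 : ∀ E, 0 ≤ wt I ξ b S t E := fun E => by
        refine add_nonneg ?_ ?_ <;> split_ifs
        exacts [ξ0 _, le_rfl, t0, le_rfl]
      have W1 : ∀ E, wt I ξ b S t E ≠ 0 → w E ∧ ¬ Tv s y (P E) := fun E hE => by
        by_cases h : E ∈ I
        · exact ⟨Iw ⟨E, h⟩, f5 _ _ (pA ⟨E, h⟩)⟩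
        · by_cases h' : ∃ r ∉ S, b r = E
          · obtain ⟨r, -, rfl⟩ := h'
            exact ⟨bw r, f5 _ _ (bA r)⟩
          · exact (hE (by simp only [wt, dif_neg h, if_neg h', add_zero])).elim
      obtain ⟨Wκ, Wκ'⟩ := wt_sum I ξ bi S t κ ∅ (by simp) fun r hr h =>
        (h (S2 r hr _ (bw r) (bA r)).2.1).elim
      rw [Finset.sum_empty, mul_zero, add_zero] at Wκ'
      have Wa : ∀ u, ∀ a ∈ Hm s y u, a ≠ 0 →
          (Function.support fun E => wt I ξ b S t E * (P E).ord a).Finite ∧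
          ∑ᶠ E, wt I ξ b S t E * (P E).ord a = (u ⬝ᵥ v : ℤ) := fun u a ha a0 => by
        obtain ⟨c, n, c0, rfl⟩ := f1 u a ha a0
        simp only [Pl.ord_smul _ c0]
        have ob : ∀ r ∉ S, (P (b r)).ord (hm s y n u) = od n r := fun r hr => by
          obtain ⟨h1, -, -, h2⟩ := S2 r hr _ (bw r) (bA r)
          rw [f6 _ _ _ _ (bA r), h2]
          simp [h1]
        obtain ⟨h1, h2⟩ := wt_sum I ξ bi S t (fun E => (P E).ord (hm s y n u))
          (n.support.image some \ S) (fun r hr => (Finset.mem_sdiff.1 hr).2) fun r hr h => by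
            rw [ob r hr] at h
            cases r with
            | none => exact (hr S0).elim
            | some p =>
              exact Finset.mem_sdiff.2
                ⟨Finset.mem_image_of_mem _ (Finsupp.mem_support_iff.2 h), hr⟩
        refine ⟨h1, ?_⟩
        have h3 := od_sum n (n.support.image some ∪ S) (Finset.mem_union_right _ S0) fun p h =>
          Finset.mem_union_left _ (Finset.mem_image_of_mem _ (Finsupp.mem_support_iff.2 h))
        rw [← Finset.sdiff_union_self_eq_union, Finset.sum_union Finset.sdiff_disjoint,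
          ← Finset.sum_coe_sort S] at h3
        have h4 : ∑ l : I, ξ l * ((mu s (P l) (pv l) : ℝ) * od n (pv l)) =
            t * ∑ r : S, (od n r : ℝ) := by
          rw [← Finset.sum_fiberwise (s := Finset.univ) (g := pt), Finset.mul_sum]
          refine Finset.sum_congr rfl fun r _ => ?_
          rw [← ht r, Finset.sum_mul]
          refine Finset.sum_congr rfl fun l hl => ?_
          rw [← (Finset.mem_filter.1 hl).2, mul_assoc]
        have h5 : ∑ l : I, ξ l * ∑ j, (u j : ℝ) * (P l).ord (y j) = ∑ j, (u j : ℝ) * v j := by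
          simp only [hv, Finset.mul_sum]
          rw [Finset.sum_comm]
          exact Finset.sum_congr rfl fun j _ => Finset.sum_congr rfl fun l _ => by ring
        have h6 : ∑ l : I, ξ l * ((P l).ord (hm s y n u) : ℝ) =
            ∑ l : I, ξ l * ∑ j, (u j : ℝ) * (P l).ord (y j) +
              ∑ l : I, ξ l * ((mu s (P l) (pv l) : ℝ) * od n (pv l)) := by
          rw [← Finset.sum_add_distrib]
          refine Finset.sum_congr rfl fun l _ => ?_
          rw [f6 _ _ _ _ (pA l)]
          push_cast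
          ring
        have h7 := congrArg (Int.cast (R := ℝ)) h3
        rw [h2, h6, h5, h4, Finset.sum_congr rfl fun r hr =>
          congrArg (Int.cast (R := ℝ)) (ob r (Finset.mem_sdiff.1 hr).2), dotProduct]
        push_cast at h7 ⊢
        linear_combination t * h7
      have sc : ∀ (c : ℝ) (F : ι → ℤ),
          ∑ᶠ E, c * wt I ξ b S t E * F E = c * ∑ᶠ E, wt I ξ b S t E * F E := fun c F => by
        rw [mul_finsum]
        simp only [mul_assoc]
      by_cases v0 : v = 0
      · obtain ⟨u, hu, -⟩ := s2 G (P (b none)) g0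
        refine ⟨⟨u, Finsupp.mem_support_iff.2 hu⟩, ?_⟩
        have ad : ∀ (c : ℝ) (F : ι → ℤ), (Function.support fun E => wt I ξ b S t E * F E).Finite →
            ∑ᶠ E, (c * wt I ξ b S t E + if E = b none then 1 else 0) * F E =
              c * ∑ᶠ E, wt I ξ b S t E * F E + F (b none) := fun c F h => by
          simp only [add_mul]
          rw [finsum_add_distrib, sc c F, finsum_eq_single (fun E =>
            (if E = b none then (1 : ℝ) else 0) * F E) (b none) fun E hE => by simp [hE]]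
          · simp
          · exact h.subset fun E hE h0 => hE (by
              simp only at h0 ⊢
              rw [mul_assoc, h0, mul_zero])
          · exact (Set.finite_singleton (b none)).subset fun E hE => by
              by_contra hc
              exact hE (by simp only [mem_singleton_iff] at hc; simp [hc])
        have key : ∀ c : ℝ, 0 ≤ c → ε * q ≤ q * (cz s y (P (b none)) + 1) -
            (P (b none)).ord (tot G) - (c * ∑ l, ξ l * κ l + κ (b none)) := fun c c0 => by
          have := hw (P (b none)) (fun E => c * wt I ξ b S t E + if E = b none then 1 else 0)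
            (fun E => add_nonneg (mul_nonneg c0 (W0 E)) (by split_ifs <;> simp))
            (fun E hE => by
              by_cases h : E = b none
              · exact h ▸ ⟨bw _, f5 _ _ (bA _)⟩
              · exact W1 E fun h0 => hE (by simp [h, h0]))
            (fun u a ha a0 => by
              rw [ad c (fun E => (P E).ord a) (Wa u a ha a0).1, (Wa u a ha a0).2, v0]
              simp)
          rwa [ad c κ Wκ, Wκ'] at this
        rw [if_pos v0, v0, dotProduct_zero, Int.cast_zero, neg_zero, zero_sub, neg_nonneg]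
        by_contra hc
        rw [not_le] at hc
        obtain ⟨m, hm⟩ := exists_nat_gt ((q * (cz s y (P (b none)) + 1) -
          (P (b none)).ord (tot G) - κ (b none) - ε * q) / ∑ l, ξ l * κ l)
        rw [div_lt_iff₀ hc] at hm
        have := key m (Nat.cast_nonneg m)
        linarith
      · obtain ⟨Q, e, e0, q1, q2, q3⟩ := c4 v v0
        have e1 : (1 : ℝ) ≤ e := by exact_mod_cast e0
        have e2 : (e : ℝ) ≠ 0 := by positivity
        have oQ : ∀ n u, (e : ℝ) * Q.ord (hm s y n u) = (u ⬝ᵥ v : ℤ) := fun n u => by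
          rw [f7 Q n u q2, dotProduct]
          simp only [q1]
          push_cast
          rw [Finset.mul_sum]
          exact Finset.sum_congr rfl fun j _ => by ring
        obtain ⟨u, hu, hu'⟩ := s2 G Q g0
        refine ⟨⟨u, Finsupp.mem_support_iff.2 hu⟩, ?_⟩
        have h1 := hw Q (fun E => (e : ℝ)⁻¹ * wt I ξ b S t E)
          (fun E => mul_nonneg (by positivity) (W0 E))
          (fun E hE => W1 E fun h0 => hE (by simp [h0]))
          (fun u a ha a0 => by
            rw [sc _ (fun E => (P E).ord a), (Wa u a ha a0).2]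
            obtain ⟨c, n, c0, rfl⟩ := f1 u a ha a0
            rw [Pl.ord_smul _ c0, ← oQ n u, inv_mul_cancel_left₀ e2])
        rw [sc _ κ, Wκ'] at h1
        have h2 := oQ (nn ⟨u, Finsupp.mem_support_iff.2 hu⟩) u
        rw [← oG] at h2
        have h3 : (Q.ord (G u) : ℝ) ≤ Q.ord (tot G) := Int.cast_le.2 hu'
        have h4 : (cz s y Q : ℝ) + 1 ≤ 0 := by exact_mod_cast q3
        have h5 := mul_nonneg ε0.le (Nat.cast_nonneg (α := ℝ) q)
        have h6 := mul_nonpos_of_nonneg_of_nonpos (Nat.cast_nonneg (α := ℝ) q) h4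
        have h7 : ε * q ≤ -(Q.ord (G u) : ℝ) - (e : ℝ)⁻¹ * ∑ l, ξ l * κ l := by linarith
        have h8 := mul_le_mul_of_nonneg_left h7 (zero_le_one.trans e1)
        rw [mul_sub, mul_inv_cancel_left₀ e2, mul_neg, h2] at h8
        rw [if_neg v0]
        nlinarith)
  let τ' : ι → ℤ := fun E => if h : E ∈ I then if pt ⟨E, h⟩ ∈ Kp then 0 else τ ⟨E, h⟩ else 0
  have mk : ∀ p, p ∈ (Kp.map (Function.Embedding.subtype _)).eraseNone ↔
      ∃ h : some p ∈ S, ⟨some p, h⟩ ∈ Kp := fun p => by simp [Finset.mem_eraseNone]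
  have cs : ∀ E p, w E → p ∉ (Kp.map (Function.Embedding.subtype _)).eraseNone →
      At s (P E) (some p) → (∃ (h : some p ∈ S) (l : I), E = l ∧ pt l = ⟨some p, h⟩ ∧
        pv l = some p ∧ pt l ∉ Kp ∧ τ' l = τ l) ∨ (some p ∉ S ∧ τ' E = 0) := fun E p hE hp hA => by
    by_cases h : some p ∈ S
    · have hl : E ∈ I := (hI E).2 ⟨hE, _, h, hA⟩
      have e1 := pe ⟨E, hl⟩ ⟨_, h⟩ hA
      have e2 : pt ⟨E, hl⟩ ∉ Kp := fun h' => hp ((mk p).2 ⟨h, e1 ▸ h'⟩)
      exact .inl ⟨h, ⟨E, hl⟩, rfl, e1, congrArg Subtype.val e1, e2, by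
        simp only [τ', dif_pos hl, if_neg e2]⟩
    · refine .inr ⟨h, dif_neg fun hl => ?_⟩
      obtain ⟨-, r, hr, hr'⟩ := (hI E).1 hl
      exact h (f4 _ _ _ hr' hA ▸ hr)
  refine ⟨(Kp.map (Function.Embedding.subtype _)).eraseNone, e,
    Finsupp.onFinset I τ' fun E hE => by_contra fun h => hE (dif_neg h),
    fun p => if h : some p ∈ S then a ⟨_, h⟩ else 0, k,
    fun p => if h : some p ∈ S then b' ⟨_, h⟩ else 0,
    (Finset.card_eraseNone_le _).trans (by rwa [Finset.card_map]),
    ⟨fun E => ?_, fun E p hE hp hA => ?_, fun E hE => ?_, fun E p hE hp hA => ?_⟩,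
    fun E p hE hp hA => ?_⟩
  · simp only [Finsupp.onFinset_apply, τ']
    split_ifs <;> simp
  · simp only [Finsupp.onFinset_apply]
    obtain ⟨h, l, rfl, h1, h2, h3, h4⟩ | ⟨h, h1⟩ := cs E p hE hp hA
    · obtain ⟨-, h5, h6, -⟩ := k3 l h3
      rw [dif_pos h, h4, ← h1, ← h2]
      exact ⟨h5, h6⟩
    · obtain ⟨h2, -, -, h3⟩ := S2 _ h E hE hA
      simp [h1, h2, h3, h]
  · simp only [Finsupp.onFinset_apply, τ'] at hE
    split_ifs at hE with h h'
    · exact (hE rfl).elim
    · obtain h1 | ⟨p, h1⟩ := (pv ⟨E, h⟩).eq_none_or_eq_some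
      · exact (h' ((Subtype.ext h1 : pt ⟨E, h⟩ = ⟨none, S0⟩) ▸ k2)).elim
      · refine ⟨Iw ⟨E, h⟩, p, fun hp => ?_, h1 ▸ pA ⟨E, h⟩⟩
        obtain ⟨h2, h3⟩ := (mk p).1 hp
        exact h' ((Subtype.ext h1 : pt ⟨E, h⟩ = ⟨some p, h2⟩) ▸ h3)
    · exact (hE rfl).elim
  · simp only [Finsupp.onFinset_apply]
    obtain ⟨h, l, rfl, h1, h2, h3, h4⟩ | ⟨h, h1⟩ := cs E p hE hp hA
    · obtain ⟨l', h5, h6⟩ := k4 _ h3
      have h7 : pv l' = some p := (congrArg Subtype.val h5).trans h2
      refine ⟨l', Iw l', h7 ▸ pA l', ?_⟩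
      simp only [τ', dif_pos l'.2, h6]
      split_ifs <;> simp
    · exact ⟨E, hE, hA, h1⟩
  · simp only [Finsupp.onFinset_apply]
    obtain ⟨h, l, rfl, h1, h2, h3, h4⟩ | ⟨h, h1⟩ := cs E p hE hp hA
    · obtain ⟨h5, -, -, h6⟩ := k3 l h3
      rw [dif_pos h, h4, ← h1]
      exact ⟨h5, h6⟩
    · obtain ⟨-, h2, h3, -⟩ := S2 _ h E hE hA
      simp [h1, h2, h3, h]

end Vale.Agent.P283R.C3
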