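import Vale.Agent.P283R.C3.St
import Vale.Agent.P283R.Sl.Mb

/-!
# P283R, block C3: bounded klt complements from the membership
-/

open CategoryTheory AlgebraicGeometry

namespace Vale.Agent.P283R.C3

open Sl Sl.Var

theorem den {X : Sl.Var} {B : X.QDiv} {R : Finset ℚ} (e : ∀ y, B.coeff y ≠ 0 → B.coeff y ∈ R)
    (E : X.PrimeDiv) : ∃ m : ℤ, ((∏ r ∈ R, r.den : ℕ) : ℚ) * B.coeff E = m := by
  by_cases z : B.coeff E = 0
  · exact ⟨0, by simp [z]⟩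
  · obtain ⟨w, hw⟩ := Finset.dvd_prod_of_mem Rat.den (e E z)
    refine ⟨w * (B.coeff E).num, ?_⟩
    rw [hw]
    push_cast
    rw [mul_comm (_ : ℚ) (w : ℚ), mul_assoc, Rat.den_mul_eq_num]

/-- the membership, for coefficients in `R` -/
theorem mem_of (h : MEM) (ε : ℝ) (hε : 0 < ε) (R : Finset ℚ) : ∃ l : ℕ, ∀ (X Z : Sl.Var)
    (f : X.X ⟶ Z.X) (ω : X.Form 3) (B : X.QDiv) (z : Pt Z.X), dimension X.str = (3 : ℕ) →
    ω.Nonzero → Pair (ε ≤ ·) (all X.X) ω B → (∀ y, B.coeff y ≠ 0 → B.coeff y ∈ R) →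
    Contraction f → FanoType f ω → NefOver f (-logCan ω B) → z.Closed →
    (∃ V : Z.X.Opens, IsAffineOpen V ∧ z.In V ∧ ComplexityOne (pre f V) 2) →
    Generated l f ω B z :=
  (h ε _ hε (Finset.one_le_prod' fun r _ => r.den_pos)).imp
    fun _ H X Z f ω B z a b c e s t u v ⟨V, i, j, k⟩ =>
      H X Z f ω B z V a b c (den e) s t u v i j k

theorem on_c3_of (h : MEM) : On fun d _ Z f ω B z => d = 3 ∧ FanoType f ω ∧
    NefOver f (-logCan ω B) ∧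
      ∃ V : Z.X.Opens, IsAffineOpen V ∧ z.In V ∧ ComplexityOne (pre f V) 2 := by
  intro d hd ε hε R hR
  obtain ⟨l, H⟩ := mem_of h ε hε R
  obtain ⟨n, n1, G⟩ := on_gen' l d hd ε hε R hR
  refine ⟨n, n1, fun X Z f ω B z a b c e s t u => ?_⟩
  obtain ⟨rfl, u1, u2, u3⟩ := u
  exact G X Z f ω B z a b c e s t ⟨u1, u2, H X Z f ω B z a b c e s u1 u2 t u3⟩

end Vale.Agent.P283R.C3
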