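import Vale.Agent.P283R.C3.All0
import Vale.Agent.P283R.C3.On
import Vale.Agent.P283R.C3.Ell
import Vale.Agent.P283R.C3.Fm

/-!
# P283R, block C3: threefolds with a torus action of complexity one
-/

open CategoryTheory AlgebraicGeometry

namespace Vale.Agent.P283R.C3

open Sl Sl.Var

theorem mem : MEM := mem_of_rows ellr fmr

/-- **bounded klt complements for threefolds of complexity one, any boundary** -/
theorem on_c3 : On fun d _ Z f ω B z => d = 3 ∧ FanoType f ω ∧ NefOver f (-logCan ω B) ∧
    ∃ V : Z.X.Opens, IsAffineOpen V ∧ z.In V ∧ ComplexityOne (pre f V) 2 :=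
  on_c3_of mem

end Vale.Agent.P283R.C3
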