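import Mathlib

/-!
# P283R, block C3: the lattice counting for complexity one threefolds
-/

open Finset Function

noncomputable section

namespace Vale.Agent.P283R.C3

namespace M59

/-- sums of generating sets fill a finite group -/
theorem fill {G J : Type} [AddCommGroup G] [Fintype G] (A : J → Set G) (h0 : ∀ i, 0 ∈ A i)
    (hA : ∀ i, AddSubgroup.closure (A i) = ⊤) (I : Finset J) :
    ∃ S : Finset G, (S = univ ∨ I.card < S.card) ∧
      ∀ g ∈ S, ∃ a : J → G, (∀ i, a i ∈ A i) ∧ ∑ i ∈ I, a i = g := by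
  classical
  induction I using Finset.induction_on with
  | empty => exact ⟨{0}, .inr (by simp), fun g hg => ⟨0, h0, by simpa using (mem_singleton.1 hg).symm⟩⟩
  | insert j I hj ih =>
    obtain ⟨S, h1, h2⟩ := ih
    have ext : ∀ g ∈ S, ∀ x ∈ A j, ∃ a : J → G, (∀ i, a i ∈ A i) ∧
        ∑ i ∈ insert j I, a i = g + x := fun g hg x hx => by
      obtain ⟨a, a1, a2⟩ := h2 g hg
      refine ⟨update a j x, fun i => ?_, ?_⟩
      · rcases eq_or_ne i j with rfl | e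
        · simpa using hx
        · simpa [e] using a1 i
      · rw [sum_insert hj, update_self, add_comm, ← a2]
        congr 1
        exact sum_congr rfl fun i hi => update_of_ne (ne_of_mem_of_not_mem hi hj) _ _
    by_cases k : ∀ g ∈ S, ∀ x ∈ A j, g + x ∈ S
    · refine ⟨S, .inl ?_, fun g hg => by simpa using ext g hg 0 (h0 j)⟩
      have ne : S.Nonempty := by
        rcases h1 with rfl | h1
        · exact univ_nonempty
        · exact card_pos.1 (by omega)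
      have st : ∀ x ∈ AddSubgroup.closure (A j), ∀ g ∈ S, g + x ∈ S := fun x hx => by
        induction hx using AddSubgroup.closure_induction with
        | mem x hx => exact fun g hg => k g hg x hx
        | zero => simp
        | add x y _ _ a b => exact fun g hg => add_assoc g x y ▸ b _ (a g hg)
        | neg x _ a =>
          intro g hg
          obtain ⟨y, hy, e⟩ := Finset.surjOn_of_injOn_of_card_le (s := S) (t := S) (· + x)
            (fun g hg => a g hg) (fun _ _ _ _ e => add_right_cancel e) le_rfl hg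
          have : g + -x = y := by rw [← e]; simp
          exact this ▸ hy
      obtain ⟨g, hg⟩ := ne
      refine eq_univ_of_forall fun y => ?_
      simpa using st (y - g) (hA j ▸ AddSubgroup.mem_top _) g hg
    · push Not at k
      obtain ⟨g, hg, x, hx, n⟩ := k
      refine ⟨insert (g + x) S, .inr ?_, fun y hy => ?_⟩
      · rw [card_insert_of_notMem n, card_insert_of_notMem hj]
        rcases h1 with rfl | h1
        · exact (n (mem_univ _)).elim
        · omega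
      · rcases mem_insert.1 hy with rfl | hy
        · exact ext g hg x hx
        · simpa using ext y hy 0 (h0 j)

/-- the real vector of an integral vector -/
def rl (a : Fin 2 → ℤ) : Fin 2 → ℝ := fun i => a i

theorem frac {a a' : Fin 2 → ℤ} (h : a 0 * a' 1 ≠ a 1 * a' 0) (y : Fin 2 → ℝ) :
    ∃ (s s' : ℝ) (k k' : ℤ), s ∈ Set.Icc (0 : ℝ) 1 ∧ s' ∈ Set.Icc (0 : ℝ) 1 ∧
      y = rl (k • a + k' • a') + (s • rl a + s' • rl a') := by
  have d : (a 0 * a' 1 - a 1 * a' 0 : ℝ) ≠ 0 := by exact_mod_cast sub_ne_zero.2 h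
  obtain ⟨α, hα⟩ : ∃ α, α = (y 0 * a' 1 - y 1 * a' 0) / (a 0 * a' 1 - a 1 * a' 0 : ℝ) := ⟨_, rfl⟩
  obtain ⟨β, hβ⟩ : ∃ β, β = (a 0 * y 1 - a 1 * y 0) / (a 0 * a' 1 - a 1 * a' 0 : ℝ) := ⟨_, rfl⟩
  refine ⟨Int.fract α, Int.fract β, ⌊α⌋, ⌊β⌋, ⟨Int.fract_nonneg _, (Int.fract_lt_one _).le⟩,
    ⟨Int.fract_nonneg _, (Int.fract_lt_one _).le⟩, ?_⟩
  have e : ∀ i, y i = α * a i + β * a' i := by
    rw [eq_div_iff d] at hα hβ
    rw [Fin.forall_fin_two]
    constructor <;> refine mul_right_cancel₀ d ?_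
    · linear_combination (-(a 0 : ℝ)) * hα - (a' 0 : ℝ) * hβ
    · linear_combination (-(a 1 : ℝ)) * hα - (a' 1 : ℝ) * hβ
  funext i
  simp only [rl, Pi.add_apply, Pi.smul_apply, smul_eq_mul, Int.fract, e i]
  push_cast
  ring

/-- many parallelograms contain a nonzero point of `L ℤ²` -/
theorem hit {L : ℕ} (hL : 1 ≤ L) (a a' : Fin (4 * L ^ 2 + 1) → Fin 2 → ℤ)
    (h : ∀ i, a i 0 * a' i 1 ≠ a i 1 * a' i 0) (w : Fin 2 → ℝ) :
    ∃ (s s' : Fin (4 * L ^ 2 + 1) → ℝ) (m : Fin 2 → ℤ), m ≠ 0 ∧ (∀ i, s i ∈ Set.Icc (0 : ℝ) 1) ∧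
      (∀ i, s' i ∈ Set.Icc (0 : ℝ) 1) ∧
      w + ∑ i, (s i • rl (a i) + s' i • rl (a' i)) = (L : ℝ) • rl m := by
  classical
  have : NeZero (2 * L) := ⟨by omega⟩
  let φ : (Fin 2 → ℤ) →+ (Fin 2 → ZMod (2 * L)) :=
    AddMonoidHom.pi fun i => (Int.castAddHom _).comp (Pi.evalAddMonoidHom (fun _ => ℤ) i)
  have hφ : ∀ z i, φ z i = (z i : ZMod (2 * L)) := fun _ _ => rfl
  let P : Fin (4 * L ^ 2) → Set (Fin 2 → ℤ) := fun i => {z | ∃ s ∈ Set.Icc (0 : ℝ) 1,
    ∃ s' ∈ Set.Icc (0 : ℝ) 1, rl z = s • rl (a i.succ) + s' • rl (a' i.succ)}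
  have z1 : (0 : ℝ) ∈ Set.Icc (0 : ℝ) 1 := ⟨le_rfl, zero_le_one⟩
  have o1 : (1 : ℝ) ∈ Set.Icc (0 : ℝ) 1 := ⟨zero_le_one, le_rfl⟩
  obtain ⟨S, h1, h2⟩ := fill (fun i => φ '' P i)
    (fun i => ⟨0, ⟨0, z1, 0, z1, by funext j; simp [rl]⟩, map_zero φ⟩) (fun i => by
      refine eq_top_iff.2 fun g _ => ?_
      obtain ⟨z, rfl⟩ : ∃ z, φ z = g := ⟨fun j => ((g j).val : ℤ), funext fun j => by simp [hφ]⟩
      obtain ⟨s, s', k, k', b, b', e⟩ := frac (h i.succ) (rl z)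
      have e1 : z = k • a i.succ + k' • a' i.succ + (z - (k • a i.succ + k' • a' i.succ)) := by
        abel
      rw [e1, map_add, map_add, map_zsmul, map_zsmul]
      have c : ∀ x ∈ P i, φ x ∈ AddSubgroup.closure (φ '' P i) := fun x hx =>
        AddSubgroup.subset_closure ⟨x, hx, rfl⟩
      refine add_mem (add_mem (zsmul_mem (c _ ⟨1, o1, 0, z1, ?_⟩) _)
        (zsmul_mem (c _ ⟨0, z1, 1, o1, ?_⟩) _)) (c _ ⟨s, b, s', b', ?_⟩)
      · simp
      · simp
      · rw [← sub_eq_iff_eq_add'.2 e]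
        funext j
        simp [rl]) univ
  have hS : S = univ := h1.resolve_right (by
    have := card_le_univ S
    simp only [Fintype.card_pi, ZMod.card, prod_const, card_univ, Fintype.card_fin] at this ⊢
    nlinarith)
  obtain ⟨s₀, s₀', k, k', b, b', e⟩ := frac (h 0) (-w)
  obtain ⟨g, g1, g2⟩ := h2 (φ (![(L : ℤ), 0] + (k • a 0 + k' • a' 0))) (hS ▸ mem_univ _)
  choose z hz ez using g1
  choose s hs s' hs' es using hz
  have dv : ∀ j, ∃ c : ℤ, (∑ i, z i - (![(L : ℤ), 0] + (k • a 0 + k' • a' 0))) j = 2 * L * c :=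
    fun j => by
      have : φ (∑ i, z i - (![(L : ℤ), 0] + (k • a 0 + k' • a' 0))) = 0 := by
        rw [map_sub, map_sum, ← g2, sub_eq_zero]
        exact sum_congr rfl fun i _ => ez i
      have t := congrFun this j
      rw [hφ] at t
      exact_mod_cast (ZMod.intCast_zmod_eq_zero_iff_dvd _ _).1 t
  choose c hc using dv
  refine ⟨Fin.cons s₀ s, Fin.cons s₀' s', ![2 * c 0 + 1, 2 * c 1], fun t => ?_,
    Fin.cases b hs, Fin.cases b' hs', ?_⟩
  · have := congrFun t 0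
    simp at this
    omega
  · rw [Fin.sum_univ_succ]
    simp only [Fin.cons_zero, Fin.cons_succ, ← es]
    rw [← sub_eq_iff_eq_add'.2 e]
    funext j
    have t : ((∑ i, z i j : ℤ) : ℝ) - ((![(L : ℤ), 0] j + (k * a 0 j + k' * a' 0 j) : ℤ) : ℝ) =
        ((2 * L * c j : ℤ) : ℝ) := by
      rw [← hc j, Pi.sub_apply, Finset.sum_apply, Int.cast_sub]
      rfl
    simp only [rl, Pi.add_apply, Pi.sub_apply, Pi.neg_apply, Finset.sum_apply, Pi.smul_apply,
      smul_eq_mul]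
    push_cast at t ⊢
    fin_cases j <;> simp at t ⊢ <;> linarith

/-- a small hitting set or many disjoint pairs -/
theorem mtc {I : Type} (R : I → I → Prop) (hR : ∀ r r', R r r' → r ≠ r') (j : ℕ) :
    (∃ U : Finset I, U.card ≤ 2 * j ∧ ∀ r r', R r r' → r ∈ U ∨ r' ∈ U) ∨
      ∃ F : Fin j ⊕ Fin j → I, Injective F ∧ ∀ i, R (F (.inl i)) (F (.inr i)) := by
  classical
  induction j with
  | zero => exact .inr ⟨fun x => x.elim Fin.elim0 Fin.elim0, fun x => x.elim Fin.elim0 Fin.elim0,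
      fun i => i.elim0⟩
  | succ j ih =>
    rcases ih with ⟨U, a, b⟩ | ⟨F, a, b⟩
    · exact .inl ⟨U, by omega, b⟩
    by_cases k : ∀ r r', R r r' → r ∈ univ.image F ∨ r' ∈ univ.image F
    · refine .inl ⟨_, card_image_le.trans ?_, k⟩
      simp only [card_univ, Fintype.card_sum, Fintype.card_fin]
      omega
    push Not at k
    obtain ⟨r, r', c, n, n'⟩ := k
    simp only [mem_image, mem_univ, true_and, not_exists] at n n'
    have ne := hR _ _ c
    refine .inr ⟨Sum.elim (Fin.cons r fun i => F (.inl i)) (Fin.cons r' fun i => F (.inr i)),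
      ?_, Fin.cases c b⟩
    rintro (x | x) (y | y) <;> induction x using Fin.cases <;> induction y using Fin.cases <;>
      simp [a.eq_iff, n, n', ne, ne.symm, fun x => Ne.symm (n x), fun x => Ne.symm (n' x)]

/-- parallel vectors are multiples of one vector -/
theorem cyc (x : Fin 3 → ℤ) (hx : x ≠ 0) :
    ∃ T : Fin 3 → ℤ, ∀ y : Fin 3 → ℤ, (∀ i j, x i * y j = x j * y i) → ∃ k : ℤ, y = k • T := by
  obtain ⟨i, hi⟩ := Function.ne_iff.1 hx
  let H : AddSubgroup (Fin 3 → ℤ) :=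
    { carrier := {y | ∀ j, x i * y j = x j * y i}
      zero_mem' := fun j => by simp
      add_mem' := fun {a b} ha hb j => by
        simp only [Pi.add_apply, mul_add, ha j, hb j]
      neg_mem' := fun {a} ha j => by simp only [Pi.neg_apply, mul_neg, ha j] }
  obtain ⟨g, hg⟩ := Int.subgroup_cyclic (H.map (Pi.evalAddMonoidHom (fun _ => ℤ) i))
  obtain ⟨T, hT, e⟩ : g ∈ H.map (Pi.evalAddMonoidHom (fun _ => ℤ) i) :=
    hg ▸ AddSubgroup.subset_closure rfl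
  refine ⟨T, fun y hy => ?_⟩
  have m : y i ∈ H.map (Pi.evalAddMonoidHom (fun _ => ℤ) i) := ⟨y, fun j => hy i j, rfl⟩
  rw [hg] at m
  obtain ⟨k, hk⟩ := AddSubgroup.mem_closure_singleton.1 m
  refine ⟨k, funext fun j => mul_left_cancel₀ hi ?_⟩
  have e' : T i = g := e
  have t : x i * T j = x j * T i := hT j
  rw [hy i j, ← hk, ← e', Pi.smul_apply, smul_eq_mul, smul_eq_mul]
  linear_combination (-k) * t

theorem sgn {a a' k k' : ℝ} (h : ∀ ε ε' : ℝ, (ε = 1 ∨ ε = -1) → (ε' = 1 ∨ ε' = -1) →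
    ∃ p p', a' * p = a * p' ∧ 0 ≤ ε * (k + p) ∧ 0 ≤ ε' * (k' + p')) : k * a' = k' * a := by
  obtain ⟨p1, q1, a1, b1, c1⟩ := h 1 1 (.inl rfl) (.inl rfl)
  obtain ⟨p2, q2, a2, b2, c2⟩ := h 1 (-1) (.inl rfl) (.inr rfl)
  obtain ⟨p3, q3, a3, b3, c3⟩ := h (-1) 1 (.inr rfl) (.inl rfl)
  obtain ⟨p4, q4, a4, b4, c4⟩ := h (-1) (-1) (.inr rfl) (.inr rfl)
  rcases le_total 0 a with x | x <;> rcases le_total 0 a' with y | y
  · exact le_antisymm (by nlinarith [mul_nonneg y b3, mul_nonneg x c3])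
      (by nlinarith [mul_nonneg y b2, mul_nonneg x c2])
  · exact le_antisymm (by nlinarith [mul_nonneg (neg_nonneg.2 y) b1, mul_nonneg x c1])
      (by nlinarith [mul_nonneg (neg_nonneg.2 y) b4, mul_nonneg x c4])
  · exact le_antisymm (by nlinarith [mul_nonneg y b4, mul_nonneg (neg_nonneg.2 x) c4])
      (by nlinarith [mul_nonneg y b1, mul_nonneg (neg_nonneg.2 x) c1])
  · exact le_antisymm
      (by nlinarith [mul_nonneg (neg_nonneg.2 y) b2, mul_nonneg (neg_nonneg.2 x) c2])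
      (by nlinarith [mul_nonneg (neg_nonneg.2 y) b3, mul_nonneg (neg_nonneg.2 x) c3])

/-- the sum of the chosen vertices -/
def wt {I D : Type} [Fintype I] (n : D → Fin 2 → ℤ) (μ : D → ℕ) (c : I → D) : Fin 2 → ℝ :=
  ∑ r, (μ (c r) : ℝ)⁻¹ • rl (n (c r))

end M59

open M59

/-- **MAT**: outside of a bounded set of points all lifted edges are multiples of one vector -/
theorem mat {I D : Type} [Fintype I] [Finite D] (pt : D → I) (sj : Surjective pt)
    (n : D → Fin 2 → ℤ) (μ : D → ℕ) (κ : D → ℤ) (A L : ℕ) (hL : 1 ≤ L)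
    (H1 : ∀ c : I → D, (∀ r, pt (c r) = r) → ∃ (u : Fin 2 → ℝ) (E : Finset I), E.card ≤ A ∧
      ∀ r ∉ E, μ (c r) = 1 ∧ ∀ d, pt d = r → μ d = 1 →
        κ (c r) + u ⬝ᵥ rl (n (c r)) ≤ κ d + u ⬝ᵥ rl (n d))
    (H2 : ∀ m : Fin 2 → ℤ, m ≠ 0 → ∃ (u : Fin 2 → ℝ) (x : ℝ),
      (∀ c : I → D, (∀ r, pt (c r) = r) → x ≤ u ⬝ᵥ wt n μ c) ∧ L * u ⬝ᵥ rl m < x) :
    ∃ (Kp : Finset I) (T : Fin 2 → ℤ) (k₀ : ℤ) (b : I → D) (τ : D → ℕ),
      Kp.card ≤ 3 * A + 8 * L ^ 2 + 5 ∧ (∀ r, pt (b r) = r) ∧ (∀ r, τ (b r) = 0) ∧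
      ∀ d, pt d ∉ Kp → μ d = 1 ∧ n d = n (b (pt d)) + (τ d : ℤ) • T ∧
        κ d = κ (b (pt d)) + τ d * k₀ := by
  classical
  choose b₀ hb₀ using sj
  -- the points with a multiple vertex
  obtain ⟨U₁, u1, v1⟩ : ∃ U : Finset I, U.card ≤ A ∧ ∀ d, pt d ∉ U → μ d = 1 := by
    have : ∀ r, ∃ d, pt d = r ∧ (μ d = 1 → ∀ d', pt d' = r → μ d' = 1) := fun r => by
      by_cases k : ∀ d', pt d' = r → μ d' = 1
      · exact ⟨_, hb₀ r, fun _ => k⟩
      · push Not at k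
        obtain ⟨d, a, b⟩ := k
        exact ⟨d, a, fun e => (b e).elim⟩
    choose c c1 c2 using this
    obtain ⟨_, E, a, b⟩ := H1 c c1
    exact ⟨E, a, fun d hd => c2 _ (b _ hd).1 d rfl⟩
  have ext : ∀ {J : Type} (F : J → I) (_ : Injective F) (d : J → D) (_ : ∀ x, pt (d x) = F x) r,
      pt (extend F d b₀ r) = r := fun F hF d hd r => by
    by_cases k : ∃ x, F x = r
    · obtain ⟨x, rfl⟩ := k
      rw [hF.extend_apply, hd]
    · rw [extend_apply' _ _ _ k, hb₀]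
  -- edges which are not parallel
  obtain ⟨U₂, u2, v2⟩ := (mtc (fun r r' => r ≠ r' ∧ ∃ d d' e e', pt d = r ∧ pt d' = r ∧
      pt e = r' ∧ pt e' = r' ∧ μ d = 1 ∧ μ d' = 1 ∧ μ e = 1 ∧ μ e' = 1 ∧
      (n d' - n d) 0 * (n e' - n e) 1 ≠ (n d' - n d) 1 * (n e' - n e) 0) (fun _ _ h => h.1)
      (4 * L ^ 2 + 1)).resolve_right (by
    rintro ⟨F, hF, k⟩
    choose d d' e e' p1 p2 p3 p4 m1 m2 m3 m4 k using fun i => (k i).2
    have q0 : ∀ x, pt (Sum.elim d e x) = F x := by rintro (x | x); exacts [p1 x, p3 x]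
    have q1 : ∀ x, pt (Sum.elim d' e' x) = F x := by rintro (x | x); exacts [p2 x, p4 x]
    obtain ⟨s, s', m, m0, hs, hs', es⟩ := hit hL _ _ k (wt n μ (extend F (Sum.elim d e) b₀))
    obtain ⟨u, x, a, b⟩ := H2 m m0
    let d'' : _ → D := fun y => if u ⬝ᵥ rl (n (Sum.elim d' e' y)) < u ⬝ᵥ rl (n (Sum.elim d e y))
      then Sum.elim d' e' y else Sum.elim d e y
    have q2 : ∀ y, pt (d'' y) = F y := fun y => by
      simp only [d'']; split_ifs; exacts [q1 y, q0 y]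
    have t := a _ (ext F hF d'' q2)
    have e1 : u ⬝ᵥ wt n μ (extend F d'' b₀) - u ⬝ᵥ wt n μ (extend F (Sum.elim d e) b₀) =
        ∑ y, (u ⬝ᵥ rl (n (d'' y)) - u ⬝ᵥ rl (n (Sum.elim d e y))) := by
      simp only [wt, dotProduct_sum, ← sum_sub_distrib]
      refine (Fintype.sum_of_injective F hF _ _ (fun r hr => ?_) fun y => ?_).symm
      · rw [extend_apply' _ _ _ hr, extend_apply' _ _ _ hr, sub_self]
      · have x0 : μ (Sum.elim d e y) = 1 := by rcases y with y | y; exacts [m1 y, m3 y]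
        have x1 : μ (Sum.elim d' e' y) = 1 := by rcases y with y | y; exacts [m2 y, m4 y]
        have x2 : μ (d'' y) = 1 := by simp only [d'']; split_ifs; exacts [x1, x0]
        rw [hF.extend_apply, hF.extend_apply, x0, x2]
        simp
    have e2 := congrArg (u ⬝ᵥ ·) es
    simp only [dotProduct_add, dotProduct_sum, dotProduct_smul, smul_eq_mul] at e2
    have rs : ∀ p q : Fin 2 → ℤ, u ⬝ᵥ rl (p - q) = u ⬝ᵥ rl p - u ⬝ᵥ rl q := fun p q => by
      rw [← dotProduct_sub]; congr 1; funext j; simp [rl]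
    have le : ∀ (σ : ℝ), σ ∈ Set.Icc (0 : ℝ) 1 → ∀ y, u ⬝ᵥ rl (n (d'' y)) -
        u ⬝ᵥ rl (n (Sum.elim d e y)) ≤
        σ * (u ⬝ᵥ rl (n (Sum.elim d' e' y)) - u ⬝ᵥ rl (n (Sum.elim d e y))) := fun σ h y => by
      simp only [d'']
      split_ifs with w
      · nlinarith [h.1, h.2]
      · nlinarith [h.1, h.2]
    have e3 : ∑ y, (u ⬝ᵥ rl (n (d'' y)) - u ⬝ᵥ rl (n (Sum.elim d e y))) ≤
        ∑ i, (s i * u ⬝ᵥ rl (n (d' i) - n (d i)) + s' i * u ⬝ᵥ rl (n (e' i) - n (e i))) := by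
      rw [Fintype.sum_sum_type, ← sum_add_distrib]
      refine sum_le_sum fun i _ => ?_
      rw [rs, rs]
      exact add_le_add (le _ (hs i) (.inl i)) (le _ (hs' i) (.inr i))
    linarith)
  -- different slopes
  obtain ⟨U₃, u3, v3⟩ := (mtc (fun r r' => r ≠ r' ∧ ∃ d d' e e', pt d = r ∧ pt d' = r ∧
      pt e = r' ∧ pt e' = r' ∧ μ d' = 1 ∧ μ e' = 1 ∧ ∀ u : Fin 2 → ℝ,
      ¬ (κ d + u ⬝ᵥ rl (n d) ≤ κ d' + u ⬝ᵥ rl (n d') ∧
        κ e + u ⬝ᵥ rl (n e) ≤ κ e' + u ⬝ᵥ rl (n e'))) (fun _ _ h => h.1)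
      (A + 1)).resolve_right (by
    rintro ⟨F, hF, k⟩
    choose d d' e e' p1 p2 p3 p4 m2 m4 k using fun i => (k i).2
    have q0 : ∀ x, pt (Sum.elim d e x) = F x := by rintro (x | x); exacts [p1 x, p3 x]
    obtain ⟨u, E, a, b⟩ := H1 _ (ext F hF _ q0)
    have : ∀ i, ∃ x : Fin (A + 1) ⊕ Fin (A + 1), Sum.elim id id x = i ∧ F x ∈ E := fun i => by
      by_contra w
      push Not at w
      have x1 := (b _ (w (.inl i) rfl)).2 _ (p2 i) (m2 i)
      have x2 := (b _ (w (.inr i) rfl)).2 _ (p4 i) (m4 i)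
      rw [hF.extend_apply] at x1 x2
      exact k i u ⟨x1, x2⟩
    choose x x1 x2 using this
    have := card_le_card_of_injOn (s := univ) (t := E) (fun i => F (x i)) (fun i _ => x2 i)
      fun i _ j _ h => by rw [← x1 i, ← x1 j, hF h]
    simp at this
    omega)
  -- the lifted edges
  let ℓ : D → Fin 3 → ℤ := fun d => ![n d 0, n d 1, κ d]
  have par : ∀ d d' e e', pt d = pt d' → pt e = pt e' → pt d ≠ pt e → pt d ∉ U₁ ∪ U₂ ∪ U₃ →
      pt e ∉ U₁ ∪ U₂ ∪ U₃ → ∀ i j, (ℓ d' - ℓ d) i * (ℓ e' - ℓ e) j =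
        (ℓ d' - ℓ d) j * (ℓ e' - ℓ e) i := by
    intro d d' e e' a b ne x y
    simp only [Finset.mem_union, not_or] at x y
    have m1 := v1 d x.1.1
    have m2 := v1 d' (a ▸ x.1.1)
    have m3 := v1 e y.1.1
    have m4 := v1 e' (b ▸ y.1.1)
    have dt : (n d' - n d) 0 * (n e' - n e) 1 = (n d' - n d) 1 * (n e' - n e) 0 := by
      by_contra w
      exact (v2 _ _ ⟨ne, d, d', e, e', rfl, a.symm, rfl, b.symm, m1, m2, m3, m4, w⟩).elim x.1.2 y.1.2
    have ex : ∀ f f' g g', pt f = pt d → pt f' = pt d → pt g = pt e → pt g' = pt e → μ f' = 1 →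
        μ g' = 1 → ∃ u : Fin 2 → ℝ, κ f + u ⬝ᵥ rl (n f) ≤ κ f' + u ⬝ᵥ rl (n f') ∧
          κ g + u ⬝ᵥ rl (n g) ≤ κ g' + u ⬝ᵥ rl (n g') := fun f f' g g' a1 a2 a3 a4 a5 a6 => by
      by_contra w
      exact (v3 _ _ ⟨ne, f, f', g, g', a1, a2, a3, a4, a5, a6, not_exists.1 w⟩).elim x.2 y.2
    have dr : ((n d' 0 : ℝ) - n d 0) * (n e' 1 - n e 1) = (n d' 1 - n d 1) * (n e' 0 - n e 0) := by
      simp only [Pi.sub_apply] at dt
      exact_mod_cast dt
    have sl : ∀ i : Fin 2, ((κ d' : ℝ) - κ d) * (n e' i - n e i) =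
        (κ e' - κ e) * (n d' i - n d i) := fun i => by
      refine sgn fun ε ε' h h' => ?_
      have key : ∀ u : Fin 2 → ℝ, ((n e' i : ℝ) - n e i) * (u ⬝ᵥ rl (n d') - u ⬝ᵥ rl (n d)) =
          (n d' i - n d i) * (u ⬝ᵥ rl (n e') - u ⬝ᵥ rl (n e)) := fun u => by
        simp only [dotProduct, Fin.sum_univ_two, rl]
        fin_cases i
        · simp only [Fin.zero_eta]; linear_combination (-u 1) * dr
        · simp only [Fin.mk_one]; linear_combination (u 0) * dr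
      rcases h with rfl | rfl <;> rcases h' with rfl | rfl
      · obtain ⟨u, p, q⟩ := ex d d' e e' rfl a.symm rfl b.symm m2 m4
        exact ⟨_, _, key u, by linarith, by linarith⟩
      · obtain ⟨u, p, q⟩ := ex d d' e' e rfl a.symm b.symm rfl m2 m3
        exact ⟨_, _, key u, by linarith, by linarith⟩
      · obtain ⟨u, p, q⟩ := ex d' d e e' a.symm rfl rfl b.symm m1 m4
        exact ⟨_, _, key u, by linarith, by linarith⟩
      · obtain ⟨u, p, q⟩ := ex d' d e' e a.symm rfl b.symm rfl m1 m3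
        exact ⟨_, _, key u, by linarith, by linarith⟩
    have s0 : (κ d' - κ d) * (n e' 0 - n e 0) = (κ e' - κ e) * (n d' 0 - n d 0) := by
      exact_mod_cast sl 0
    have s1 : (κ d' - κ d) * (n e' 1 - n e 1) = (κ e' - κ e) * (n d' 1 - n d 1) := by
      exact_mod_cast sl 1
    simp only [Pi.sub_apply] at dt
    intro i j
    fin_cases i <;> fin_cases j <;> simp [ℓ] <;> linarith
  obtain ⟨U, T, u4, v4, hT⟩ : ∃ (U : Finset I) (T : Fin 3 → ℤ), U.card ≤ (U₁ ∪ U₂ ∪ U₃).card + 1 ∧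
      U₁ ⊆ U ∧ ∀ e e', pt e = pt e' → pt e ∉ U → ∃ k : ℤ, ℓ e' - ℓ e = k • T := by
    by_cases k : ∀ e e', pt e = pt e' → pt e ∉ U₁ ∪ U₂ ∪ U₃ → ℓ e' - ℓ e = 0
    · exact ⟨_, 0, Nat.le_succ _, subset_union_left.trans subset_union_left,
        fun e e' a b => ⟨0, by rw [k e e' a b, zero_smul]⟩⟩
    push Not at k
    obtain ⟨d, d', a, b, c⟩ := k
    obtain ⟨T, hT⟩ := cyc _ c
    refine ⟨insert (pt d) (U₁ ∪ U₂ ∪ U₃), T, card_insert_le _ _,
      (subset_union_left.trans subset_union_left).trans (subset_insert _ _), fun e e' x y => ?_⟩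
    rw [mem_insert, not_or] at y
    exact hT _ (par d d' e e' a x (Ne.symm y.1) b y.2)
  have base : ∀ r, ∃ b, pt b = r ∧ (r ∉ U → ∀ d, pt d = r → ∃ k : ℕ, (d = b → k = 0) ∧
      ℓ d - ℓ b = (k : ℤ) • T) := fun r => by
    by_cases hr : r ∈ U
    · exact ⟨_, hb₀ r, fun h => (h hr).elim⟩
    have : ∀ d : {d // pt d = r}, ∃ k : ℤ, ℓ d - ℓ (b₀ r) = k • T := fun d =>
      hT _ _ ((hb₀ r).trans d.2.symm) ((hb₀ r).symm ▸ hr)
    choose k hk using this
    have : Nonempty {d // pt d = r} := ⟨⟨_, hb₀ r⟩⟩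
    obtain ⟨m, hm⟩ := Finite.exists_min k
    refine ⟨m, m.2, fun _ d hd => ⟨(k ⟨d, hd⟩ - k m).toNat, fun e => ?_, ?_⟩⟩
    · have : (⟨d, hd⟩ : {d // pt d = r}) = m := Subtype.ext e
      simp [this]
    · rw [Int.toNat_of_nonneg (sub_nonneg.2 (hm _)), sub_smul, ← hk, ← hk]
      simp
  choose b b1 b2 using base
  have tau : ∀ d, ∃ k : ℕ, (d = b (pt d) → k = 0) ∧
      (pt d ∉ U → ℓ d - ℓ (b (pt d)) = (k : ℤ) • T) := fun d => by
    by_cases h : pt d ∈ U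
    · exact ⟨0, fun _ => rfl, fun w => (w h).elim⟩
    · obtain ⟨k, x, y⟩ := b2 _ h d rfl
      exact ⟨k, x, fun _ => y⟩
  choose τ t1 t2 using tau
  refine ⟨U, ![T 0, T 1], T 2, b, τ, ?_, b1, fun r => t1 _ (by rw [b1]), fun d hd =>
    ⟨v1 d fun w => hd (v4 w), ?_, ?_⟩⟩
  · have := card_union_le (U₁ ∪ U₂) U₃
    have := card_union_le U₁ U₂
    omega
  · have x0 := congrFun (t2 d hd) 0
    have x1 := congrFun (t2 d hd) 1
    funext i
    fin_cases i <;> simp [ℓ] at x0 x1 ⊢ <;> linarith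
  · have x := congrFun (t2 d hd) 2
    simp [ℓ] at x
    linarith

/-- the first hypothesis of `mat` from the inequality on the projective line -/
theorem h1_of {I D : Type} [Fintype I] (pt : D → I) (n : D → Fin 2 → ℤ) (μ : D → ℕ)
    (hμ : ∀ d, 0 < μ d) (κ : D → ℤ) {q A : ℕ} (hq : 1 ≤ q) (c : I → D) (hc : ∀ r, pt (c r) = r)
    (u : Fin 2 → ℤ) (a : I → ℤ) (β : D → ℤ) (h0 : ∀ d, 0 ≤ β d)
    (hβ : ∀ d, μ d = 1 → β d = κ d + u ⬝ᵥ n d + a (pt d))
    (h : ∑ r, (2 * q * (1 - (μ (c r) : ℝ)⁻¹) + β (c r) / μ (c r)) ≤ A) :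
    ∃ (u : Fin 2 → ℝ) (E : Finset I), E.card ≤ A ∧ ∀ r ∉ E, μ (c r) = 1 ∧ ∀ d, pt d = r →
      μ d = 1 → κ (c r) + u ⬝ᵥ rl (n (c r)) ≤ κ d + u ⬝ᵥ rl (n d) := by
  classical
  have q1 : (1 : ℝ) ≤ q := by exact_mod_cast hq
  have nn : ∀ r, (0 : ℝ) ≤ 2 * q * (1 - (μ (c r) : ℝ)⁻¹) ∧ (0 : ℝ) ≤ β (c r) / μ (c r) := fun r =>
    ⟨mul_nonneg (by positivity) (sub_nonneg.2 (inv_le_one_of_one_le₀ (by exact_mod_cast hμ _))),
      div_nonneg (by exact_mod_cast h0 _) (by positivity)⟩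
  refine ⟨rl u, univ.filter fun r => ¬ (μ (c r) = 1 ∧ β (c r) = 0), ?_, fun r hr => ?_⟩
  · have : ((univ.filter fun r => ¬ (μ (c r) = 1 ∧ β (c r) = 0)).card : ℝ) ≤ A := by
      refine le_trans ?_ h
      rw [card_filter]
      push_cast
      refine sum_le_sum fun r _ => ?_
      obtain ⟨x, y⟩ := nn r
      split_ifs with w
      · linarith
      by_cases m : μ (c r) = 1
      · have : (1 : ℝ) ≤ β (c r) := by
          have := h0 (c r)
          have : β (c r) ≠ 0 := fun e => w ⟨m, e⟩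
          exact_mod_cast (by omega : 1 ≤ β (c r))
        simpa [m] using this
      · have m2 : (2 : ℝ) ≤ μ (c r) := by
          have := hμ (c r)
          exact_mod_cast (by omega : 2 ≤ μ (c r))
        have := inv_anti₀ two_pos m2
        nlinarith
    exact_mod_cast this
  · simp only [mem_filter, mem_univ, true_and, not_not] at hr
    refine ⟨hr.1, fun d hd m => ?_⟩
    have e : ∀ d, rl u ⬝ᵥ rl (n d) = (u ⬝ᵥ n d : ℤ) := fun d => by simp [dotProduct, rl]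
    have x := hβ _ hr.1
    have y := hβ d m
    have z := h0 d
    rw [hc, hr.2] at x
    rw [hd] at y
    rw [e, e]
    exact_mod_cast (by omega : κ (c r) + u ⬝ᵥ n (c r) ≤ κ d + u ⬝ᵥ n d)

end Vale.Agent.P283R.C3
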