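import Vale.Agent.P283R.C3.St
import Vale.Agent.P283R.C3.Mat59

/-!
# P283R, block C3: the row COUNT
-/

open Finset Function

noncomputable section

namespace Vale.Agent.P283R.C3

namespace M59

theorem sum_pg {ρ ι : Type} [Fintype ρ] [Fintype ι] [DecidableEq ρ] (pt : ι → ρ) (f : ι → ℝ) :
    ∑ l, f l = ∑ r, ∑ l with pt l = r, f l := (sum_fiberwise univ pt f).symm

theorem sum_ch {ρ ι : Type} [Fintype ι] [DecidableEq ρ] [DecidableEq ι] {pt : ι → ρ} {ch : ρ → ι}
    (h : ∀ r, pt (ch r) = r) (f g : ι → ℝ) (r : ρ) :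
    ∑ l with pt l = r, (if l = ch (pt l) then f l else 0) * g l = f (ch r) * g (ch r) := by
  rw [sum_eq_single (ch r) (fun l hl e => ?_) fun e => (e (by simp [h])).elim, h, if_pos rfl]
  rw [(mem_filter.1 hl).2, if_neg e, zero_mul]

end M59

open M59

theorem count : COUNT := by
  intro ε q ε0 q1
  obtain ⟨L, hL⟩ := exists_nat_gt (2 / ε)
  have L0 : (0 : ℝ) < L := lt_trans (by positivity) hL
  refine ⟨3 * (4 * q + 1) + 8 * L ^ 2 + 5 + (4 * q + 1), ?_⟩
  intro ρ ι J _ _ _ pt o μ c κ n u d sj μ1 c1 c2 d0 lo hw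
  classical
  have q1' : (1 : ℝ) ≤ q := by exact_mod_cast q1
  have μ0 : ∀ l, (0 : ℝ) < μ l := fun l => by exact_mod_cast lt_of_lt_of_le one_pos (μ1 l)
  have dot : ∀ (a b : Fin 2 → ℤ), ((a ⬝ᵥ b : ℤ) : ℝ) = a 0 * b 0 + a 1 * b 1 := fun a b => by
    simp [dotProduct]
  -- the balanced sum
  have bal : ∀ (ξ : ι → ℝ) (t : ℝ) (v : Fin 2 → ℤ) j, (∀ r, ∑ l with pt l = r, ξ l * μ l = t) →
      (∀ i, (v i : ℝ) = ∑ l, ξ l * n l i) →
      ∑ l, ξ l * (κ l + u j ⬝ᵥ n l + μ l * d j (pt l) : ℤ) =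
        ((u j ⬝ᵥ v : ℤ) : ℝ) + ∑ l, ξ l * κ l := fun ξ t v j h1 h2 => by
    have z : ∑ l, ξ l * μ l * d j (pt l) = 0 := by
      rw [sum_pg pt]
      have : ∀ r, ∑ l with pt l = r, ξ l * μ l * d j (pt l) = t * d j r := fun r => by
        rw [← h1 r, sum_mul]
        exact sum_congr rfl fun l hl => by rw [(mem_filter.1 hl).2]
      simp only [this, ← mul_sum]
      rw [← Int.cast_sum, d0, Int.cast_zero, mul_zero]
    rw [dot, h2, h2, mul_sum, mul_sum, ← add_zero (_ + _ + _), ← z]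
    simp only [← sum_add_distrib]
    refine sum_congr rfl fun l _ => ?_
    rw [Int.cast_add, Int.cast_add, dot]
    push_cast
    ring
  have core : ∀ ch : ρ → ι, (∀ r, pt (ch r) = r) → ∃ (j : J) (E : Finset ρ), E.card ≤ 4 * q + 1 ∧
      o ∈ E ∧ ∀ r ∉ E, μ (ch r) = 1 ∧ c (ch r) = 0 ∧ κ (ch r) + u j ⬝ᵥ n (ch r) + d j r = 0 := by
    intro ch hc
    obtain ⟨t, ht⟩ : ∃ t : ℤ, t = ∏ r, μ (ch r) := ⟨_, rfl⟩
    have t0 : (0 : ℝ) < t := by rw [ht]; push_cast; exact prod_pos fun r _ => μ0 _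
    have dv : ∀ r, ∃ k : ℤ, t = μ (ch r) * k := fun r => ht ▸ dvd_prod_of_mem _ (mem_univ r)
    choose k hk using dv
    have hk' : ∀ r, (t : ℝ) / μ (ch r) = k r := fun r => by
      rw [div_eq_iff (μ0 _).ne', hk r]; push_cast; ring
    have h1 : ∀ r, ∑ l with pt l = r, (if l = ch (pt l) then (t : ℝ) / μ l else 0) * μ l = t :=
      fun r => by rw [sum_ch hc (fun l => (t : ℝ) / μ l) (fun l => μ l), div_mul_cancel₀ _ (μ0 _).ne']
    have h2 : ∀ i, ((∑ r, k r • n (ch r)) i : ℝ) =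
        ∑ l, (if l = ch (pt l) then (t : ℝ) / μ l else 0) * n l i := fun i => by
      rw [sum_pg pt, Finset.sum_apply, Int.cast_sum]
      refine sum_congr rfl fun r _ => ?_
      rw [sum_ch hc (fun l => (t : ℝ) / μ l) (fun l => n l i), hk']
      simp
    obtain ⟨j, hj⟩ := hw _ t _ (fun l => by
      simp only [Pi.zero_apply]; split_ifs; exacts [(div_pos t0 (μ0 l)).le, le_rfl]) h1 h2
    have e := bal _ t _ j h1 h2
    rw [sum_pg pt] at e
    simp only [sum_ch hc (fun l => (t : ℝ) / μ l), hc] at e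
    have e0 : (0 : ℝ) ≤ if ∑ r, k r • n (ch r) = 0 then 0 else ε * q := by
      split_ifs; exacts [le_rfl, by positivity]
    let P : ρ → Prop := fun r => μ (ch r) = 1 ∧ c (ch r) = 0 ∧
      κ (ch r) + u j ⬝ᵥ n (ch r) + d j r = 0
    have le : ∑ r, ((if r ≠ o ∧ ¬ P r then (t : ℝ) / 2 else 0) -
        if r = o then 2 * q * (t : ℝ) else 0) ≤
        ∑ r, (t : ℝ) / μ (ch r) * (κ (ch r) + u j ⬝ᵥ n (ch r) + μ (ch r) * d j r : ℤ) := by
      refine sum_le_sum fun r _ => ?_
      have a := lo j (ch r)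
      rw [hc] at a
      have m := μ1 (ch r)
      rw [div_mul_eq_mul_div, le_div_iff₀ (μ0 _)]
      generalize hG : κ (ch r) + u j ⬝ᵥ n (ch r) + μ (ch r) * d j r = G at a
      have qz : (1 : ℤ) ≤ q := by exact_mod_cast q1
      by_cases w : r = o
      · have b := c2 (ch r)
        have : -(2 * q * μ (ch r)) ≤ G := by nlinarith
        have : -(2 * q * μ (ch r) : ℝ) ≤ G := by exact_mod_cast this
        rw [if_neg fun x => x.1 w, if_pos w]
        nlinarith
      have b := c1 (ch r) (by rwa [hc])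
      rw [if_neg w, sub_zero]
      split_ifs with x
      · have : μ (ch r) ≤ 2 * G := by
          rcases m.eq_or_lt with m | m
          · have g0 : 0 ≤ c (ch r) := by omega
            have g1 : c (ch r) ≤ G := by nlinarith
            by_contra y
            refine x.2 ⟨m.symm, by omega, ?_⟩
            rw [← m, one_mul] at hG
            omega
          · nlinarith
        have : (μ (ch r) : ℝ) ≤ 2 * G := by exact_mod_cast this
        nlinarith
      · have : 0 ≤ G := by nlinarith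
        have : (0 : ℝ) ≤ G := by exact_mod_cast this
        rw [zero_mul]
        positivity
    rw [sum_sub_distrib, sum_ite_eq', if_pos (mem_univ _), ← sum_filter, sum_const, nsmul_eq_mul]
      at le
    refine ⟨j, insert o (univ.filter fun r => r ≠ o ∧ ¬ P r), (card_insert_le _ _).trans ?_,
      mem_insert_self _ _, fun r hr => ?_⟩
    · have : ((univ.filter fun r => r ≠ o ∧ ¬ P r).card : ℝ) ≤ (4 * q : ℕ) := by
        push_cast
        refine le_of_mul_le_mul_right ?_ t0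
        linarith
      have := Nat.cast_le.1 this
      omega
    · simp only [mem_insert, mem_filter, mem_univ, true_and, not_or, not_and, not_not] at hr
      exact hr.2 hr.1
  have tn : ∀ l, ((μ l).toNat : ℝ) = μ l := fun l => by
    exact_mod_cast Int.toNat_of_nonneg (le_trans zero_le_one (μ1 l))
  obtain ⟨Kp, T, k₀, b, τ, k1, k2, k3, k4⟩ := mat pt sj n (fun l => (μ l).toNat) κ (4 * q + 1) L
    (by exact_mod_cast L0) (fun ch hc => by
      obtain ⟨j, E, a, o1, b⟩ := core ch hc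
      refine ⟨rl (u j), E, a, fun r hr => ⟨by simp [(b r hr).1], fun l hl m => ?_⟩⟩
      have e : ∀ l, rl (u j) ⬝ᵥ rl (n l) = (u j ⬝ᵥ n l : ℤ) := fun d => by simp [dotProduct, rl]
      have x := (b r hr).2.2
      have y := lo j l
      have m1 : μ l = 1 := by have := μ1 l; omega
      have z := c1 l (by rintro rfl; exact hr (hl ▸ o1))
      rw [m1, hl] at y
      have : 0 ≤ (q : ℤ) * c l := mul_nonneg (by positivity) (by omega)
      rw [e, e]
      exact_mod_cast (by omega : κ (ch r) + u j ⬝ᵥ n (ch r) ≤ κ l + u j ⬝ᵥ n l)) (fun m m0 => by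
      let C : Set (Fin 2 → ℝ) := {w | ∃ ξ : ι → ℝ, 0 ≤ ξ ∧
        (∀ r, ∑ l with pt l = r, ξ l * μ l = 1) ∧ ∀ i, w i = ∑ l, ξ l * n l i}
      have cv : Convex ℝ C := by
        rintro _ ⟨ξ, a1, a2, a3⟩ w ⟨η, b1, b2, b3⟩ s t s0 t0 st
        refine ⟨s • ξ + t • η, add_nonneg (smul_nonneg s0 a1) (smul_nonneg t0 b1), fun r => ?_,
          fun i => ?_⟩
        · simp only [Pi.add_apply, Pi.smul_apply, smul_eq_mul, add_mul, mul_assoc,
            sum_add_distrib, ← mul_sum, a2, b2, mul_one, st]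
        · simp only [Pi.add_apply, Pi.smul_apply, smul_eq_mul, add_mul, mul_assoc,
            sum_add_distrib, ← mul_sum, a3, b3]
      let W : Set (Fin 2 → ℝ) := wt n (fun l => (μ l).toNat) '' {ch | ∀ r, pt (ch r) = r}
      have sub : convexHull ℝ W ⊆ C := convexHull_min (by
        rintro _ ⟨ch, hc, rfl⟩
        refine ⟨fun l => if l = ch (pt l) then (μ l : ℝ)⁻¹ else 0, fun l => ?_, fun r => ?_,
          fun i => ?_⟩
        · simp only [Pi.zero_apply]; split_ifs; exacts [(inv_pos.2 (μ0 l)).le, le_rfl]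
        · rw [sum_ch hc (fun l => (μ l : ℝ)⁻¹) (fun l => μ l), inv_mul_cancel₀ (μ0 _).ne']
        · rw [sum_pg pt, wt, Finset.sum_apply]
          refine sum_congr rfl fun r _ => ?_
          rw [sum_ch hc (fun l => (μ l : ℝ)⁻¹) (fun l => n l i), tn]
          rfl) cv
      have nm : (L : ℝ) • rl m ∉ convexHull ℝ W := fun x => by
        obtain ⟨ξ, a1, a2, a3⟩ := sub x
        have h1 : ∀ r, ∑ l with pt l = r, ((L : ℝ)⁻¹ • ξ) l * μ l = (L : ℝ)⁻¹ := fun r => by
          simp only [Pi.smul_apply, smul_eq_mul, mul_assoc, ← mul_sum, a2, mul_one]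
        have h2 : ∀ i, (m i : ℝ) = ∑ l, ((L : ℝ)⁻¹ • ξ) l * n l i := fun i => by
          simp only [Pi.smul_apply, smul_eq_mul, mul_assoc, ← mul_sum, ← a3]
          rw [← mul_assoc, inv_mul_cancel₀ L0.ne', one_mul]
          rfl
        have n0 : 0 ≤ (L : ℝ)⁻¹ • ξ := smul_nonneg (by positivity) a1
        obtain ⟨j, hj⟩ := hw _ _ m n0 h1 h2
        have e := bal _ _ m j h1 h2
        rw [if_neg m0] at hj
        have le : ∑ l, ((L : ℝ)⁻¹ • ξ) l * (if pt l = o then -(2 * q) * μ l else 0 : ℝ) ≤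
            ∑ l, ((L : ℝ)⁻¹ • ξ) l * (κ l + u j ⬝ᵥ n l + μ l * d j (pt l) : ℤ) := by
          refine sum_le_sum fun l _ => mul_le_mul_of_nonneg_left ?_ (n0 l)
          have a := lo j l
          have m := μ1 l
          have qz : (1 : ℤ) ≤ q := by exact_mod_cast q1
          split_ifs with w
          · have b := c2 l
            exact_mod_cast (by nlinarith : -(2 * q) * μ l ≤ κ l + u j ⬝ᵥ n l + μ l * d j (pt l))
          · have b := c1 l w
            exact_mod_cast (by nlinarith : 0 ≤ κ l + u j ⬝ᵥ n l + μ l * d j (pt l))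
        have e2 : ∑ l, ((L : ℝ)⁻¹ • ξ) l * (if pt l = o then -(2 * q) * μ l else 0 : ℝ) =
            -(2 * q) * (L : ℝ)⁻¹ := by
          refine Eq.trans ?_ (congrArg (-(2 * (q : ℝ)) * ·) (h1 o))
          simp only [mul_sum, sum_filter]
          exact sum_congr rfl fun l _ => by split_ifs <;> ring
        have e3 : 2 * (L : ℝ)⁻¹ < ε := by
          rw [← div_eq_mul_inv, div_lt_comm₀ L0 ε0]; exact hL
        nlinarith
      obtain ⟨f, x, f1, f2⟩ := geometric_hahn_banach_point_closed (convex_convexHull ℝ W)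
        (Set.Finite.isClosed_convexHull ℝ ((Set.toFinite _).image _)) nm
      have ef : ∀ w : Fin 2 → ℝ, (fun i => f (Pi.single i 1)) ⬝ᵥ w = f w := fun w => by
        conv_rhs => rw [pi_eq_sum_univ' w, map_sum]
        simp [dotProduct, mul_comm]
      refine ⟨fun i => f (Pi.single i 1), x, fun ch hc => ?_, ?_⟩
      · rw [ef]
        exact (f2 _ (subset_convexHull ℝ W ⟨ch, hc, rfl⟩)).le
      · rw [ef]
        simpa using f1)
  obtain ⟨U, u1, o1, v1⟩ : ∃ U : Finset ρ, U.card ≤ 4 * q + 1 ∧ o ∈ U ∧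
      ∀ l, pt l ∉ U → c l = 0 := by
    have : ∀ r, ∃ l, pt l = r ∧ (c l = 0 → ∀ l', pt l' = r → c l' = 0) := fun r => by
      by_cases k : ∀ l', pt l' = r → c l' = 0
      · obtain ⟨l, hl⟩ := sj r
        exact ⟨l, hl, fun _ => k⟩
      · push Not at k
        obtain ⟨l, a, b⟩ := k
        exact ⟨l, a, fun e => (b e).elim⟩
    choose ch h1 h2 using this
    obtain ⟨_, E, a, x, b⟩ := core ch h1
    exact ⟨E, a, x, fun l hl => h2 _ (b _ hl).2.1 l rfl⟩
  refine ⟨Kp ∪ U, T, k₀, τ, fun r => n (b r), fun r => κ (b r),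
    (card_union_le _ _).trans (add_le_add k1 u1), mem_union_right _ o1, fun l hl => ?_,
    fun r _ => ⟨b r, k2 r, k3 r⟩⟩
  rw [mem_union, not_or] at hl
  obtain ⟨x, y, z⟩ := k4 l hl.1
  refine ⟨v1 l hl.2, ?_, fun i => by rw [y]; rfl, z⟩
  have := μ1 l
  omega

end Vale.Agent.P283R.C3
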