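import Vale.Agent.P283R.C3.St

/-!
# P283R, block C3: the row CONV (nef divisors are convex)
-/

open Set

noncomputable section

namespace Vale.Agent.P283R.C3.C69

open Vale.Agent.P287D Vale.Agent.P283M Vale.Agent.P297Z Vale.Agent.P283R.To.Cv

variable {K : Type} [Field K] [Algebra ℂ K] {n : ℕ} {u : Finset K} {Λ Γ Γ' α β : BD K}
  {T : Pl K → Prop} {ξ : Pl K → ℝ} {Q : Pl K} {π : Pl K → K}

/-- the defect of convexity -/
def ph (ξ : Pl K → ℝ) (Q : Pl K) (β : BD K) : ℝ := ∑ᶠ R, ξ R * β R - β Q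

open Classical in
/-- the defect after the removal of the part in `T` -/
def ps (T : Pl K → Prop) (π : Pl K → K) (ξ : Pl K → ℝ) (Q : Pl K) (β : BD K) : ℝ :=
  ph ξ Q β - ∑ᶠ R, if T R then β R * ph ξ Q (dv (π R)) else 0

theorem ph_smul (c : ℝ) : ph ξ Q (c • β) = c * ph ξ Q β := by
  simp only [ph, Pi.smul_apply, smul_eq_mul, mul_sub, mul_finsum, mul_left_comm]

theorem ph_zero : ph ξ Q 0 = 0 := by
  rw [← zero_smul ℝ (0 : BD K), ph_smul, zero_mul]

theorem ps_smul (c : ℝ) : ps T π ξ Q (c • β) = c * ps T π ξ Q β := by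
  simp only [ps, ph_smul, Pi.smul_apply, smul_eq_mul, mul_sub, mul_finsum, mul_ite,
    mul_zero, mul_assoc]

theorem ps_zero : ps T π ξ Q 0 = 0 := by
  rw [← zero_smul ℝ (0 : BD K), ps_smul, zero_mul]

section

variable (a : Dat n u Λ Γ Γ') (hξ : ∀ R, ξ R ≠ 0 → Ov u R ∧ On n Λ R)

include a hξ

theorem ph_add (h : α ∈ Car K) (k : β ∈ Car K) : ph ξ Q (α + β) = ph ξ Q α + ph ξ Q β := by
  have f : ∀ β ∈ Car K, (Function.support fun R => ξ R * β R).Finite := fun β h =>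
    (fin_car a h).subset fun R r => ⟨(hξ R (left_ne_zero_of_mul r)).2, right_ne_zero_of_mul r⟩
  rw [ph, ph, ph, sub_add_sub_comm, ← finsum_add_distrib (f α h) (f β k)]
  simp only [Pi.add_apply, mul_add]

theorem ph_sum (F : Finset (Pl K)) (c : Pl K → ℝ) :
    ph ξ Q (∑ R ∈ F, c R • dv (π R)) = ∑ R ∈ F, c R * ph ξ Q (dv (π R)) := by
  classical
  induction F using Finset.induction_on with
  | empty => exact ph_zero
  | insert R F hR ih =>
    rw [Finset.sum_insert hR, Finset.sum_insert hR, ph_add a hξ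
      (Submodule.smul_mem _ _ (dv_mem_Car _))
      (sum_mem fun R _ => Submodule.smul_mem _ _ (dv_mem_Car _)), ph_smul, ih]

variable (hT : ∀ R, T R → Ov u R ∧ On n Λ R)

include hT

theorem ps_add (h : α ∈ Car K) (k : β ∈ Car K) :
    ps T π ξ Q (α + β) = ps T π ξ Q α + ps T π ξ Q β := by
  classical
  have f : ∀ β ∈ Car K, (Function.support fun R =>
      if T R then β R * ph ξ Q (dv (π R)) else 0).Finite := fun β h =>
    (fin_car a h).subset fun R r => by
      by_cases c : T R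
      · exact ⟨(hT R c).2, left_ne_zero_of_mul ((if_pos c).symm.trans_ne r)⟩
      · exact (r (if_neg c)).elim
  rw [ps, ps, ps, ph_add a hξ h k, sub_add_sub_comm, ← finsum_add_distrib (f α h) (f β k)]
  refine congrArg _ (finsum_congr fun R => ?_)
  split_ifs
  · rw [Pi.add_apply, add_mul]
  · rw [add_zero]

omit a in
theorem ps_congr (o : Ov u Q) (h : ∀ P, Ov u P → α P = β P) :
    ps T π ξ Q α = ps T π ξ Q β := by
  have e : ph ξ Q α = ph ξ Q β := by
    rw [ph, ph, h Q o]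
    refine congrArg (· - β Q) (finsum_congr fun R => ?_)
    by_cases z : ξ R = 0
    · rw [z, zero_mul, zero_mul]
    · rw [h R (hξ R z).1]
  rw [ps, ps, e]
  refine congrArg _ (finsum_congr fun R => ?_)
  split_ifs with c
  · rw [h R (hT R c).1]
  · rfl

open Classical in
theorem ps_mx (x0 : 0 ≤ ξ) (π0 : ∀ R, π R ≠ 0)
    (hπ : ∀ R R', T R → T R' → R'.ord (π R) = if R' = R then 1 else 0)
    (low : ∀ a : K, a ≠ 0 → (∀ R, T R → 0 ≤ R.ord a) → ∑ᶠ R, ξ R * R.ord a ≤ Q.ord a)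
    (s : Finset K) : 0 ≤ ps T π ξ Q (mx s) := by
  classical
  by_cases z : Nz s
  swap
  · rw [mx_of_not z, ps_zero]
  have f : {R | T R ∧ R.mz s ≠ 0}.Finite :=
    (fin_car a (mx_mem_Car s)).subset fun R q => ⟨(hT R q.1).2, Int.cast_ne_zero.2 q.2⟩
  obtain ⟨g, gs, g0, e⟩ := Q.exists_mz z
  have G0 : ∏ R ∈ f.toFinset, π R ^ R.mz s ≠ 0 :=
    Finset.prod_ne_zero_iff.2 fun R _ => zpow_ne_zero _ (π0 R)
  have k := low _ (mul_ne_zero g0 G0) fun R q => by
    rw [Pl.ord_mul _ g0 G0, ord_fin π0, Finset.sum_eq_single R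
      (fun R' b c => by rw [hπ R' R (f.mem_toFinset.1 b).1 q, if_neg c.symm, mul_zero])
      fun b => by rw [not_not.1 fun c => b (f.mem_toFinset.2 ⟨q, c⟩), zero_mul],
      hπ R R q q, if_pos rfl, mul_one]
    linarith [R.le_mz gs g0]
  have k1 : ph ξ Q (dv (g * ∏ R ∈ f.toFinset, π R ^ R.mz s)) ≤ 0 := sub_nonpos.2 k
  have e1 : dv (g * ∏ R ∈ f.toFinset, π R ^ R.mz s) =
      dv g + ∑ R ∈ f.toFinset, (R.mz s : ℝ) • dv (π R) := by
    funext P
    simp only [dv_apply, Pl.ord_mul _ g0 G0, ord_fin π0, Pi.add_apply, Finset.sum_apply,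
      Pi.smul_apply, smul_eq_mul]
    push_cast
    rfl
  rw [e1, ph_add a hξ (dv_mem_Car _) (sum_mem fun R _ => Submodule.smul_mem _ _ (dv_mem_Car _)),
    ph_sum a hξ] at k1
  have k2 : 0 ≤ ph ξ Q (mx s + dv g) := by
    have : (mx s + dv g) Q = 0 := by
      rw [Pi.add_apply, mx_apply, dv_apply, e]
      push_cast
      ring
    rw [ph, this, sub_zero]
    refine finsum_nonneg fun R => mul_nonneg (x0 R) ?_
    rw [Pi.add_apply, mx_apply, dv_apply]
    have := R.le_mz gs g0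
    exact_mod_cast (by omega : 0 ≤ R.mz s + R.ord g)
  rw [ph_add a hξ (mx_mem_Car s) (dv_mem_Car _)] at k2
  rw [ps, finsum_eq_sum_of_support_subset (s := f.toFinset) _ fun R q => by
    by_cases c : T R
    · exact f.mem_toFinset.2 ⟨c, Int.cast_ne_zero.1
        (left_ne_zero_of_mul ((if_pos c).symm.trans_ne q))⟩
    · exact (q (if_neg c)).elim,
    Finset.sum_congr rfl fun R q => if_pos (f.mem_toFinset.1 q).1]
  simp only [mx_apply]
  linarith

end

end Vale.Agent.P283R.C3.C69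

namespace Vale.Agent.P283R.C3

open Vale.Agent.P287D Vale.Agent.P283M Vale.Agent.P297Z C69

/-- **CONV** -/
theorem conv : CONV := by
  classical
  intro n K _ _ u Λ Γ Γ' T ξ Q a hT x0 hξ eqn low
  have o : Ov u Q := fun b hb => by
    by_cases b0 : b = 0
    · rw [b0]; exact zero_mem _
    have := low b b0 fun R q => Pl.ord_nonneg_of_mem _ ((hT R q).1 b hb)
    refine (Pl.ord_nonneg_iff _ b0).1 (Int.cast_nonneg_iff (R := ℝ).1 (le_trans ?_ this))
    refine finsum_nonneg fun R => ?_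
    by_cases z : ξ R = 0
    · rw [z, zero_mul]
    · exact mul_nonneg (x0 R) (Int.cast_nonneg (Pl.ord_nonneg_of_mem _ ((hξ R z).1 b hb)))
  refine ⟨o, fun ψ hψ α hα h z => ?_⟩
  choose π π0 hπ using fun R : Pl K => eqn (fun R' => if R' = R then 1 else 0)
    ((finite_singleton R).subset fun R' r => by_contra fun c => r.2 (if_neg c))
  have k : ∀ δ : ℝ, 0 < δ → 0 ≤ ps T π ξ Q ψ + δ * ps T π ξ Q α := fun δ d => by
    obtain ⟨γ, ⟨l, l0, rfl⟩, e⟩ := h δ d
    rw [← ps_smul, ← ps_add a hξ hT hψ (Submodule.smul_mem _ _ hα), ps_congr hξ hT o e]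
    refine (Finset.sum_induction _ (fun β => β ∈ Car K ∧ 0 ≤ ps T π ξ Q β)
      (fun b c p q => ⟨add_mem p.1 q.1, ?_⟩) ⟨zero_mem _, ?_⟩
      fun s _ => ⟨Submodule.smul_mem _ _ (mx_mem_Car s), ?_⟩).2
    · rw [ps_add a hξ hT p.1 q.1]; exact add_nonneg p.2 q.2
    · rw [ps_zero]
    · rw [ps_smul]
      exact mul_nonneg (l0 s) (ps_mx a hξ hT x0 π0 (fun R R' _ r => hπ R R' r) low s)
  have e : ps T π ξ Q ψ = ph ξ Q ψ := by
    rw [ps, finsum_eq_zero_of_forall_eq_zero, sub_zero]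
    intro R
    split_ifs with c
    · rw [z R c, zero_mul]
    · rfl
  rw [← sub_nonneg, ← ph, ← e]
  refine le_of_forall_pos_le_add fun ε e0 => ?_
  have p : 0 < |ps T π ξ Q α| + 1 := by positivity
  refine (k _ (div_pos e0 p)).trans (add_le_add_right ?_ _)
  rw [div_mul_eq_mul_div, div_le_iff₀ p]
  exact mul_le_mul_of_nonneg_left (by linarith [le_abs_self (ps T π ξ Q α)]) e0.le

end Vale.Agent.P283R.C3
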