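import Vale.Agent.P283R.C3.St

/-!
# P283R, block C3: factorisation and orders
-/

open Set

noncomputable section

namespace Vale.Agent.P283R.C3

open Vale.Agent.P287D Vale.Agent.P283M Vale.Agent.P283R.To Vale.Agent.P297Z

namespace F20

variable {K : Type} [Field K] [Algebra ℂ K] {s : K} {y : Fin 2 → K} {P : Pl K}

/-- the products of linear factors -/
def rt (s : K) (n : ℂ →₀ ℤ) : K := n.prod fun p k => (s - algebraMap ℂ K p) ^ k

theorem l_ne (h : D.Rat (fr s y)) (p : ℂ) : s - algebraMap ℂ K p ≠ 0 := fun e =>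
  h.ind.transcendental 0 (show IsAlgebraic ℂ s from sub_eq_zero.1 e ▸ isAlgebraic_algebraMap p)

theorem y_ne (h : D.Rat (fr s y)) (j : Fin 2) : y j ≠ 0 := h.ind.ne_zero j.succ

variable (l : ∀ p, s - algebraMap ℂ K p ≠ 0)

include l

theorem rt_ne (n : ℂ →₀ ℤ) : rt s n ≠ 0 :=
  Finset.prod_ne_zero_iff.2 fun p _ => zpow_ne_zero _ (l p)

theorem rt_add (n n' : ℂ →₀ ℤ) : rt s (n + n') = rt s n * rt s n' :=
  Finsupp.prod_add_index' (fun _ => zpow_zero _) fun p _ _ => zpow_add₀ (l p) _ _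

theorem rt_sub (n n' : ℂ →₀ ℤ) : rt s (n - n') = rt s n / rt s n' := by
  rw [eq_div_iff (rt_ne l _), ← rt_add l, sub_add_cancel]

theorem poly {f : Polynomial ℂ} (hf : f ≠ 0) :
    ∃ (c : ℂ) (n : ℂ →₀ ℤ), c ≠ 0 ∧ Polynomial.aeval s f = c • rt s n := by
  have k : ∀ m : Multiset ℂ, ∃ n, Polynomial.aeval s
      (m.map fun a => Polynomial.X - Polynomial.C a).prod = rt s n := fun m => by
    induction m using Multiset.induction_on with
    | empty => exact ⟨0, by simp [rt]⟩
    | cons a m ih =>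
      obtain ⟨n, e⟩ := ih
      refine ⟨Finsupp.single a 1 + n, ?_⟩
      rw [Multiset.map_cons, Multiset.prod_cons, map_mul, e, rt_add l]
      simp [rt]
  obtain ⟨n, e⟩ := k f.roots
  refine ⟨f.leadingCoeff, n, Polynomial.leadingCoeff_ne_zero.2 hf, ?_⟩
  conv_lhs => rw [(IsAlgClosed.splits f).eq_prod_roots]
  rw [map_mul, e, Polynomial.aeval_C, Algebra.smul_def]

theorem fac {φ : K} (h : φ ∈ IntermediateField.adjoin ℂ {s}) (h0 : φ ≠ 0) :
    ∃ (c : ℂ) (n : ℂ →₀ ℤ), c ≠ 0 ∧ φ = c • rt s n := by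
  obtain ⟨f, g, rfl⟩ := (IntermediateField.mem_adjoin_simple_iff ℂ _).1 h
  obtain ⟨c, n, c0, e⟩ := poly l (f := f) (by rintro rfl; simp at h0)
  obtain ⟨c', n', c0', e'⟩ := poly l (f := g) (by rintro rfl; simp at h0)
  refine ⟨c / c', n - n', div_ne_zero c0 c0', ?_⟩
  rw [e, e', rt_sub l]
  simp only [Algebra.smul_def, map_div₀]
  exact mul_div_mul_comm _ _ _ _

omit l in
theorem rt_mem (n : ℂ →₀ ℤ) : rt s n ∈ IntermediateField.adjoin ℂ {s} :=
  prod_mem fun _ _ => zpow_mem (sub_mem (IntermediateField.mem_adjoin_simple_self ℂ s)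
    (IntermediateField.algebraMap_mem _ _)) _

theorem ord_rt (P : Pl K) (n : ℂ →₀ ℤ) :
    P.ord (rt s n) = ∑ p ∈ n.support, n p * P.ord (s - algebraMap ℂ K p) := by
  rw [rt, Finsupp.prod, Pl.ord_prod _ _ fun p _ => zpow_ne_zero _ (l p)]
  exact Finset.sum_congr rfl fun p _ => Pl.ord_zpow _ _ _

theorem ord_some {p p' : ℂ} (h : At s P (some p)) (e : p' ≠ p) :
    P.ord (s - algebraMap ℂ K p') = 0 := by
  have := Pl.ord_add_eq_of_lt P.toPlace (x := algebraMap ℂ K (p - p'))
    ((map_ne_zero _).2 (sub_ne_zero.2 e.symm)) (l p) ((P.ord_const _).trans_lt h)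
  rw [map_sub, add_comm, sub_add_sub_cancel] at this
  exact this.trans (by rw [← map_sub]; exact P.ord_const _)

theorem ord_none (h : At s P none) (p : ℂ) : P.ord (s - algebraMap ℂ K p) = P.ord s := by
  by_cases e : p = 0
  · rw [e, map_zero, sub_zero]
  have s0 : s ≠ 0 := by simpa using l 0
  have := Pl.ord_add_eq_of_lt P.toPlace (y := algebraMap ℂ K (-p)) s0
    ((map_ne_zero _).2 (neg_ne_zero.2 e)) ((neg_pos.1 h).trans_eq (P.ord_const _).symm)
  rwa [map_neg, ← sub_eq_add_neg] at this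

theorem ord_no (h : ∀ r, ¬ At s P r) (p : ℂ) : P.ord (s - algebraMap ℂ K p) = 0 := by
  have s0 : s ≠ 0 := by simpa using l 0
  have a : 0 ≤ P.ord s := neg_nonpos.1 (not_lt.1 (h none))
  exact le_antisymm (not_lt.1 (h (some p))) (Pl.ord_nonneg_of_mem _
    (sub_mem ((Pl.ord_nonneg_iff _ s0).1 a) (P.con p)))

theorem uniq {r r' : Option ℂ} (h : At s P r) (h' : At s P r') : r = r' := by
  have k : ∀ p, At s P (some p) → ¬ At s P none := fun p a b => by
    have c := ord_none l b p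
    have a' : 0 < P.ord (s - algebraMap ℂ K p) := a
    have b' : 0 < -P.ord s := b
    omega
  rcases r with _ | p <;> rcases r' with _ | p'
  · rfl
  · exact (k _ h' h).elim
  · exact (k _ h h').elim
  · exact congrArg _ (by_contra fun e => (ord_some l h' e).not_gt h)

theorem ord_at {r : Option ℂ} (h : At s P r) (n : ℂ →₀ ℤ) :
    P.ord (rt s n) = mu s P r * od n r := by
  rw [ord_rt l]
  rcases r with _ | p
  · simp only [ord_none l h, mu, od, Finsupp.sum, neg_mul_neg, Finset.mul_sum, mul_comm]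
  · rw [Finset.sum_eq_single p (fun p' _ e => by rw [ord_some l h e, mul_zero])
      fun e => by rw [Finsupp.notMem_support_iff.1 e, zero_mul], mul_comm]
    rfl

end F20

open F20 in
/-- **FAC** -/
theorem fac20 : FAC := fun K _ _ s y h => by
  have l := l_ne h
  have y0 := y_ne h
  have o : ∀ (P : Pl K) n u, P.ord (hm s y n u) = ∑ j, u j * P.ord (y j) + P.ord (rt s n) :=
    fun P n u => by
      rw [← ord_mon P y0, add_comm]
      exact Pl.ord_mul _ (rt_ne l n) (mon_ne y0 u)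
  refine ⟨?_, fun n u => ⟨mul_ne_zero (rt_ne l n) (mon_ne y0 u), _, rt_mem n, rfl⟩,
    fun n u n' u' => ?_, fun P r r' => uniq l, fun P r a t => ?_,
    fun P r n u a => by rw [o, ord_at l a], fun P n u a => ?_⟩
  · rintro u _ ⟨φ, hφ, rfl⟩ a0
    obtain ⟨c, n, c0, rfl⟩ := fac l hφ (left_ne_zero_of_mul a0)
    exact ⟨c, n, c0, smul_mul_assoc _ _ _⟩
  · show rt s _ * _ = rt s _ * _ * (rt s _ * _)
    rw [rt_add l, mon_add y0, mul_mul_mul_comm]
  · have k : ∀ p, P.ord (s - algebraMap ℂ K p) = 0 := fun p => t 0 _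
      ⟨_, sub_mem (IntermediateField.mem_adjoin_simple_self ℂ s)
        (IntermediateField.algebraMap_mem _ p), by simp [mon]⟩ (l p)
    rcases r with _ | p
    · have b : 0 < -P.ord s := a
      have := k 0
      rw [map_zero, sub_zero] at this
      omega
    · exact (k p).not_gt a
  · rw [o, ord_rt l]
    simp only [ord_no l a, mul_zero, Finset.sum_const_zero, add_zero]

end Vale.Agent.P283R.C3
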