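import Vale.Agent.P283R.Mt.Alg
import Vale.Agent.P287D.Va.Bas

/-!
# P283R, block C3: generators of the ring of sections in complexity one
-/

set_option linter.all false

open Set

noncomputable section

namespace Vale.Agent.P283R.C3.G41

open Vale.Agent.P287D Vale.Agent.P297Z Vale.Agent.P283R.To

variable {K : Type} [Field K] [Algebra ℂ K] {d : ℕ} {ι : Type}

/-- the linear functions -/
def lf (s : K) (p : ℂ) : K := s - algebraMap ℂ K p

/-- products of linear functions -/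
def rt (s : K) (k : ℂ →₀ ℤ) : K := k.prod fun p j => lf s p ^ j

variable {s : K}

theorem rt_ne (h : ∀ p, lf s p ≠ 0) (k : ℂ →₀ ℤ) : rt s k ≠ 0 :=
  Finset.prod_ne_zero_iff.2 fun p _ => zpow_ne_zero _ (h p)

theorem rt_zero : rt s 0 = 1 := Finsupp.prod_zero_index

theorem rt_add (h : ∀ p, lf s p ≠ 0) (k k' : ℂ →₀ ℤ) : rt s (k + k') = rt s k * rt s k' :=
  Finsupp.prod_add_index' (fun _ => zpow_zero _) fun p _ _ => zpow_add₀ (h p) _ _

theorem rt_single (p : ℂ) (j : ℤ) : rt s (Finsupp.single p j) = lf s p ^ j :=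
  Finsupp.prod_single_index (zpow_zero _)

theorem rt_neg (h : ∀ p, lf s p ≠ 0) (k : ℂ →₀ ℤ) : rt s (-k) = (rt s k)⁻¹ :=
  eq_inv_of_mul_eq_one_left (by rw [← rt_add h, neg_add_cancel, rt_zero])

theorem rt_smul (h : ∀ p, lf s p ≠ 0) (c : ℤ) (k : ℂ →₀ ℤ) : rt s (c • k) = rt s k ^ c := by
  induction c using Int.induction_on with
  | zero => rw [zero_smul, rt_zero, zpow_zero]
  | succ c ih => rw [add_smul, one_smul, rt_add h, ih, zpow_add_one₀ (rt_ne h k)]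
  | pred c ih =>
    rw [sub_smul, one_smul, sub_eq_add_neg, rt_add h, ih, rt_neg h, zpow_sub_one₀ (rt_ne h k)]

theorem rt_sum (h : ∀ p, lf s p ≠ 0) {J : Type} (t : Finset J) (k : J → ℂ →₀ ℤ) :
    rt s (∑ j ∈ t, k j) = ∏ j ∈ t, rt s (k j) := by
  classical
  induction t using Finset.induction_on with
  | empty => exact rt_zero
  | insert j t hj ih => rw [Finset.sum_insert hj, Finset.prod_insert hj, rt_add h, ih]

theorem lf_eq (p q : ℂ) : lf s q = lf s p + algebraMap ℂ K (p - q) := by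
  rw [lf, lf, map_sub]
  ring

theorem ord_lf (h : ∀ p, lf s p ≠ 0) (P : Pl K) {p q : ℂ} (a : 0 < P.ord (lf s p)) (e : q ≠ p) :
    P.ord (lf s q) = 0 := by
  have c : algebraMap ℂ K (p - q) ≠ 0 := (map_ne_zero _).2 (sub_ne_zero.2 e.symm)
  rw [lf_eq p q, add_comm, Pl.ord_add_eq_of_lt _ c (h p) (by rwa [Pl.ord_const]), Pl.ord_const]

theorem ord_lf_le (h : ∀ p, lf s p ≠ 0) (P : Pl K) {p : ℂ} (q : ℂ) (a : P.ord (lf s p) ≤ 0) :
    P.ord (lf s p) ≤ P.ord (lf s q) := by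
  rcases eq_or_ne p q with rfl | e
  · exact le_rfl
  have c : algebraMap ℂ K (p - q) ≠ 0 := (map_ne_zero _).2 (sub_ne_zero.2 e)
  have k : min (P.ord (lf s p)) (P.ord (algebraMap ℂ K (p - q))) ≤
      P.ord (lf s p + algebraMap ℂ K (p - q)) :=
    Pl.min_ord_le_add P.toPlace (h p) c (lf_eq (s := s) p q ▸ h q)
  rw [← lf_eq, Pl.ord_const] at k
  omega

theorem ord_rt (h : ∀ p, lf s p ≠ 0) (P : Pl K) (k : ℂ →₀ ℤ) :
    P.ord (rt s k) = k.sum fun p j => j * P.ord (lf s p) := by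
  induction k using Finsupp.induction_linear with
  | zero => rw [rt_zero, Finsupp.sum_zero_index, Pl.ord_one]
  | add k k' a b =>
    rw [rt_add h, Pl.ord_mul _ (rt_ne h k) (rt_ne h k'), a, b,
      Finsupp.sum_add_index' (fun _ => zero_mul _) fun _ _ _ => add_mul _ _ _]
  | single p j => rw [rt_single, Pl.ord_zpow, Finsupp.sum_single_index (zero_mul _)]

theorem ord_rt_of (h : ∀ p, lf s p ≠ 0) (P : Pl K) {p : ℂ} (a : 0 < P.ord (lf s p))
    (k : ℂ →₀ ℤ) : P.ord (rt s k) = k p * P.ord (lf s p) := by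
  rw [ord_rt h, Finsupp.sum, Finset.sum_eq_single p (fun q _ e => by rw [ord_lf h P a e, mul_zero])
    fun b => by rw [Finsupp.notMem_support_iff.1 b, zero_mul]]

theorem ord_rt_zero (h : ∀ p, lf s p ≠ 0) (P : Pl K) (a : ∀ p, P.ord (lf s p) = 0)
    (k : ℂ →₀ ℤ) : P.ord (rt s k) = 0 := by
  rw [ord_rt h]
  exact Finset.sum_eq_zero fun p _ => mul_eq_zero_of_right _ (a p)

/-- a rational function of `s` is a product of linear functions -/
theorem fac (h : ∀ p, lf s p ≠ 0) {g : K} (hg : g ∈ IntermediateField.adjoin ℂ {s}) (g0 : g ≠ 0) :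
    ∃ (c : ℂ) (k : ℂ →₀ ℤ), c ≠ 0 ∧ g = c • rt s k := by
  have pol : ∀ a : Polynomial ℂ, a ≠ 0 →
      ∃ (c : ℂ) (k : ℂ →₀ ℤ), c ≠ 0 ∧ Polynomial.aeval s a = c • rt s k := fun a a0 => by
    have e := (IsAlgClosed.splits a).eq_prod_roots
    have m : ∀ t : Multiset ℂ, ∃ k, Polynomial.aeval s
        (t.map fun x => Polynomial.X - Polynomial.C x).prod = rt s k := fun t => by
      induction t using Multiset.induction_on with
      | empty => exact ⟨0, by rw [Multiset.map_zero, Multiset.prod_zero, map_one, rt_zero]⟩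
      | cons p t ih =>
        obtain ⟨k, hk⟩ := ih
        refine ⟨Finsupp.single p 1 + k, ?_⟩
        rw [Multiset.map_cons, Multiset.prod_cons, map_mul, hk, rt_add h, rt_single, zpow_one,
          map_sub, Polynomial.aeval_X, Polynomial.aeval_C, lf]
    obtain ⟨k, hk⟩ := m a.roots
    refine ⟨a.leadingCoeff, k, Polynomial.leadingCoeff_ne_zero.2 a0, ?_⟩
    rw [← hk, Algebra.smul_def, ← Polynomial.aeval_C s, ← map_mul, ← e]
  obtain ⟨a, b, rfl⟩ := (IntermediateField.mem_adjoin_simple_iff _ _).1 hg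
  obtain ⟨a0, b0⟩ := div_ne_zero_iff.1 g0
  obtain ⟨c, k, c0, e⟩ := pol a (by rintro rfl; exact a0 (map_zero _))
  obtain ⟨c', k', c0', e'⟩ := pol b (by rintro rfl; exact b0 (map_zero _))
  refine ⟨c / c', k - k', div_ne_zero c0 c0', ?_⟩
  rw [e, e', sub_eq_add_neg, rt_add h, rt_neg h, Algebra.smul_def, Algebra.smul_def,
    Algebra.smul_def, map_div₀, mul_div_mul_comm, div_eq_mul_inv (rt s k)]

/-- spans of sections -/
theorem sec_span {pl : ι → Pl K} {T : Set ι} (c : ι → ℤ) {S : Set K}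
    (hS : ∀ φ ∈ S, ∀ i ∈ T, 0 ≤ (pl i).ord φ + c i) {φ : K} (H : φ ∈ Submodule.span ℂ S) :
    φ ≠ 0 → ∀ i ∈ T, 0 ≤ (pl i).ord φ + c i := by
  induction H using Submodule.span_induction with
  | mem φ hφ => exact fun _ => hS φ hφ
  | zero => exact fun a => (a rfl).elim
  | add a b _ _ ha hb =>
    intro z E e
    rcases eq_or_ne a 0 with rfl | a0
    · rw [zero_add] at z ⊢
      exact hb z E e
    rcases eq_or_ne b 0 with rfl | b0
    · rw [add_zero]
      exact ha a0 E e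
    have k1 := ha a0 E e
    have k2 := hb b0 E e
    have k3 : min ((pl E).ord a) ((pl E).ord b) ≤ (pl E).ord (a + b) :=
      Pl.min_ord_le_add (pl E).toPlace a0 b0 z
    omega
  | smul c a _ ha =>
    intro e E f
    have c0 : c ≠ 0 := by rintro rfl; exact e (zero_smul _ _)
    have a0 : a ≠ 0 := by rintro rfl; exact e (smul_zero _)
    rw [Pl.ord_smul _ c0]
    exact ha a0 E f

/-- the expansion in powers of one linear function -/
theorem expa (h : ∀ p, lf s p ≠ 0) {J : Type} (Q : J → Pl K) (p₀ : ℂ) (k : ℂ →₀ ℤ)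
    (k0 : ∀ p, 0 ≤ k p) (hk : ∀ p, k p ≠ 0 → ∀ j, (Q j).ord (lf s p) ≤ 0) :
    rt s k ∈ Submodule.span ℂ
      {x | ∃ n : ℕ, x = lf s p₀ ^ n ∧ ∀ j, (Q j).ord (rt s k) ≤ (Q j).ord x} := by
  let R : K → Prop := fun g => g ≠ 0 ∧ g ∈ Submodule.span ℂ
    {x | ∃ n : ℕ, x = lf s p₀ ^ n ∧ ∀ j, (Q j).ord g ≤ (Q j).ord x}
  have R1 : R 1 := ⟨one_ne_zero, Submodule.subset_span ⟨0, (pow_zero _).symm, fun _ => le_rfl⟩⟩
  have Rm : ∀ a b, R a → R b → R (a * b) := fun a b ha hb => by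
    refine ⟨mul_ne_zero ha.1 hb.1, ?_⟩
    have := Submodule.mul_mem_mul ha.2 hb.2
    rw [Submodule.span_mul_span] at this
    refine Submodule.span_mono ?_ this
    rintro _ ⟨_, ⟨n, rfl, u⟩, _, ⟨n', rfl, u'⟩, rfl⟩
    refine ⟨n + n', (pow_add _ _ _).symm, fun j => ?_⟩
    show _ ≤ (Q j).ord (_ * _)
    rw [Pl.ord_mul _ ha.1 hb.1, Pl.ord_mul _ (pow_ne_zero _ (h _)) (pow_ne_zero _ (h _))]
    exact add_le_add (u j) (u' j)
  refine (Finset.prod_induction _ R Rm R1 fun p hp => ?_).2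
  have a := hk p (Finsupp.mem_support_iff.1 hp)
  have Rp : R (lf s p) := by
    refine ⟨h p, ?_⟩
    have e : lf s p = lf s p₀ ^ 1 + (p₀ - p) • lf s p₀ ^ 0 := by
      rw [pow_one, pow_zero, Algebra.smul_def, mul_one, ← lf_eq]
    nth_rewrite 2 [e]
    refine add_mem (Submodule.subset_span ⟨1, rfl, fun j => ?_⟩)
      (Submodule.smul_mem _ _ (Submodule.subset_span ⟨0, rfl, fun j => ?_⟩))
    · rw [pow_one]
      exact ord_lf_le h _ _ (a j)
    · rw [pow_zero, Pl.ord_one]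
      exact a j
  obtain ⟨n, hn⟩ := Int.eq_ofNat_of_zero_le (k0 p)
  show R (lf s p ^ k p)
  rw [hn, zpow_natCast]
  clear hn
  induction n with
  | zero => rw [pow_zero]; exact R1
  | succ n ih => rw [pow_succ]; exact Rm _ _ ih Rp

/-- any finite set of functions -/
theorem gg_J {J : Type} [Fintype J] {y : J → K} (y0 : ∀ j, y j ≠ 0) {k : ℕ} (ρ : Fin k → J → ℤ)
    {A : (Fin k → ℤ) → Set K} (hA : ∀ m φ, φ ∈ A m ↔
      φ ∈ Submodule.span ℂ (mon y '' {u | ∀ i, 0 ≤ ∑ j, u j * ρ i j + m i})) :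
    Sl.GradedGen (k + (Fintype.card J + 1)) A := by
  let e := Fintype.equivFin J
  refine Mt.gg_tor (y := fun j => y (e.symm j)) (fun j => y0 _) (fun i j => ρ i (e.symm j))
    fun m φ => (hA m φ).trans
      (Eq.to_iff (congrArg (fun S : Set K => φ ∈ Submodule.span ℂ S) ?_))
  ext x
  constructor
  · rintro ⟨u, hu, rfl⟩
    refine ⟨fun j => u (e.symm j), fun i => ?_, e.symm.prod_comp fun j => y j ^ u j⟩
    rw [e.symm.sum_comp fun j => u j * ρ i j]
    exact hu i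
  · rintro ⟨u, hu, rfl⟩
    refine ⟨fun j => u (e j), fun i => ?_, ?_⟩
    · rw [← e.symm.sum_comp]
      simpa using hu i
    · rw [mon, ← e.symm.prod_comp]
      simp [mon]

/-- the places at which all homogeneous functions are units -/
def Non (s : K) (y : Fin d → K) (P : Pl K) : Prop :=
  (∀ p, P.ord (lf s p) = 0) ∧ ∀ j, P.ord (y j) = 0

/-- the prime divisors of a variety with a torus action of complexity one -/
structure Pg (s : K) (y : Fin d → K) (pl : ι → Pl K) (T : Set ι) : Prop where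
  s0 : ∀ p, lf s p ≠ 0
  y0 : ∀ j, y j ≠ 0
  fin : ∀ φ : K, φ ≠ 0 → {i | i ∈ T ∧ (pl i).ord φ ≠ 0}.Finite
  dec : ∀ φ : K, φ ≠ 0 → (∀ i ∈ T, Non s y (pl i) → 0 ≤ (pl i).ord φ) → φ ∈ Submodule.span ℂ
    {x | (∃ g ∈ IntermediateField.adjoin ℂ {s}, ∃ n, g ≠ 0 ∧ x = g * mon y n) ∧
      ∀ i ∈ T, ¬ Non s y (pl i) → (pl i).ord φ ≤ (pl i).ord x}

theorem gen {y : Fin d → K} {pl : ι → Pl K} {T : Set ι} (h : Pg s y pl T) (Kp Em : Finset ℂ)
    {p₀ : ℂ} (h₀ : p₀ ∈ Kp) (em : ∀ p ∈ Em, ∀ i ∈ T, ¬ 0 < (pl i).ord (lf s p))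
    (T₀ : Fin d → ℤ) (b : ℂ → ι) (τ : ι → ℤ) (hτ : {i | i ∈ T ∧ τ i ≠ 0}.Finite)
    (hb : ∀ p, p ∉ Kp → p ∉ Em → b p ∈ T ∧ 0 < (pl (b p)).ord (lf s p) ∧ τ (b p) = 0)
    (hg : ∀ p, p ∉ Kp → ∀ i ∈ T, 0 < (pl i).ord (lf s p) → (pl i).ord (lf s p) = 1 ∧ 0 ≤ τ i ∧
      ∀ j, (pl i).ord (y j) = (pl (b p)).ord (y j) + τ i * T₀ j) :
    ∃ (k : ℕ) (D : Fin k → ι →₀ ℤ), Sl.GradedGen (k + (d + Kp.card + 3)) (fun m =>
      {φ : K | φ ≠ 0 → ∀ i ∈ T, 0 ≤ (pl i).ord φ + ∑ j, m j * D j i}) ∧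
      ∀ G : ι → ℤ, {i | i ∈ T ∧ G i ≠ 0}.Finite → (∀ i ∈ T, Non s y (pl i) → G i = 0) →
        (∃ k₀, ∀ p, p ∉ Kp → ∀ i ∈ T, 0 < (pl i).ord (lf s p) → G i = G (b p) + τ i * k₀) →
        ∃ (m : Fin k → ℤ) (φ : K), φ ≠ 0 ∧ ∀ i ∈ T, G i = (pl i).ord φ + ∑ j, m j * D j i := by
  classical
  have s0 := h.s0
  have y0 := h.y0
  let Gd : ι → Prop := fun i => ∃ p, p ∉ Kp ∧ 0 < (pl i).ord (lf s p)
  have uq : ∀ (P : Pl K) p q, 0 < P.ord (lf s p) → 0 < P.ord (lf s q) → q = p :=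
    fun P p q a c => by_contra fun e => c.ne' (ord_lf s0 P a e)
  -- the top vertices
  have top : ∀ p, ∃ i, p ∉ Kp → p ∉ Em → (i ∈ T ∧ 0 < (pl i).ord (lf s p)) ∧
      ∀ i' ∈ T, 0 < (pl i').ord (lf s p) → τ i' ≤ τ i := fun p => by
    by_cases c : p ∉ Kp ∧ p ∉ Em
    · obtain ⟨i, a, e⟩ := Set.exists_max_image {i | i ∈ T ∧ 0 < (pl i).ord (lf s p)} τ
        ((h.fin _ (s0 p)).subset fun i a => ⟨a.1, a.2.ne'⟩)
        ⟨b p, (hb p c.1 c.2).1, (hb p c.1 c.2).2.1⟩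
      exact ⟨i, fun _ _ => ⟨a, fun i' u v => e i' ⟨u, v⟩⟩⟩
    · exact ⟨b p, fun u v => (c ⟨u, v⟩).elim⟩
  choose e he using top
  -- functions of the points
  have fs : ∀ (c : ℂ → ι) (G : ι → ℤ), (∀ p, p ∉ Kp → p ∉ Em → c p ∈ T ∧
      0 < (pl (c p)).ord (lf s p)) → {i | i ∈ T ∧ G i ≠ 0}.Finite →
      ∃ v : ℂ →₀ ℤ, (∀ p, p ∉ Kp → p ∉ Em → v p = G (c p)) ∧ ∀ p, p ∈ Kp ∨ p ∈ Em → v p = 0 := by
    intro c G hc f
    have f' : (Function.support fun p => if p ∉ Kp ∧ p ∉ Em then G (c p) else 0).Finite := by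
      refine (f.of_injOn (f := c) (s := Function.support fun p =>
        if p ∉ Kp ∧ p ∉ Em then G (c p) else 0) (fun p a => ?_) fun p a q a' z => ?_)
      · have a1 := ite_ne_right_iff.1 a
        exact ⟨(hc p a1.1.1 a1.1.2).1, a1.2⟩
      · have a1 := (ite_ne_right_iff.1 a).1
        have a2 := (ite_ne_right_iff.1 a').1
        exact uq _ _ _ (hc q a2.1 a2.2).2 (z ▸ (hc p a1.1 a1.2).2)
    exact ⟨Finsupp.ofSupportFinite _ f', fun p u v => if_pos ⟨u, v⟩,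
      fun p u => if_neg fun w => u.elim w.1 w.2⟩
  have hb' : ∀ p, p ∉ Kp → p ∉ Em → b p ∈ T ∧ 0 < (pl (b p)).ord (lf s p) :=
    fun p u v => ⟨(hb p u v).1, (hb p u v).2.1⟩
  choose v v1 v2 using fun j => fs b (fun i => (pl i).ord (y j)) hb' (h.fin _ (y0 j))
  obtain ⟨l, l1, l2⟩ := fs e τ (fun p u v => (he p u v).1) hτ
  obtain ⟨χ, χ1, χ2⟩ : ∃ χ : ℂ →₀ ℤ, (∀ p, p ∉ Kp → p ∈ Em → χ p = 1) ∧
      ∀ p, p ∈ Kp ∨ p ∉ Em → χ p = 0 :=
    ⟨Finsupp.ofSupportFinite (fun p => if p ∉ Kp ∧ p ∈ Em then 1 else 0)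
      (Em.finite_toSet.subset fun p a => (ite_ne_right_iff.1 a).1.2),
      fun p u v => if_pos ⟨u, v⟩, fun p u => if_neg fun w => u.elim w.1 fun z => z w.2⟩
  -- the remaining invariant primes
  have fD : {i | i ∈ T ∧ ¬ Non s y (pl i) ∧ ¬ Gd i}.Finite := by
    refine ((finite_iUnion fun j => h.fin _ (y0 j)).union
      (Kp.finite_toSet.biUnion fun p _ => h.fin _ (s0 p))).subset fun i a => ?_
    by_cases c : ∀ j, (pl i).ord (y j) = 0
    · obtain ⟨p, hp⟩ := not_forall.1 fun z => a.2.1 ⟨z, c⟩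
      rcases lt_or_gt_of_ne hp with w | w
      · refine .inr (mem_biUnion h₀ ⟨a.1, fun z => ?_⟩)
        have := ord_lf_le s0 (pl i) p z.le
        omega
      · exact .inr (mem_biUnion (show p ∈ Kp from by_contra fun z => a.2.2 ⟨p, z, w⟩) ⟨a.1, hp⟩)
    · obtain ⟨j, hj⟩ := not_forall.1 c
      exact .inl (mem_iUnion.2 ⟨j, a.1, hj⟩)
  obtain ⟨k, r, hr, er⟩ := fD.fin_param
  replace er : ∀ i, (∃ j, r j = i) ↔ i ∈ T ∧ ¬ Non s y (pl i) ∧ ¬ Gd i :=
    fun i => Set.ext_iff.1 er i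
  let D₁ : ι →₀ ℤ := Finsupp.ofSupportFinite
    (fun i => if i ∈ T ∧ Gd i then (pl i).ord (rt s l) - τ i else 0)
    (((h.fin _ (rt_ne s0 l)).union hτ).subset fun i a => by
      obtain ⟨a1, a2⟩ := ite_ne_right_iff.1 a
      by_contra z
      have z1 : (pl i).ord (rt s l) = 0 := by_contra fun w => z (.inl ⟨a1.1, w⟩)
      have z2 : τ i = 0 := by_contra fun w => z (.inr ⟨a1.1, w⟩)
      exact a2 (by rw [z1, z2, sub_zero]))
  let D₂ : ι →₀ ℤ := Finsupp.ofSupportFinite (fun i => if i ∈ T ∧ Gd i then τ i else 0)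
    (hτ.subset fun i a => ⟨(ite_ne_right_iff.1 a).1.1, (ite_ne_right_iff.1 a).2⟩)
  let D : Fin (k + 2) → ι →₀ ℤ := Fin.cons D₁ (Fin.cons D₂ fun j => Finsupp.single (r j) 1)
  have eD : ∀ (m : Fin (k + 2) → ℤ) i, ∑ j, m j * D j i = m 0 * D₁ i + (m 1 * D₂ i +
      ∑ j : Fin k, m j.succ.succ * Finsupp.single (r j) (1 : ℤ) i) := fun m i => by
    rw [Fin.sum_univ_succ, Fin.sum_univ_succ]
    rfl
  have z0 : ∀ (m : Fin k → ℤ) i, (¬ ∃ j, r j = i) →
      ∑ j, m j * Finsupp.single (r j) (1 : ℤ) i = 0 := fun m i a =>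
    Finset.sum_eq_zero fun j _ => by
      rw [Finsupp.single_eq_of_ne fun e => a ⟨j, e.symm⟩, mul_zero]
  have ng : ∀ i, Non s y (pl i) → ¬ Gd i := fun i a ⟨p, _, c⟩ => c.ne' (a.1 p)
  have cN : ∀ (m : Fin (k + 2) → ℤ) i, Non s y (pl i) → ∑ j, m j * D j i = 0 := fun m i a => by
    have e1 : D₁ i = 0 := if_neg fun w => ng i a w.2
    have e2 : D₂ i = 0 := if_neg fun w => ng i a w.2
    rw [eD, e1, e2, z0 _ _ fun w => ((er i).1 w).2.1 a]
    ring
  have cG : ∀ (m : Fin (k + 2) → ℤ) p, p ∉ Kp → ∀ i ∈ T, 0 < (pl i).ord (lf s p) →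
      ∑ j, m j * D j i = m 0 * (l p - τ i) + m 1 * τ i := fun m p hp i hi a => by
    have e1 : D₁ i = (pl i).ord (rt s l) - τ i := if_pos ⟨hi, p, hp, a⟩
    have e2 : D₂ i = τ i := if_pos ⟨hi, p, hp, a⟩
    rw [eD, e1, e2, z0 _ _ fun w => ((er i).1 w).2.2 ⟨p, hp, a⟩, ord_rt_of s0 _ a,
      (hg p hp i hi a).1]
    ring
  have cD : ∀ (m : Fin (k + 2) → ℤ) j, ∑ j', m j' * D j' (r j) = m j.succ.succ := fun m j => by
    have a := (er _).1 ⟨j, rfl⟩
    have e1 : D₁ (r j) = 0 := if_neg fun w => a.2.2 w.2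
    have e2 : D₂ (r j) = 0 := if_neg fun w => a.2.2 w.2
    rw [eD, e1, e2, Finset.sum_eq_single j (fun j' _ e => by
      rw [Finsupp.single_eq_of_ne (hr.ne e).symm, mul_zero]) fun a => (a (Finset.mem_univ _)).elim,
      Finsupp.single_eq_same]
    ring
  have ne : ∀ p, ∀ i ∈ T, 0 < (pl i).ord (lf s p) → p ∉ Em := fun p i hi a c => em p c i hi a
  refine ⟨k + 2, D, ?_, fun G f g0 ⟨k₀, g1⟩ => ?_⟩
  swap
  · obtain ⟨g, g2, -⟩ := fs b G hb' f
    refine ⟨Fin.cons 0 (Fin.cons k₀ fun j => G (r j) - (pl (r j)).ord (rt s g)), rt s g,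
      rt_ne s0 g, fun i hi => ?_⟩
    by_cases c : Non s y (pl i)
    · rw [cN _ _ c, g0 i hi c, ord_rt_zero s0 _ c.1, add_zero]
    by_cases c' : Gd i
    · obtain ⟨p, hp, a⟩ := c'
      rw [cG _ p hp i hi a, ord_rt_of s0 _ a, (hg p hp i hi a).1, g2 p hp (ne p i hi a),
        g1 p hp i hi a]
      show _ = _ + (0 * _ + k₀ * _)
      ring
    · obtain ⟨j, rfl⟩ := (er i).2 ⟨hi, c, c'⟩
      rw [cD]
      exact (add_sub_cancel _ _).symm
  let w : Option (Option (Fin d ⊕ Kp)) → K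
    | none => rt s l
    | some none => rt s χ
    | some (some (.inl j)) => y j * rt s (-v j)
    | some (some (.inr p)) => lf s p
  have w0 : ∀ j, w j ≠ 0 := by
    rintro (_ | _ | j | p)
    exacts [rt_ne s0 _, rt_ne s0 _, mul_ne_zero (y0 j) (rt_ne s0 _), s0 p]
  let ρ₂ : Option (Option (Fin d ⊕ Kp)) → ℤ
    | none => 1
    | some none => 0
    | some (some (.inl j)) => T₀ j
    | some (some (.inr _)) => 0
  let ρ : Fin (k + 2) → Option (Option (Fin d ⊕ Kp)) → ℤ :=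
    Fin.cons (fun j => j.elim 1 fun _ => 0) (Fin.cons ρ₂ fun i j => (pl (r i)).ord (w j))
  have cnd : ∀ (m : Fin (k + 2) → ℤ) (u : Option (Option (Fin d ⊕ Kp)) → ℤ),
      (∀ i, 0 ≤ ∑ j, u j * ρ i j + m i) ↔ 0 ≤ u none + m 0 ∧
        0 ≤ u none + ∑ j, u (some (some (.inl j))) * T₀ j + m 1 ∧
        ∀ i, 0 ≤ (pl (r i)).ord (mon w u) + m i.succ.succ := fun m u => by
    rw [Fin.forall_fin_succ, Fin.forall_fin_succ]
    refine and_congr ?_ (and_congr ?_ (forall_congr' fun i => ?_))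
    · simp [ρ, Fintype.sum_option]
    · simp [ρ, ρ₂, Fintype.sum_option, Fintype.sum_sum_type]
    · rw [ord_mon _ w0]
      rfl
  have := gg_J w0 ρ (A := fun m =>
    {φ : K | φ ≠ 0 → ∀ i ∈ T, 0 ≤ (pl i).ord φ + ∑ j, m j * D j i}) fun m φ => ?_
  · rw [Fintype.card_option, Fintype.card_option, Fintype.card_sum, Fintype.card_fin,
      Fintype.card_coe] at this
    exact this
  simp only [cnd]
  refine ⟨fun H => ?_, fun H => sec_span _ ?_ H⟩
  swap
  · rintro _ ⟨u, ⟨u1, u2, u3⟩, rfl⟩ i hi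
    by_cases c : Non s y (pl i)
    · rw [cN _ _ c, ord_mon _ w0, Finset.sum_eq_zero, add_zero]
      rintro (_ | _ | j | p) -
      · exact mul_eq_zero_of_right _ (ord_rt_zero s0 _ c.1 _)
      · exact mul_eq_zero_of_right _ (ord_rt_zero s0 _ c.1 _)
      · refine mul_eq_zero_of_right _ ?_
        show (pl i).ord (y j * rt s (-v j)) = 0
        rw [Pl.ord_mul _ (y0 j) (rt_ne s0 _), c.2, ord_rt_zero s0 _ c.1, add_zero]
      · exact mul_eq_zero_of_right _ (c.1 p)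
    by_cases c' : Gd i
    · obtain ⟨p, hp, a⟩ := c'
      obtain ⟨a1, a2, a3⟩ := hg p hp i hi a
      have n := ne p i hi a
      have a4 : τ i ≤ l p := (l1 p hp n).symm ▸ (he p hp n).2 i hi a
      have e1 : (pl i).ord (w none) = l p := by
        show (pl i).ord (rt s l) = _
        rw [ord_rt_of s0 _ a, a1, mul_one]
      have e2 : (pl i).ord (w (some none)) = 0 := by
        show (pl i).ord (rt s χ) = _
        rw [ord_rt_of s0 _ a, χ2 p (.inr n), zero_mul]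
      have e3 : ∀ j, (pl i).ord (w (some (some (.inl j)))) = τ i * T₀ j := fun j => by
        show (pl i).ord (y j * rt s (-v j)) = _
        rw [Pl.ord_mul _ (y0 j) (rt_ne s0 _), ord_rt_of s0 _ a, a1, a3, Finsupp.neg_apply,
          v1 j p hp n]
        ring
      have e4 : ∀ q : Kp, (pl i).ord (w (some (some (.inr q)))) = 0 := fun q =>
        ord_lf s0 _ a fun z => hp (z ▸ q.2)
      have e5 : ∑ j, u (some (some (.inl j))) * (τ i * T₀ j) =
          τ i * ∑ j, u (some (some (.inl j))) * T₀ j := by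
        rw [Finset.mul_sum]
        exact Finset.sum_congr rfl fun _ _ => by ring
      rw [cG _ p hp i hi a, ord_mon _ w0, Fintype.sum_option, Fintype.sum_option,
        Fintype.sum_sum_type]
      simp only [e1, e2, e3, e4, e5, mul_zero, Finset.sum_const_zero]
      nlinarith [mul_nonneg (sub_nonneg.2 a4) u1, mul_nonneg a2 u2]
    · obtain ⟨j, rfl⟩ := (er i).2 ⟨hi, c, c'⟩
      rw [cD]
      exact u3 j
  rcases eq_or_ne φ 0 with rfl | φ0
  · exact zero_mem _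
  replace H := H φ0
  refine Submodule.span_le.2 ?_ (h.dec φ φ0 fun i hi c => by simpa [cN m i c] using H i hi)
  rintro _ ⟨⟨g, hg', n, g0, rfl⟩, H'⟩
  obtain ⟨c, κ, c0, rfl⟩ := fac s0 hg' g0
  rw [smul_mul_assoc] at H' ⊢
  refine Submodule.smul_mem _ _ ?_
  replace H' : ∀ i ∈ T, ¬ Non s y (pl i) →
      0 ≤ (pl i).ord (rt s κ * mon y n) + ∑ j, m j * D j i := fun i hi z => by
    have := H' i hi z
    rw [Pl.ord_smul _ c0] at this
    linarith [H i hi]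
  obtain ⟨a, a1, a2, a3⟩ : ∃ a : ℤ, 0 ≤ a + m 0 ∧ 0 ≤ a + ∑ j, n j * T₀ j + m 1 ∧
      (a + m 0 = 0 ∨ a + ∑ j, n j * T₀ j + m 1 = 0) :=
    ⟨-min (m 0) (∑ j, n j * T₀ j + m 1), by omega, by omega, by omega⟩
  obtain ⟨N, hN⟩ : ∃ N : ℤ, ∀ p ∈ Em, 0 ≤ κ p + N := by
    refine ⟨∑ p ∈ Em, |κ p|, fun p hp => ?_⟩
    have := Finset.single_le_sum (f := fun p => |κ p|) (fun _ _ => abs_nonneg _) hp
    linarith [neg_abs_le (κ p)]
  let u : Option (Option (Fin d ⊕ Kp)) → ℤ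
    | none => a
    | some none => -N
    | some (some (.inl j)) => n j
    | some (some (.inr p)) => κ p
  let κ₁ : ℂ →₀ ℤ := a • l + ((-N) • χ + (∑ j, n j • -v j + ∑ p : Kp, Finsupp.single p.1 (κ p)))
  have eu : mon w u = rt s κ₁ * mon y n := by
    rw [mon, Fintype.prod_option, Fintype.prod_option, Fintype.prod_sum_type]
    simp only [κ₁, rt_add s0, rt_smul s0, rt_sum s0, rt_single, w, u, mul_zpow,
      Finset.prod_mul_distrib, mon]
    ring
  have eκ : rt s κ * mon y n = mon w u * rt s (κ - κ₁) := by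
    rw [eu, mul_right_comm, ← rt_add s0, add_sub_cancel]
  have k1 : ∀ p, κ₁ p = a * l p + (-N * χ p + (-∑ j, n j * v j p +
      if p ∈ Kp then κ p else 0)) := fun p => by
    have : (∑ q : Kp, Finsupp.single q.1 (κ q)) p = if p ∈ Kp then κ p else 0 := by
      rw [Finset.sum_coe_sort Kp fun q => Finsupp.single q (κ q), Finsupp.finset_sum_apply]
      simp [Finsupp.single_apply]
    simp only [κ₁, Finsupp.add_apply, Finsupp.smul_apply, this, smul_eq_mul,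
      Finsupp.finset_sum_apply, Finsupp.neg_apply, mul_neg, Finset.sum_neg_distrib]
  have k2 : ∀ p ∈ Kp, (κ - κ₁) p = 0 := fun p hp => by
    simp [k1, l2 p (.inl hp), χ2 p (.inl hp), fun j => v2 j p (.inl hp), hp]
  have k3 : ∀ p, 0 ≤ (κ - κ₁) p := fun p => by
    by_cases hp : p ∈ Kp
    · exact (k2 p hp).ge
    by_cases hq : p ∈ Em
    · have := hN p hq
      simp only [Finsupp.sub_apply, k1, l2 p (.inr hq), χ1 p hp hq, fun j => v2 j p (.inr hq),
        if_neg hp, mul_zero, Finset.sum_const_zero]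
      omega
    have key : ∀ i ∈ T, 0 < (pl i).ord (lf s p) → 0 ≤ κ p + (∑ j, n j * v j p +
        τ i * ∑ j, n j * T₀ j) + (m 0 * (l p - τ i) + m 1 * τ i) := fun i hi z => by
      obtain ⟨b1, -, b3⟩ := hg p hp i hi z
      have := H' i hi fun c => ng i c ⟨p, hp, z⟩
      rw [cG _ p hp i hi z, Pl.ord_mul _ (rt_ne s0 _) (mon_ne y0 _), ord_rt_of s0 _ z, b1,
        ord_mon _ y0, mul_one] at this
      refine this.trans_eq ?_
      rw [Finset.mul_sum, ← Finset.sum_add_distrib]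
      congr 2
      exact Finset.sum_congr rfl fun j _ => by rw [b3, v1 j p hp hq]; ring
    have b1 := key _ (hb p hp hq).1 (hb p hp hq).2.1
    have b2 := key _ (he p hp hq).1.1 (he p hp hq).1.2
    rw [(hb p hp hq).2.2] at b1
    rw [← l1 p hp hq] at b2
    simp only [Finsupp.sub_apply, k1, χ2 p (.inr hq), if_neg hp, mul_zero]
    rcases a3 with z | z
    · have : a = -m 0 := by omega
      rw [this]
      linarith
    · have : a = -(∑ j, n j * T₀ j + m 1) := by omega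
      rw [this]
      linarith
  have ex := expa s0 (fun j => pl (r j)) p₀ (κ - κ₁) k3 fun p hp j => not_lt.1 fun z =>
    ((er _).1 ⟨j, rfl⟩).2.2 ⟨p, fun c => hp (k2 p c), z⟩
  rw [eκ] at H' ⊢
  have ex' := Submodule.mem_map_of_mem (f := LinearMap.mulLeft ℂ (mon w u)) ex
  rw [Submodule.map_span] at ex'
  refine Submodule.span_mono ?_ ex'
  rintro _ ⟨_, ⟨t, rfl, ht⟩, rfl⟩
  have e2 : mon w (u + Pi.single (some (some (.inr ⟨p₀, h₀⟩))) (t : ℤ)) =
      mon w u * lf s p₀ ^ t := by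
    rw [mon_add w0]
    congr 1
    rw [mon, Finset.prod_eq_single (some (some (.inr ⟨p₀, h₀⟩)))
      (fun j _ z => by rw [Pi.single_eq_of_ne z, zpow_zero]) fun z => (z (Finset.mem_univ _)).elim,
      Pi.single_eq_same, zpow_natCast]
  refine ⟨_, ⟨?_, ?_, fun j => ?_⟩, e2⟩
  · simpa [u] using a1
  · simpa [u] using a2
  · obtain ⟨b1, b2, -⟩ := (er _).1 ⟨j, rfl⟩
    have := H' _ b1 b2
    rw [cD, Pl.ord_mul _ (mon_ne w0 _) (rt_ne s0 _)] at this
    rw [e2, Pl.ord_mul _ (mon_ne w0 _) (pow_ne_zero _ (s0 _))]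
    linarith [ht j]

end Vale.Agent.P283R.C3.G41
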