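import Vale.Agent.P283R.C3.St
import Vale.Agent.P283R.C3.Gen41

/-!
# P283R, block C3: the generators and the classes
-/

set_option linter.all false

open Set

noncomputable section

namespace Vale.Agent.P283R.C3

open Vale.Agent.P287D Vale.Agent.P297Z Vale.Agent.P283M Vale.Agent.P283R.To

namespace G41

variable {K : Type} [Field K] [Algebra ℂ K] {s : K} {y : Fin 2 → K}

theorem lf_ne (h : AlgebraicIndependent ℂ (fr s y)) (p : ℂ) : lf s p ≠ 0 := fun e =>
  h.transcendental 0 (by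
    show IsAlgebraic ℂ s
    rw [sub_eq_zero.1 e]
    exact isAlgebraic_algebraMap p)

theorem y_ne (h : AlgebraicIndependent ℂ (fr s y)) (j : Fin 2) : y j ≠ 0 := h.ne_zero j.succ

theorem tv_iff (h : AlgebraicIndependent ℂ (fr s y)) (P : Pl K) : Tv s y P ↔ Non s y P := by
  have s0 := lf_ne h
  have y0 := y_ne h
  refine ⟨fun t => ⟨fun p => t 0 _ ⟨lf s p, sub_mem (IntermediateField.mem_adjoin_simple_self _ _)
    (IntermediateField.algebraMap_mem _ p), by simp [mon]⟩ (s0 p), fun j => t (Pi.single j 1) _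
      ⟨1, one_mem _, ?_⟩ (y0 j)⟩, ?_⟩
  · rw [one_mul, mon, Finset.prod_eq_single j (fun i _ z => by rw [Pi.single_eq_of_ne z, zpow_zero])
      fun z => (z (Finset.mem_univ _)).elim, Pi.single_eq_same, zpow_one]
  · rintro t u _ ⟨φ, hφ, rfl⟩ a0
    obtain ⟨c, k, c0, rfl⟩ := fac s0 hφ (left_ne_zero_of_mul a0)
    rw [smul_mul_assoc, Pl.ord_smul _ c0, Pl.ord_mul _ (rt_ne s0 _) (mon_ne y0 _),
      ord_rt_zero s0 _ t.1, ord_mon _ y0, zero_add]
    exact Finset.sum_eq_zero fun j _ => mul_eq_zero_of_right _ (t.2 j)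

end G41

open G41 in
/-- **GSP** -/
theorem gsp : GSP := by
  intro K _ _ ι s y w P h Kp e τ a g
  classical
  have hi := h.rat.1
  have pg : Pg s y P {E | w E} := by
    refine ⟨lf_ne hi, y_ne hi, fun φ _ => h.fin φ, fun φ φ0 H => ?_⟩
    obtain ⟨G, hG, rfl⟩ := h.lau φ φ0 fun E u v => H E u ((tv_iff hi _).1 v)
    refine sum_mem fun u hu => Submodule.subset_span ⟨?_, fun E b c =>
      h.inv E b (fun z => c ((tv_iff hi _).1 z)) G hG u (Finsupp.mem_support_iff.1 hu)⟩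
    obtain ⟨φ, b, c⟩ := hG u
    exact ⟨φ, b, u, fun z => Finsupp.mem_support_iff.1 hu (by rw [c, z, zero_mul]), c⟩
  have hb : ∀ p : ℂ, p ∉ Kp → p ∉ h.mis.toFinset →
      ∃ E, w E ∧ At s (P E) (some p) ∧ τ E = 0 := fun p u v => by
    obtain ⟨E, b, c⟩ := not_not.1 fun z => v (h.mis.mem_toFinset.2 z)
    exact g.base E p b u c
  obtain ⟨p₁, u₁, v₁⟩ : ∃ p : ℂ, p ∉ Kp ∧ p ∉ h.mis.toFinset := by
    obtain ⟨p, hp⟩ := Infinite.exists_notMem_finset (Kp ∪ h.mis.toFinset)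
    exact ⟨p, fun z => hp (Finset.mem_union_left _ z), fun z => hp (Finset.mem_union_right _ z)⟩
  have : Nonempty ι := ⟨(hb p₁ u₁ v₁).choose⟩
  choose! b hb using hb
  have ne : ∀ p E, w E → At s (P E) (some p) → p ∉ h.mis.toFinset :=
    fun p E u v z => h.mis.mem_toFinset.1 z ⟨E, u, v⟩
  have nk : ∀ p, p ∉ insert 0 Kp → p ∉ Kp := fun p u v => u (Finset.mem_insert_of_mem v)
  obtain ⟨k, D, g1, g2⟩ := gen pg (insert 0 Kp) h.mis.toFinset (Finset.mem_insert_self _ _)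
    (fun p u E v z => ne p E v z u) e b τ
    (τ.support.finite_toSet.subset fun E u => Finsupp.mem_support_iff.2 u.2)
    (fun p u v => hb p (nk p u) v) fun p u E v z => by
      obtain ⟨b1, b2, b3⟩ := hb p (nk p u) (ne p E v z)
      refine ⟨(g.one E p v (nk p u) z).1, g.nn E, fun j => ?_⟩
      rw [(g.one E p v (nk p u) z).2, (g.one _ p b1 (nk p u) b2).2, b3, zero_mul, add_zero]
  refine ⟨k, _, D, ?_, g1, fun κ c β f k0 k1 => g2 κ f
    (fun E u v => k0 E u ((tv_iff hi _).2 v)) ⟨c, fun p u E v z => ?_⟩⟩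
  · have := Finset.card_insert_le 0 Kp
    omega
  · obtain ⟨b1, b2, b3⟩ := hb p (nk p u) (ne p E v z)
    rw [k1 E p v (nk p u) z, k1 _ p b1 (nk p u) b2, b3, zero_mul, add_zero]

end Vale.Agent.P283R.C3
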