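import Vale.Agent.P283R.C3.St

/-!
# P283R, block C3: the frame is adapted to the prime divisors of the torus
-/

open Set

noncomputable section

namespace Vale.Agent.P283R.C3

open Vale.Agent.P287D Vale.Agent.P283M Vale.Agent.P283R.To Vale.Agent.P297Z

/-- **KT** -/
theorem kt : KT := by
  intro d K _ _ z P h t
  obtain ⟨D, hD⟩ := Cb.fr_of h.ff h.ind
  have z0 := h.ind.ne_zero
  have zz := fun i => (Pl.ord_eq_zero_iff _ (z0 i)).1 (t.1 i)
  let G : K → Prop := fun x => x ∈ P.ring ∧ ∀ i, D i x ∈ P.ring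
  have mul : ∀ a b, G a → G b → G (a * b) := fun a b x y => ⟨mul_mem x.1 y.1, fun i => by
    rw [Derivation.leibniz, smul_eq_mul, smul_eq_mul]
    exact add_mem (mul_mem x.1 (y.2 i)) (mul_mem y.1 (x.2 i))⟩
  have add : ∀ a b, G a → G b → G (a + b) := fun a b x y => ⟨add_mem x.1 y.1, fun i => by
    rw [map_add]
    exact add_mem (x.2 i) (y.2 i)⟩
  have con : ∀ c : ℂ, G (algebraMap ℂ K c) := fun c => ⟨P.con c, fun i => by
    rw [Derivation.map_algebraMap]
    exact zero_mem _⟩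
  have one : G 1 := map_one (algebraMap ℂ K) ▸ con 1
  have inv : ∀ a, G a → a⁻¹ ∈ P.ring → G a⁻¹ := fun a x y => ⟨y, fun i => by
    rw [Derivation.leibniz_inv, smul_eq_mul]
    exact mul_mem (neg_mem (pow_mem y 2)) (x.2 i)⟩
  have pw : ∀ a, G a → ∀ n : ℕ, G (a ^ n) := fun a x n => by
    induction n with
    | zero => rw [pow_zero]; exact one
    | succ n k => rw [pow_succ]; exact mul _ _ k x
  have gz : ∀ j, G (z j) := fun j => ⟨(zz j).1, fun i => by
    rw [hD.dual]
    split_ifs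
    exacts [one_mem _, zero_mem _]⟩
  have zp : ∀ j (n : ℤ), G (z j ^ n) := fun j n => by
    obtain ⟨n, rfl | rfl⟩ := n.eq_nat_or_neg
    · rw [zpow_natCast]; exact pw _ (gz j) n
    · rw [zpow_neg, zpow_natCast, ← inv_pow]; exact pw _ (inv _ (gz j) (zz j).2) n
  have la : ∀ g, G (lau z g) := fun g =>
    Finset.sum_induction _ G add (map_zero (algebraMap ℂ K) ▸ con 0) fun m _ => by
      show G (g m • mon z m)
      rw [Algebra.smul_def]
      exact mul _ _ (con _) (Finset.prod_induction _ G mul one fun j _ => zp j _)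
  have ad : Ad P z D := ⟨hD, fun i => (zz i).1, fun i a ha => by
    obtain ⟨g, k, k0, rfl⟩ := t.2 a ha
    obtain ⟨u0, u1⟩ := Aj.ord_lift (la k).1 k0
    rw [div_eq_mul_inv]
    exact (mul _ _ (la g) (inv _ (la k) ((Pl.ord_eq_zero_iff _ u0).1 u1).2)).2 i⟩
  rw [Cb.kap_eq ad, Cb.jac_self hD]
  simp

end Vale.Agent.P283R.C3
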