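import Vale.Agent.P283R.Sl.C3
import Vale.Agent.P283R.Sl.Ga
import Vale.Agent.P283R.Sl.Br
import Vale.Agent.P283R.To.GlMse
import Vale.Agent.P283R.To.Cv

/-!
# P283R, block C3: threefolds with a torus action of complexity one, the statements
-/

open Set CategoryTheory AlgebraicGeometry

noncomputable section

namespace Vale.Agent.P283R.C3

open Vale.Agent.P287D Vale.Agent.P283M Vale.Agent.P283R.To

section defs

variable {K : Type} [Field K] [Algebra ℂ K] {ι : Type}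

/-- the frame -/
def fr (s : K) (y : Fin 2 → K) : Fin 3 → K := Fin.cons s y

/-- homogeneous functions of the degree `u` -/
def Hm (s : K) (y : Fin 2 → K) (u : Fin 2 → ℤ) : Set K :=
  {a | ∃ φ ∈ IntermediateField.adjoin ℂ {s}, a = φ * mon y u}

/-- a family of homogeneous components -/
def Hg (s : K) (y : Fin 2 → K) (G : (Fin 2 → ℤ) →₀ K) : Prop := ∀ u, G u ∈ Hm s y u

/-- the sum of the components -/
def tot (G : (Fin 2 → ℤ) →₀ K) : K := G.sum fun _ a => a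

/-- the standard homogeneous functions -/
def hm (s : K) (y : Fin 2 → K) (n : ℂ →₀ ℤ) (u : Fin 2 → ℤ) : K :=
  (n.prod fun p k => (s - algebraMap ℂ K p) ^ k) * mon y u

/-- the place is trivial on the homogeneous functions -/
def Tv (s : K) (y : Fin 2 → K) (P : Pl K) : Prop := ∀ u, ∀ a ∈ Hm s y u, a ≠ 0 → P.ord a = 0

/-- the order of the local parameter at a point of the projective line -/
def mu (s : K) (P : Pl K) : Option ℂ → ℤ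
  | none => -P.ord s
  | some p => P.ord (s - algebraMap ℂ K p)

/-- the place lies over the point `r` of the projective line -/
def At (s : K) (P : Pl K) (r : Option ℂ) : Prop := 0 < mu s P r

/-- the order of the form `ds dy₁ / y₁ dy₂ / y₂` -/
def cz (s : K) (y : Fin 2 → K) (P : Pl K) : ℤ := ⌊kap (fr s y) P⌋ - ∑ j, P.ord (y j)

/-- the orders at the points of the projective line -/
def od (n : ℂ →₀ ℤ) : Option ℂ → ℤ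
  | none => -n.sum fun _ k => k
  | some p => n p

/-- the family `P` of the prime divisors, `w` selects those in the open set -/
structure Fm (s : K) (y : Fin 2 → K) (w : ι → Prop) (P : ι → Pl K) : Prop where
  rat : D.Rat (fr s y)
  fin : ∀ a : K, {E | w E ∧ (P E).ord a ≠ 0}.Finite
  finc : {E | w E ∧ cz s y (P E) ≠ 0}.Finite
  inv : ∀ E, w E → ¬ Tv s y (P E) → ∀ G, Hg s y G → ∀ u, G u ≠ 0 →
    (P E).ord (tot G) ≤ (P E).ord (G u)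
  lau : ∀ φ : K, φ ≠ 0 → (∀ E, w E → Tv s y (P E) → 0 ≤ (P E).ord φ) → ∃ G, Hg s y G ∧ φ = tot G
  eqn : ∀ c : ι → ℤ, {E | c E ≠ 0}.Finite →
    ∃ φ : K, φ ≠ 0 ∧ ∀ E, w E → Tv s y (P E) → (P E).ord φ = c E
  kt : ∀ E, w E → Tv s y (P E) → cz s y (P E) = 0
  mis : {p : ℂ | ¬ ∃ E, w E ∧ At s (P E) (some p)}.Finite

/-- outside of the kept points `Kp` the vertices lie on lines with the direction `e` -/
structure Gd (s : K) (y : Fin 2 → K) (w : ι → Prop) (P : ι → Pl K) (Kp : Finset ℂ)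
    (e : Fin 2 → ℤ) (τ : ι →₀ ℤ) (a : ℂ → Fin 2 → ℤ) : Prop where
  nn : ∀ E, 0 ≤ τ E
  one : ∀ E p, w E → p ∉ Kp → At s (P E) (some p) →
    mu s (P E) (some p) = 1 ∧ ∀ j, (P E).ord (y j) = a p j + τ E * e j
  off : ∀ E, τ E ≠ 0 → w E ∧ ∃ p ∉ Kp, At s (P E) (some p)
  base : ∀ E p, w E → p ∉ Kp → At s (P E) (some p) →
    ∃ E', w E' ∧ At s (P E') (some p) ∧ τ E' = 0

/-- the kept prime divisors -/
def Kt (s : K) (y : Fin 2 → K) (w : ι → Prop) (P : ι → Pl K) (Kp : Finset ℂ) (E : ι) : Prop :=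
  w E ∧ ¬ Tv s y (P E) ∧ ∀ p ∉ Kp, ¬ At s (P E) (some p)

/-- the divisors -/
def dd {k : ℕ} (τ : ι →₀ ℤ) (r : Fin k → ι) : Fin (k + 1) → ι →₀ ℤ :=
  Fin.cons τ fun i => Finsupp.single (r i) 1

/-- `ε`-lc and nef: `q (K + B) = div g + ∑ κ_E E` -/
def Hw (ε : ℝ) (q : ℕ) (s : K) (y : Fin 2 → K) (w : ι → Prop) (P : ι → Pl K) (g : K)
    (κ : ι → ℤ) : Prop :=
  ∀ (Q : Pl K) (ξ : ι → ℝ), 0 ≤ ξ → (∀ E, ξ E ≠ 0 → w E ∧ ¬ Tv s y (P E)) →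
    (∀ u, ∀ a ∈ Hm s y u, a ≠ 0 → ∑ᶠ E, ξ E * (P E).ord a ≤ Q.ord a) →
    ε * q ≤ q * (cz s y Q + 1) - Q.ord g - ∑ᶠ E, ξ E * κ E

end defs

/-- a property of a frame -/
def ForR (p : ∀ (K : Type) [Field K] [Algebra ℂ K], K → (Fin 2 → K) → Prop) : Prop :=
  ∀ (K : Type) [Field K] [Algebra ℂ K] (s : K) (y : Fin 2 → K), D.Rat (fr s y) → p K s y

/-- a property of a family -/
def ForF (p : ∀ (K : Type) [Field K] [Algebra ℂ K] (ι : Type),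
    K → (Fin 2 → K) → (ι → Prop) → (ι → Pl K) → Prop) : Prop :=
  ∀ (K : Type) [Field K] [Algebra ℂ K] (ι : Type) (s : K) (y : Fin 2 → K) (w : ι → Prop)
    (P : ι → Pl K), Fm s y w P → p K ι s y w P

/-! ### the rows on the field -/

/-- **FAC**: factorisation and orders -/
def FAC : Prop := ForR fun _ _ _ s y =>
  (∀ u, ∀ a ∈ Hm s y u, a ≠ 0 → ∃ (c : ℂ) (n : ℂ →₀ ℤ), c ≠ 0 ∧ a = c • hm s y n u) ∧
  (∀ n u, hm s y n u ≠ 0 ∧ hm s y n u ∈ Hm s y u) ∧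
  (∀ n u n' u', hm s y (n + n') (u + u') = hm s y n u * hm s y n' u') ∧
  (∀ P r r', At s P r → At s P r' → r = r') ∧ (∀ P r, At s P r → ¬ Tv s y P) ∧
  (∀ P r n u, At s P r → P.ord (hm s y n u) = ∑ j, u j * P.ord (y j) + mu s P r * od n r) ∧
  (∀ P n u, (∀ r, ¬ At s P r) → P.ord (hm s y n u) = ∑ j, u j * P.ord (y j))

/-- **SUMS**: sums of homogeneous functions -/
def SUMS : Prop := ForR fun K _ _ s y => (∀ G, Hg s y G → G ≠ 0 → tot G ≠ 0) ∧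
  (∀ (G : (Fin 2 → ℤ) →₀ K) (P : Pl K), tot G ≠ 0 → ∃ u, G u ≠ 0 ∧ P.ord (G u) ≤ P.ord (tot G)) ∧
  ∀ (A : Set K), ∀ a ∈ Submodule.span ℂ {b ∈ A | ∃ u, b ∈ Hm s y u},
    ∃ G, Hg s y G ∧ a = tot G ∧ ∀ u, G u ∈ Submodule.span ℂ (A ∩ Hm s y u)

/-- **CZ**: the invariant form -/
def CZ : Prop := ForR fun K _ _ s y =>
  (∀ P p, mu s P (some p) - 1 ≤ cz s y P) ∧ (∀ P, -1 - mu s P none ≤ cz s y P) ∧
  (∃ h : K, h ≠ 0 ∧ ∀ P, cn K 3 P = cz s y P + P.ord h) ∧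
  ∀ v : Fin 2 → ℤ, v ≠ 0 → ∃ (Q : Pl K) (e : ℕ), 0 < e ∧ (∀ j, v j = e * Q.ord (y j)) ∧
    (∀ r, ¬ At s Q r) ∧ cz s y Q + 1 ≤ 0

/-- **KT**: the prime divisors of the torus -/
def KT : Prop := ∀ (d : ℕ) (K : Type) [Field K] [Algebra ℂ K] (z : Fin d → K) (P : Pl K),
  D.Rat z → Tpr z P → kap z P = 0

/-- **CONV**: nef divisors are convex -/
def CONV : Prop := ∀ (n : ℕ) (K : Type) [Field K] [Algebra ℂ K] (u : Finset K) (Λ Γ Γ' : BD K)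
  (T : Pl K → Prop) (ξ : Pl K → ℝ) (Q : Pl K), Dat n u Λ Γ Γ' → (∀ R, T R → Ov u R ∧ On n Λ R) →
    0 ≤ ξ → (∀ R, ξ R ≠ 0 → Ov u R ∧ On n Λ R) →
    (∀ c : Pl K → ℤ, {R | T R ∧ c R ≠ 0}.Finite → ∃ G : K, G ≠ 0 ∧ ∀ R, T R → R.ord G = c R) →
    (∀ a : K, a ≠ 0 → (∀ R, T R → 0 ≤ R.ord a) → ∑ᶠ R, ξ R * R.ord a ≤ Q.ord a) →
    Ov u Q ∧ ∀ ψ ∈ Car K, ∀ α ∈ Car K, (∀ δ : ℝ, 0 < δ → SmpO u (ψ + δ • α)) →
      (∀ R, T R → ψ R = 0) → ψ Q ≤ ∑ᶠ R, ξ R * ψ R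

/-- **COUNT**: the lattice part -/
def COUNT : Prop := ∀ (ε : ℝ) (q : ℕ), 0 < ε → 1 ≤ q → ∃ N : ℕ, ∀ (ρ ι J : Type) [Fintype ρ]
  [Fintype ι] [DecidableEq ρ] (pt : ι → ρ) (o : ρ) (μ c κ : ι → ℤ) (n : ι → Fin 2 → ℤ)
  (u : J → Fin 2 → ℤ) (d : J → ρ → ℤ), Function.Surjective pt → (∀ l, 1 ≤ μ l) →
    (∀ l, pt l ≠ o → μ l - 1 ≤ c l) → (∀ l, -1 - μ l ≤ c l) → (∀ j, ∑ r, d j r = 0) →
    (∀ j l, q * c l ≤ κ l + u j ⬝ᵥ n l + μ l * d j (pt l)) →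
    (∀ (ξ : ι → ℝ) (t : ℝ) (v : Fin 2 → ℤ), 0 ≤ ξ → (∀ r, ∑ l with pt l = r, ξ l * μ l = t) →
      (∀ i, (v i : ℝ) = ∑ l, ξ l * n l i) →
      ∃ j, (if v = 0 then 0 else ε * q) ≤ -((u j ⬝ᵥ v : ℤ) : ℝ) - ∑ l, ξ l * κ l) →
    ∃ (Kp : Finset ρ) (e : Fin 2 → ℤ) (k : ℤ) (τ : ι → ℕ) (a : ρ → Fin 2 → ℤ) (b : ρ → ℤ),
      Kp.card ≤ N ∧ o ∈ Kp ∧ (∀ l, pt l ∉ Kp → c l = 0 ∧ μ l = 1 ∧
        (∀ i, n l i = a (pt l) i + τ l * e i) ∧ κ l = b (pt l) + τ l * k) ∧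
      ∀ r ∉ Kp, ∃ l, pt l = r ∧ τ l = 0

/-- **ELL**: every point of the projective line has a vertex -/
def ELL : Prop := ∀ (ε : ℝ) (q : ℕ), 0 < ε → 1 ≤ q → ∃ N : ℕ, ForF fun K _ _ ι s y w P =>
  ∀ (g : K) (κ : ι → ℤ), g ≠ 0 → (∀ E, w E → Tv s y (P E) → 0 ≤ (P E).ord g) →
    {E | w E ∧ κ E ≠ 0}.Finite → (∀ E, w E → q * cz s y (P E) - (P E).ord g ≤ κ E) →
    Hw ε q s y w P g κ → (∀ r, ∃ E, w E ∧ At s (P E) r) →
    ∃ (Kp : Finset ℂ) (e : Fin 2 → ℤ) (τ : ι →₀ ℤ) (a : ℂ → Fin 2 → ℤ) (k : ℤ) (b : ℂ → ℤ),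
      Kp.card ≤ N ∧ Gd s y w P Kp e τ a ∧ ∀ E p, w E → p ∉ Kp → At s (P E) (some p) →
        cz s y (P E) = 0 ∧ κ E = b p + τ E * k

/-- **RAYS**: the kept prime divisors -/
def RAYS : Prop := ForF fun _ _ _ ι s y w P => ∀ Kp : Finset ℂ, ∃ (k : ℕ) (r : Fin k → ι),
  Function.Injective r ∧ ∀ E, (∃ i, r i = E) ↔ Kt s y w P Kp E

/-- **GEN**: the generators -/
def GEN : Prop := ForF fun _ _ _ ι s y w P => ∀ (Kp : Finset ℂ) e τ a (k : ℕ) (r : Fin k → ι),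
  Gd s y w P Kp e τ a → Function.Injective r → (∀ E, (∃ i, r i = E) ↔ Kt s y w P Kp E) →
    Sl.GradedGen (k + 1 + (Kp.card + 6)) fun m =>
      {φ | φ ≠ 0 → ∀ E, w E → 0 ≤ (P E).ord φ + ∑ i, m i * dd τ r i E}

/-- **SPAN**: the classes -/
def SPAN : Prop := ForF fun K _ _ ι s y w P => ∀ (Kp : Finset ℂ) e τ a (k : ℕ) (r : Fin k → ι),
  Gd s y w P Kp e τ a → Function.Injective r → (∀ E, (∃ i, r i = E) ↔ Kt s y w P Kp E) →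
    ∀ (κ : ι → ℤ) (c : ℤ) (b : ℂ → ℤ), {E | w E ∧ κ E ≠ 0}.Finite →
      (∀ E, w E → Tv s y (P E) → κ E = 0) →
      (∀ E p, w E → p ∉ Kp → At s (P E) (some p) → κ E = b p + τ E * c) →
      ∃ (m : Fin (k + 1) → ℤ) (φ : K), φ ≠ 0 ∧
        ∀ E, w E → κ E = (P E).ord φ + ∑ i, m i * dd τ r i E

/-- **GSP**: the generators and the classes, for some divisors -/
def GSP : Prop := ForF fun K _ _ ι s y w P => ∀ (Kp : Finset ℂ) e τ a, Gd s y w P Kp e τ a →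
  ∃ (k N : ℕ) (D : Fin k → ι →₀ ℤ), N ≤ k + (Kp.card + 9) ∧
    (Sl.GradedGen N fun m => {φ | φ ≠ 0 → ∀ E, w E → 0 ≤ (P E).ord φ + ∑ i, m i * D i E}) ∧
    ∀ (κ : ι → ℤ) (c : ℤ) (b : ℂ → ℤ), {E | w E ∧ κ E ≠ 0}.Finite →
      (∀ E, w E → Tv s y (P E) → κ E = 0) →
      (∀ E p, w E → p ∉ Kp → At s (P E) (some p) → κ E = b p + τ E * c) →
      ∃ (m : Fin k → ℤ) (φ : K), φ ≠ 0 ∧ ∀ E, w E → κ E = (P E).ord φ + ∑ i, m i * D i E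

theorem gsp_of (a : RAYS) (b : GEN) (c : SPAN) : GSP := fun K _ _ ι s y w P h Kp e τ v g =>
  let ⟨k, r, i, j⟩ := a K ι s y w P h Kp
  ⟨k + 1, _, dd τ r, by omega, b K ι s y w P h Kp e τ v k r g i j,
    c K ι s y w P h Kp e τ v k r g i j⟩

/-- **ELLR** -/
def ELLR : Prop := FAC → SUMS → CZ → COUNT → ELL

/-- **GENR** -/
def GENR : Prop := FAC → SUMS → GEN

/-- **SPANR** -/
def SPANR : Prop := FAC → RAYS ∧ SPAN

/-! ### the rows on schemes -/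

section sch

open Vale.Agent.P289 (Pt DForm dimension)
open Vale.Agent.P283M.Stm Vale.Agent.P283M.Stm.Var Vale.Agent.P283M.Br Vale.Agent.P283R.Gl

/-- `W` is covered by graded affine charts -/
def CoY {X : Var} (W : X.X.Opens) (s : X.K) (y : Fin 2 → X.K) : Prop :=
  AlgebraicIndependent ℂ (fr s y) ∧ ∀ x ∈ W, ∃ U ≤ W, IsAffineOpen U ∧ x ∈ U ∧
    ∀ g, (∀ x' ∈ U, RegAt g x') →
      g ∈ Submodule.span ℂ {b ∈ {b | ∀ x' ∈ U, RegAt b x'} | ∃ u, b ∈ Hm s y u}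

/-- a property of a variety of complexity one -/
def ForX (p : ∀ X : Var, X.X.Opens → X.K → (Fin 2 → X.K) → Prop) : Prop :=
  ∀ (X : Var) (W : X.X.Opens) (s : X.K) (y : Fin 2 → X.K) (x : Pt X.X), CoY W s y → x ∈ W →
    p X W s y

/-- **RAT** -/
def RAT : Prop := ForX fun X W s y => D.Rat (fr s y) ∧
  ∀ E : X.PrimeDiv, E.1 ∈ W → Tv s y (pq E) → Tpr (fr s y) (pq E)

/-- **INV** -/
def INV : Prop := ForX fun X W s y => ∀ E : X.PrimeDiv, E.1 ∈ W → ¬ Tv s y (pq E) →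
  ∀ G, Hg s y G → ∀ u, G u ≠ 0 → (pq E).ord (tot G) ≤ (pq E).ord (G u)

/-- **LAU** -/
def LAU : Prop := ForX fun X W s y => ∀ φ : X.K, φ ≠ 0 →
  (∀ E : X.PrimeDiv, E.1 ∈ W → Tv s y (pq E) → 0 ≤ (pq E).ord φ) → ∃ G, Hg s y G ∧ φ = tot G

/-- **MIS** -/
def MIS : Prop := ForX fun X W s _ =>
  {p : ℂ | ¬ ∃ E : X.PrimeDiv, E.1 ∈ W ∧ At s (pq E) (some p)}.Finite

/-- **FM**: the prime divisors form a family -/
def FM : Prop := ForX fun X W s y => Fm s y (fun E : X.PrimeDiv => E.1 ∈ W) pq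

/-- **MOB**: a missing point is moved to infinity -/
def MOB : Prop := ForX fun X W s y => ∀ r, (¬ ∃ E : X.PrimeDiv, E.1 ∈ W ∧ At s (pq E) r) →
  ∃ s', CoY W s' y ∧ ∀ E : X.PrimeDiv, E.1 ∈ W → 0 ≤ (pq E).ord s'

/-- **SHR**: shrinking -/
def SHR : Prop := ∀ (X Z : Var) (f : X.X ⟶ Z.X) (V : Z.X.Opens) (z : Pt Z.X) (s : X.K)
  (y : Fin 2 → X.K) (T : Set X.PrimeDiv), Contraction f → IsClosed ({z} : Set (Pt Z.X)) →
    IsAffineOpen V → z ∈ V → CoY (f ⁻¹ᵁ V) s y →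
    (∀ E : X.PrimeDiv, E.1 ∈ f ⁻¹ᵁ V → 0 ≤ (pq E).ord s) → T.Finite →
    ∃ (V' : Z.X.Opens) (p₀ : ℂ), V' ≤ V ∧ IsAffineOpen V' ∧ z ∈ V' ∧ CoY (f ⁻¹ᵁ V') s y ∧
      ∀ E ∈ T, E.1 ∈ f ⁻¹ᵁ V' → ∀ p ≠ p₀, ¬ At s (pq E) (some p)

/-- **HWS**: the inequality -/
def HWS : Prop := ∀ (X Z : Var) (f : X.X ⟶ Z.X) (ω : DForm ℂ X.K 3) (B : X.QDiv) (z : Pt Z.X)
  (ε : ℝ) (q : ℕ) (V : Z.X.Opens) (s g : X.K) (y : Fin 2 → X.K) (κ : X.PrimeDiv → ℤ),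
    FF X.K 3 → ω.Nonzero → Pair (ε ≤ ·) ⊤ ω B → Contraction f → FanoType f ω →
    NefOver f (-logCan ω B) → IsClosed ({z} : Set (Pt Z.X)) → IsAffineOpen V → z ∈ V → 1 ≤ q →
    Fm s y (fun E : X.PrimeDiv => E.1 ∈ f ⁻¹ᵁ V) pq → g ≠ 0 →
    (∀ E : X.PrimeDiv, E.1 ∈ f ⁻¹ᵁ V →
      (κ E : ℚ) = q * cz s y (pq E) + q * B E - (pq E).ord g) →
    (∀ E : X.PrimeDiv, E.1 ∈ f ⁻¹ᵁ V → Tv s y (pq E) → κ E = 0) →
    Hw ε q s y (fun E : X.PrimeDiv => E.1 ∈ f ⁻¹ᵁ V) pq g κ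

end sch

/-- **INVR** -/
def INVR : Prop := FAC → SUMS → RAT → INV

/-- **LAUR** -/
def LAUR : Prop := FAC → SUMS → RAT → LAU

/-- **MISR** -/
def MISR : Prop := FAC → SUMS → RAT → MIS

/-- **FMR** -/
def FMR : Prop := CZ → KT → RAT → INV → LAU → MIS → FM

/-- **HWR** -/
def HWR : Prop := SUMS → CZ → CONV → HWS

open Sl Sl.Var in
/-- **MEM**: the membership -/
def MEM : Prop := ∀ (ε : ℝ) (q : ℕ), 0 < ε → 1 ≤ q → ∃ l : ℕ, ∀ (X Z : Sl.Var) (f : X.X ⟶ Z.X)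
  (ω : X.Form 3) (B : X.QDiv) (z : Pt Z.X) (V : Z.X.Opens), dimension X.str = (3 : ℕ) →
    ω.Nonzero → Pair (ε ≤ ·) (all X.X) ω B → (∀ E, ∃ m : ℤ, q * B.coeff E = m) → Contraction f →
    FanoType f ω → NefOver f (-logCan ω B) → z.Closed → IsAffineOpen V → z.In V →
    ComplexityOne (pre f V) 2 → Generated l f ω B z

/-- **TOP** -/
def TOP : Prop := CZ → ELL → GSP → FM → MOB → SHR → HWS → MEM

end Vale.Agent.P283R.C3
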