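import Vale.Agent.P283R.C3.St

/-!
# P283R, block C3: a missing point is moved to infinity
-/

open Set

noncomputable section

namespace Vale.Agent.P283R.C3

open Vale.Agent.P287D Vale.Agent.P283M Vale.Agent.P283R.To Vale.Agent.P297Z

namespace M27

variable {K : Type} [Field K] [Algebra ℂ K] {r : ℕ}

theorem cons_iff {s : K} {y : Fin r → K} :
    AlgebraicIndependent ℂ (Fin.cons s y : Fin (r + 1) → K) ↔
      AlgebraicIndependent ℂ y ∧ Transcendental (Algebra.adjoin ℂ (range y)) s := by
  rw [← AlgebraicIndependent.option_iff, ← algebraicIndependent_equiv (finSuccEquiv r)]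
  rw [show (fun o : Option (Fin r) => o.elim s y) ∘ finSuccEquiv r = Fin.cons s y from
    funext fun i => by induction i using Fin.cases <;> simp]

theorem ind {s : K} {y : Fin r → K} (h : AlgebraicIndependent ℂ (Fin.cons s y : Fin (r + 1) → K))
    (p : ℂ) : AlgebraicIndependent ℂ (Fin.cons (s - algebraMap ℂ K p)⁻¹ y : Fin (r + 1) → K) := by
  obtain ⟨a, b⟩ := cons_iff.1 h
  refine cons_iff.2 ⟨a, fun k => b ?_⟩
  have k' := (IsAlgebraic.inv_iff.1 k).add
    (isAlgebraic_algebraMap (algebraMap ℂ (Algebra.adjoin ℂ (range y)) p))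
  simpa using k'

theorem adj (s : K) (p : ℂ) :
    IntermediateField.adjoin ℂ {(s - algebraMap ℂ K p)⁻¹} = IntermediateField.adjoin ℂ {s} := by
  apply le_antisymm <;> rw [IntermediateField.adjoin_simple_le_iff]
  · exact inv_mem (sub_mem (IntermediateField.mem_adjoin_simple_self ℂ s) (algebraMap_mem _ p))
  · have := add_mem (inv_mem (IntermediateField.mem_adjoin_simple_self ℂ
      (s - algebraMap ℂ K p)⁻¹)) (algebraMap_mem (IntermediateField.adjoin ℂ
      {(s - algebraMap ℂ K p)⁻¹}) p)
    simpa using this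

end M27

theorem mob27 : MOB := fun X W s y _ h _ r hr => by
  cases r with
  | none =>
    refine ⟨s, h, fun E hE => not_lt.1 fun k => hr ⟨E, hE, ?_⟩⟩
    change 0 < -_
    omega
  | some p =>
    refine ⟨(s - algebraMap ℂ X.K p)⁻¹, ⟨M27.ind h.1 p, fun x hx => ?_⟩, fun E hE => ?_⟩
    · simpa only [Hm, M27.adj] using h.2 x hx
    · have : ¬ 0 < (Gl.pq E).ord (s - algebraMap ℂ X.K p) := fun k => hr ⟨E, hE, k⟩
      rw [Pl.ord_inv]
      omega

end Vale.Agent.P283R.C3
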