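import Vale.Agent.P283R.C3.St
import Vale.Agent.P283R.To.Sc1

/-!
# P283R, block C3: shrinking the base
-/

open Set CategoryTheory AlgebraicGeometry

noncomputable section

namespace Vale.Agent.P283R.C3

open Vale.Agent.P289 Vale.Agent.P289.H219 Vale.Agent.P270L Vale.Agent.P283M.Am
open Vale.Agent.P287D Vale.Agent.P283M.Stm Vale.Agent.P283M.Stm.Var Vale.Agent.P297Z
open Vale.Agent.P283M Vale.Agent.P283M.Br Vale.Agent.P283R.To Vale.Agent.P283R.Gl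
open Vale.Agent.P283R.Sch

namespace S8

variable {X : Var} {W W' : X.X.Opens} {s l : X.K} {y : Fin 2 → X.K}

/-- the complement of the zeros of an invariant function -/
theorem coy (h : CoY W s y) (hl : l ∈ IntermediateField.adjoin ℂ {s}) (r : ∀ x ∈ W, RegAt l x)
    (e : ∀ x, x ∈ W' ↔ x ∈ W ∧ UnAt l x) : CoY W' s y := by
  refine ⟨h.1, fun x hx => ?_⟩
  obtain ⟨xW, m2⟩ := (e x).1 hx
  obtain ⟨U, UW, hU, xU, g⟩ := h.2 x xW
  have m1 : ∀ p ∈ U, RegAt l p := fun p hp => r p (UW hp)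
  have : Nonempty U := ⟨⟨x, xU⟩⟩
  obtain ⟨b, hb⟩ := Am.reg_iff.1 (Am.mem_reg.2 m1)
  have ub : ∀ p, p ∈ X.X.basicOpen b ↔ p ∈ U ∧ UnAt l p := fun p =>
    ⟨fun a => ⟨X.X.basicOpen_le b a, hb ▸ (Am.un_secK b (X.X.basicOpen_le b a)).2 a⟩,
      fun a => (Am.un_secK b a.1).1 (hb ▸ a.2)⟩
  refine ⟨X.X.basicOpen b, fun p hp => (e p).2 ⟨UW ((ub p).1 hp).1, ((ub p).1 hp).2⟩,
    hU.basicOpen b, (ub x).2 ⟨xU, m2⟩, fun c hc => ?_⟩
  obtain ⟨N, hN⟩ := Am.ext_sec (W := U) (D := 0) (E := 0) (f := c) Am.fs_zero m2.1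
    (fun p hp => (Am.sc_zero (Am.nrm X)).2 (m1 p hp)) fun p hp q =>
      (Am.sc_zero (Am.nrm X)).2 (hc p ((ub p).2 ⟨hp, (Am.gn_zero (Am.nrm X)).1 q⟩))
  have k := g (c * l ^ N) fun p hp => (Am.sc_zero (Am.nrm X)).1 (by simpa using hN N le_rfl p hp)
  rw [show c = c * l ^ N * l⁻¹ ^ N by
    rw [mul_assoc, ← mul_pow, mul_inv_cancel₀ m2.1, one_pow, mul_one]]
  generalize c * l ^ N = a at k
  induction k using Submodule.span_induction with
  | mem a ha =>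
    obtain ⟨a1, u, φ, hφ, rfl⟩ := ha
    exact Submodule.subset_span ⟨fun p hp => reg_mul (a1 p ((ub p).1 hp).1)
      (reg_pow ((ub p).1 hp).2.2.2 N), u, φ * l⁻¹ ^ N, mul_mem hφ (pow_mem (inv_mem hl) N),
      mul_right_comm _ _ _⟩
  | zero => rw [zero_mul]; exact zero_mem _
  | add a b _ _ ha hb => rw [add_mul]; exact add_mem ha hb
  | smul c a _ ha => rw [smul_mul_assoc]; exact Submodule.smul_mem _ c ha

theorem uniq {K : Type} [Field K] [Algebra ℂ K] {s : K} {P : Pl K} {p p' : ℂ}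
    (h : At s P (some p)) (h' : At s P (some p')) : p = p' := by
  by_contra n
  change 0 < P.ord _ at h h'
  have z : ∀ {a : K}, 0 < P.ord a → a ≠ 0 := fun h e => by simp [e] at h
  have e : s - algebraMap ℂ K p + -(s - algebraMap ℂ K p') = algebraMap ℂ K (p' - p) := by
    rw [map_sub]; ring
  have k : min (P.ord _) (P.ord _) ≤ P.ord _ := P297Z.Pl.min_ord_le_add P.toPlace (z h)
    (neg_ne_zero.2 (z h')) (e ▸ (map_ne_zero _).2 (sub_ne_zero.2 (Ne.symm n)))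
  rw [e, Pl.ord_const, ← neg_one_smul ℂ, Pl.ord_smul _ (by simp)] at k
  omega

end S8

/-- **SHR** -/
theorem shr8 : SHR := by
  classical
  intro X Z f V z s y T ⟨h1, _, h3, h4⟩ hz hV hzV h hs hT
  obtain ⟨x₀, rfl⟩ := h3.surj z
  have : Nonempty ↑(f ⁻¹ᵁ V) := ⟨⟨x₀, hzV⟩⟩
  have := h4 V
  let _ : Algebra ℂ Γ(Z.X, V) := (cst Z.str V).toAlgebra
  have : Algebra.FiniteType ℂ Γ(Z.X, V) := cst_finiteType Z.str hV
  let φ : Γ(Z.X, V) →ₐ[ℂ] X.K := { pl f V with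
    commutes' := fun c => by
      change X.X.germToFunctionField _ ((f.app V).hom (cst Z.str V c)) = constants X.str c
      rw [app_cst, germ_cst, h1] }
  have hm := hV.primeIdealOf_isMaximal_of_isClosed ⟨_, hzV⟩ hz
  have rs : ∀ x ∈ f ⁻¹ᵁ V, RegAt s x := fun x hx => har X _ x fun E hE =>
    pq_ord E s ▸ hs E (hE.mem_open (f ⁻¹ᵁ V).isOpen hx)
  obtain ⟨σ, hσ⟩ := exists_pl f V (mem_reg.2 rs)
  obtain ⟨c, hc⟩ := res_surj _ hm (Ideal.Quotient.mk _ σ)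
  have fC : {p | p ≠ c ∧ ∃ E ∈ T, At s (pq E) (some p)}.Finite :=
    (hT.biUnion fun E _ => (show {p | At s (pq E) (some p)}.Subsingleton from
      fun _ a _ b => S8.uniq a b).finite).subset fun p ⟨_, E, a, b⟩ => mem_biUnion a b
  let b : Γ(Z.X, V) := ∏ p ∈ fC.toFinset, (σ - algebraMap ℂ _ p)
  have eb : pl f V b = ∏ p ∈ fC.toFinset, (s - algebraMap ℂ _ p) := by
    change φ b = _
    simp only [b, map_prod, map_sub, AlgHom.commutes]
    exact Finset.prod_congr rfl fun p _ => congrArg (· - _) hσ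
  have e : ∀ x, x ∈ f ⁻¹ᵁ Z.X.basicOpen b ↔ x ∈ f ⁻¹ᵁ V ∧ UnAt (pl f V b) x := fun x =>
    ⟨fun a => ⟨Z.X.basicOpen_le _ a, (un_pl (Z.X.basicOpen_le _ a) _).2 a⟩,
      fun a => (un_pl a.1 _).1 a.2⟩
  have rp : ∀ p : ℂ, ∀ x ∈ f ⁻¹ᵁ V, RegAt (s - algebraMap ℂ _ p) x := fun p x hx =>
    (lr x).sub_mem (rs x hx) (reg_const p x)
  refine ⟨Z.X.basicOpen b, c, Z.X.basicOpen_le _, hV.basicOpen b, ?_,
    S8.coy h ?_ (mem_reg.1 (pl_reg f V b)) e, fun E hE a p n k => ?_⟩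
  · rw [Scheme.mem_basicOpen _ _ _ hzV]
    by_contra h5
    obtain ⟨p, hp, h6⟩ := hm.isPrime.prod_mem_iff.1 ((mem_primeIdealOf hV _ hzV _).2 h5)
    rw [← Ideal.Quotient.eq, ← hc, Ideal.Quotient.mk_algebraMap] at h6
    let _ := Ideal.Quotient.field (hV.primeIdealOf ⟨_, hzV⟩).asIdeal
    exact (fC.mem_toFinset.1 hp).1 ((algebraMap ℂ _).injective h6).symm
  · rw [eb]
    exact prod_mem fun p _ => sub_mem (IntermediateField.mem_adjoin_simple_self _ _)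
      (IntermediateField.algebraMap_mem _ _)
  · obtain ⟨a1, a2⟩ := (e _).1 a
    rw [eb, ← Finset.mul_prod_erase _ _ (fC.mem_toFinset.2 ⟨n, E, hE, k⟩)] at a2
    exact k.ne' ((pq_is E).dom.ord (P270L.S.un_of_mul (rp p _ a1)
      ((lr E.1).prod_mem fun q _ => rp q _ a1) a2))

end Vale.Agent.P283R.C3
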