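import Vale.Agent.P283R.C3.Top
import Vale.Agent.P283R.C3.Cnt59
import Vale.Agent.P283R.C3.Conv
import Vale.Agent.P283R.C3.Cz
import Vale.Agent.P283R.C3.Fac20
import Vale.Agent.P283R.C3.Gsp41
import Vale.Agent.P283R.C3.Hws
import Vale.Agent.P283R.C3.Inv
import Vale.Agent.P283R.C3.Kt
import Vale.Agent.P283R.C3.Lau70
import Vale.Agent.P283R.C3.Mis
import Vale.Agent.P283R.C3.Mob27
import Vale.Agent.P283R.C3.Shr8
import Vale.Agent.P283R.C3.Sums

/-!
# P283R, block C3: the closed rows
-/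

namespace Vale.Agent.P283R.C3

theorem mem_of_rows (a : ELLR) (b : FMR) : MEM :=
  top cz_row (a fac20 sums cz_row count) gsp
    (b cz_row kt rat inv (laur70 fac20 sums rat) mis) mob27 shr8 (hwr sums cz_row conv)

end Vale.Agent.P283R.C3
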