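import Vale.Agent.P283R.C3.St
import Vale.Agent.P283R.Cx.Sch

/-!
# P283R, block C3: the inequality
-/

set_option linter.all false

open Set CategoryTheory AlgebraicGeometry

noncomputable section

namespace Vale.Agent.P283R.C3

open Vale.Agent.P287D Vale.Agent.P283M Vale.Agent.P283R.To Vale.Agent.P297Z
open Vale.Agent.P289 (Pt DForm dimension)
open Vale.Agent.P283M.Stm Vale.Agent.P283M.Stm.Var Vale.Agent.P283M.Br Vale.Agent.P283R.Gl

namespace H12

theorem fs_ext {α β : Type} {g : α → β} (hg : Function.Injective g) (ξ : α → ℝ) (F : β → ℝ) :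
    ∑ᶠ b, Function.extend g ξ 0 b * F b = ∑ᶠ a, ξ a * F (g a) := by
  have e := finsum_mem_range (f := fun b => Function.extend g ξ 0 b * F b) hg
  simp only [hg.extend_apply] at e
  rw [← e, ← finsum_mem_univ]
  refine finsum_mem_inter_support_eq' _ _ _ fun b hb => ⟨fun _ => by_contra fun c => hb ?_,
    fun _ => trivial⟩
  show Function.extend g ξ 0 b * F b = 0
  rw [Function.extend_apply' _ _ _ c]
  simp

theorem pq_inj {X : Var} : Function.Injective (pq (X := X)) := fun E E' e =>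
  Cox.is_uniq (pq_is E).dom (e ▸ (pq_is E').dom)

end H12

open H12

/-- **HWR** -/
theorem hwr12 : HWR := by
  intro sums cz' conv X Z f ω B z ε q V s g y κ hK hω hB hf hF hn hz hV zV q1 F g0 hκ κ0 Q ξ ξ0 hξ
    hQ
  classical
  obtain ⟨u, bs⟩ := Sch.basV hf hz hV zV
  obtain ⟨Λ, Γ, Γ', a, on, lc, cf, nef, -⟩ := Cox.dataW hK hω hB hf hF bs
  obtain ⟨-, -, ⟨h, h0, ec⟩, -⟩ := cz' X.K s y F.rat
  obtain ⟨-, sm, -⟩ := sums X.K s y F.rat
  have q0 : (0 : ℝ) < q := by exact_mod_cast q1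
  have oo : ∀ E : X.PrimeDiv, E.1 ∈ f ⁻¹ᵁ V → Ov u (pq E) ∧ On 2 Λ (pq E) := fun E hE =>
    ⟨fun b hb => ((pq_is E).dom b (bs.reg b hb _ hE)).1, (on _ _ hE (pq_is E).dom).2 E.2⟩
  have ψE : ∀ E : X.PrimeDiv, E.1 ∈ f ⁻¹ᵁ V →
      (dv h + (q : ℝ)⁻¹ • dv g - Γ) (pq E) = -(q : ℝ)⁻¹ * κ E := fun E hE => by
    have k1 := cf _ E hE (pq_is E).dom
    have k2 : (κ E : ℝ) = q * cz s y (pq E) + q * (B E : ℝ) - (pq E).ord g := by
      exact_mod_cast congrArg (Rat.cast : ℚ → ℝ) (hκ E hE)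
    have k3 := ec (pq E)
    simp only [dsc, Pi.add_apply, Pi.sub_apply, Pi.smul_apply, smul_eq_mul, dv_apply] at k1 ⊢
    rw [k2]
    field_simp
    nlinarith
  obtain ⟨o, cv⟩ := conv 2 X.K u Λ Γ Γ'
    (fun R => ∃ E : X.PrimeDiv, E.1 ∈ f ⁻¹ᵁ V ∧ Tv s y (pq E) ∧ pq E = R)
    (Function.extend pq ξ 0) Q a (by
      rintro _ ⟨E, hE, -, rfl⟩
      exact oo E hE) (fun R => by
      by_cases c : ∃ E, pq E = R
      · obtain ⟨E, rfl⟩ := c
        rw [pq_inj.extend_apply]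
        exact ξ0 E
      · rw [Function.extend_apply' _ _ _ c]) (fun R r => by
      by_cases c : ∃ E, pq E = R
      · obtain ⟨E, rfl⟩ := c
        rw [pq_inj.extend_apply] at r
        exact oo E (hξ E r).1
      · rw [Function.extend_apply' _ _ _ c] at r
        exact (r rfl).elim) (fun c hc => by
      obtain ⟨G, G0, hG⟩ := F.eqn (fun E => if E.1 ∈ f ⁻¹ᵁ V ∧ Tv s y (pq E) then c (pq E) else 0)
        ((hc.preimage pq_inj.injOn).subset fun E hE => by
          by_cases k : E.1 ∈ f ⁻¹ᵁ V ∧ Tv s y (pq E)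
          · exact ⟨⟨E, k.1, k.2, rfl⟩, (if_pos k).symm.trans_ne hE⟩
          · exact (hE (if_neg k)).elim)
      refine ⟨G, G0, ?_⟩
      rintro _ ⟨E, hE, t, rfl⟩
      rw [hG E hE t, if_pos ⟨hE, t⟩]) (fun b b0 hb => by
      obtain ⟨G, hG, rfl⟩ := F.lau b b0 fun E hE t => hb _ ⟨E, hE, t, rfl⟩
      obtain ⟨m, m0, le⟩ := sm G Q b0
      rw [fs_ext pq_inj ξ fun R => (R.ord (tot G) : ℝ)]
      refine le_trans (finsum_le_finsum' ?_ ?_ fun E => ?_)
        ((hQ m _ (hG m) m0).trans (Int.cast_le.2 le))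
      · exact (F.fin (tot G)).subset fun E hE => ⟨(hξ E (left_ne_zero_of_mul hE)).1,
          Int.cast_ne_zero.1 (right_ne_zero_of_mul hE)⟩
      · exact (F.fin (G m)).subset fun E hE => ⟨(hξ E (left_ne_zero_of_mul hE)).1,
          Int.cast_ne_zero.1 (right_ne_zero_of_mul hE)⟩
      · by_cases c : ξ E = 0
        · simp [c]
        · exact mul_le_mul_of_nonneg_left
            (Int.cast_le.2 (F.inv E (hξ E c).1 (hξ E c).2 G hG m m0)) (ξ0 E))
  have k := cv (dv h + (q : ℝ)⁻¹ • dv g - Γ)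
    (sub_mem (add_mem (dv_mem_Car _) (Submodule.smul_mem _ _ (dv_mem_Car _))) a.dn.car) (-Γ')
    (neg_mem a.dn'.car) (fun δ e => by
      obtain ⟨γ, c, k⟩ := Br.klr a a.dn.neg (nef hn) e
      refine ⟨dv h + (q : ℝ)⁻¹ • dv g + γ,
        ((smp_dv h).add ((smp_dv _).smul (inv_pos.2 q0).le)).add c, fun P o => ?_⟩
      have := k P o
      simp only [Pi.add_apply, Pi.sub_apply, Pi.smul_apply, Pi.neg_apply, smul_eq_mul]
        at this ⊢
      linarith) (by
      rintro _ ⟨E, hE, t, rfl⟩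
      rw [ψE E hE, κ0 E hE t]
      simp)
  rw [fs_ext pq_inj, finsum_congr (g := fun E => -(q : ℝ)⁻¹ * (ξ E * κ E)) (fun E => by
    by_cases c : ξ E = 0
    · simp [c]
    · rw [ψE E (hξ E c).1]
      ring), ← mul_finsum] at k
  have l := lc Q o
  have e := ec Q
  simp only [Pi.add_apply, Pi.sub_apply, Pi.smul_apply, smul_eq_mul, dv_apply, dsc] at k l
  have k' := mul_le_mul_of_nonneg_left k q0.le
  have l' := mul_le_mul_of_nonneg_left l q0.le
  rw [mul_sub, mul_add, mul_inv_cancel_left₀ q0.ne', neg_mul, mul_neg,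
    mul_inv_cancel_left₀ q0.ne'] at k'
  rw [e] at l'
  nlinarith

end Vale.Agent.P283R.C3
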