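import Vale.Agent.P283R.C3.St

/-!
# P283R, block C3: the invariant prime divisors
-/

open Set CategoryTheory AlgebraicGeometry

noncomputable section

namespace Vale.Agent.P283R.C3

open Vale.Agent.P297Z Vale.Agent.P287D Vale.Agent.P283M Vale.Agent.P283R.To
open Vale.Agent.P283R.To.Mop (smul_mem)

namespace I8

variable {K : Type} [Field K] [Algebra ℂ K] {s : K} {y : Fin 2 → K}

/-- the Euler derivations -/
theorem exists_eul (h : D.Rat (fr s y)) : ∃ θ : Fin 2 → Derivation ℂ K K,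
    ∀ i u, ∀ a ∈ Hm s y u, θ i a = (u i : ℂ) • a := by
  obtain ⟨E, hE⟩ := Cb.fr_of h.ff h.ind
  have t0 : ∀ j, y j ≠ 0 := fun j => h.ind.ne_zero j.succ
  have k : ∀ i : Fin 2, ∀ φ ∈ IntermediateField.adjoin ℂ {s}, E i.succ φ = 0 := fun i φ hφ => by
    induction hφ using IntermediateField.adjoin_induction with
    | mem x hx => exact hx ▸ (hE.dual i.succ 0).trans (if_neg i.succ_ne_zero)
    | algebraMap c => exact (E _).map_algebraMap c
    | add a b _ _ ha hb => rw [map_add, ha, hb, add_zero]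
    | inv a _ ha => rw [Derivation.leibniz_inv, ha, smul_zero]
    | mul a b _ _ ha hb => rw [Derivation.leibniz, ha, hb, smul_zero, smul_zero, add_zero]
  have k' : ∀ i j : Fin 2, E i.succ (y j) = if i = j then 1 else 0 := fun i j => by
    simpa [fr] using hE.dual i.succ j.succ
  refine ⟨fun i => y i • E i.succ, ?_⟩
  rintro i m _ ⟨φ, hφ, rfl⟩
  rw [Derivation.smul_apply, Derivation.leibniz, k i φ hφ, smul_zero, add_zero, der_mon _ t0,
    Finset.sum_eq_single i (fun j _ h => by rw [k', if_neg h.symm]; simp) (by simp), k', if_pos rfl,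
    Algebra.smul_def (m i : ℂ), map_intCast]
  have := t0 i
  simp only [smul_eq_mul]
  field_simp

variable {θ : Fin 2 → Derivation ℂ K K}

theorem sep {v : (Fin 2 → ℤ) → K} (hv : ∀ i m, θ i (v m) = (m i : ℂ) • v m) (I : Submodule ℂ K)
    (hI : ∀ i, ∀ a ∈ I, θ i a ∈ I) (m : Fin 2 → ℤ) (s : Finset (Fin 2 → ℤ)) :
    ∀ (c₀ : ℂ) (c : (Fin 2 → ℤ) → ℂ), m ∉ s → c₀ ≠ 0 →
      c₀ • v m + ∑ l ∈ s, c l • v l ∈ I → v m ∈ I := by
  classical
  induction s using Finset.induction_on with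
  | empty => exact fun c₀ c _ h k => (I.smul_mem_iff h).1 (by simpa using k)
  | insert a s ha ih =>
    intro c₀ c hm h k
    rw [Finset.mem_insert, not_or] at hm
    obtain ⟨i, hi⟩ := Function.ne_iff.1 hm.1
    refine ih (c₀ * (m i - a i)) (fun l => c l * (l i - a i)) hm.2
      (mul_ne_zero h (sub_ne_zero.2 (by exact_mod_cast hi))) ?_
    convert I.sub_mem (hI i _ k) (I.smul_mem (a i : ℂ) k) using 1
    simp only [Finset.sum_insert ha, map_add, map_sum, Derivation.map_smul, hv, smul_add,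
      Finset.smul_sum, smul_smul, mul_sub, sub_smul, Finset.sum_sub_distrib, mul_comm (a i : ℂ)]
    abel

variable (hθ : ∀ i u, ∀ a ∈ Hm s y u, θ i a = (u i : ℂ) • a)

include hθ

/-- a stable space contains the homogeneous components of its elements -/
theorem sep' (I : Submodule ℂ K) (hI : ∀ i, ∀ a ∈ I, θ i a ∈ I) {G : (Fin 2 → ℤ) →₀ K}
    (hG : Hg s y G) (h : tot G ∈ I) (m : Fin 2 → ℤ) : G m ∈ I := by
  classical
  by_cases hm' : m ∈ G.support
  · refine sep (v := G) (fun i l => hθ i _ _ (hG l)) I hI m (G.support.erase m) 1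
      (fun _ => 1) (by simp) one_ne_zero ?_
    simp only [one_smul]
    rwa [Finset.add_sum_erase _ (fun l => G l) hm']
  · rw [Finsupp.notMem_support_iff.1 hm']
    exact zero_mem _

variable {A : Set K} {P : Pl K} (mem : ∀ a ∈ A, a ∈ P.ring)
  (frac : ∀ a ∈ P.ring, ∃ g ∈ A, ∃ h ∈ A, P.rd h ≠ 0 ∧ a = g / h)
  (grd : ∀ a ∈ A, a ∈ Submodule.span ℂ {b ∈ A | ∃ u, b ∈ Hm s y u})

include mem frac grd

theorem reg (i : Fin 2) {a : K} (ha : a ∈ P.ring) : θ i a ∈ P.ring := by
  have z : ∀ g ∈ A, θ i g ∈ P.ring := fun g hg => by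
    have := grd g hg
    clear hg
    induction this using Submodule.span_induction with
    | mem b hb =>
      obtain ⟨c, u, e⟩ := hb
      exact hθ i u b e ▸ smul_mem P _ (mem b c)
    | zero => rw [map_zero]; exact zero_mem _
    | add a b _ _ ha hb => rw [map_add]; exact add_mem ha hb
    | smul c a _ ha => rw [Derivation.map_smul]; exact smul_mem P c ha
  obtain ⟨g, hg, h, hh, h0, rfl⟩ := frac a ha
  have k : ¬ Cb.Mx P h := fun k => h0 ((Cb.rd_eq_zero (mem h hh)).2 k)
  rw [Cb.mx_iff, not_or, not_lt] at k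
  have h3 : h⁻¹ ∈ P.ring :=
    (Pl.ord_nonneg_iff _ (inv_ne_zero k.1)).1 (by rw [Pl.ord_inv]; linarith [k.2])
  have e : θ i (g / h) = θ i g * h⁻¹ - g * θ i h * h⁻¹ * h⁻¹ := by
    rw [Derivation.leibniz_div]
    have := k.1
    simp only [smul_eq_mul]
    field_simp
  rw [e]
  exact sub_mem (mul_mem (z g hg) h3) (mul_mem (mul_mem (mul_mem (mem g hg) (z h hh)) h3) h3)

theorem lg {z : K} {e : Fin 2 → ℤ} (hz : z ∈ Hm s y e) (z0 : z ≠ 0) (hj : P.ord z ≠ 0) (i : Fin 2)
    {G : K} (hG : G ≠ 0) : θ i G / G ∈ P.ring := by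
  have : CharZero K := charZero_of_injective_algebraMap (algebraMap ℂ K).injective
  have u0 : G ^ P.ord z / z ^ P.ord G ≠ 0 := div_ne_zero (zpow_ne_zero _ hG) (zpow_ne_zero _ z0)
  have u1 : P.ord (G ^ P.ord z / z ^ P.ord G) = 0 := by
    rw [Pl.ord_div _ (zpow_ne_zero _ hG) (zpow_ne_zero _ z0), Pl.ord_zpow, Pl.ord_zpow]
    ring
  obtain ⟨u2, u3⟩ := (Pl.ord_eq_zero_iff _ u0).1 u1
  have k := mul_mem (reg hθ mem frac grd i u2) u3
  have e : θ i G / G = ((P.ord z : ℂ)⁻¹) •
      (θ i (G ^ P.ord z / z ^ P.ord G) * (G ^ P.ord z / z ^ P.ord G)⁻¹ +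
        (P.ord G : ℂ) • (θ i z / z)) := by
    rw [Derivation.leibniz_div, θ i |>.leibniz_zpow, θ i |>.leibniz_zpow, zpow_sub_one₀ hG,
      zpow_sub_one₀ z0]
    have a1 := zpow_ne_zero (P.ord z) hG
    have a2 := zpow_ne_zero (P.ord G) z0
    have a4 : (P.ord z : K) ≠ 0 := by exact_mod_cast hj
    simp only [Algebra.smul_def, map_inv₀, map_intCast, eq_intCast,
      Algebra.algebraMap_self, RingHom.id_apply]
    field_simp
    ring
  rw [e]
  refine smul_mem P _ (add_mem k (smul_mem P _ ?_))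
  rw [hθ i _ z hz, smul_div_assoc, div_self z0]
  exact smul_mem P _ (one_mem _)

theorem gau (n : ¬ Tv s y P) {G : (Fin 2 → ℤ) →₀ K} (hG : Hg s y G) {m : Fin 2 → ℤ}
    (m0 : G m ≠ 0) : P.ord (tot G) ≤ P.ord (G m) := by
  simp only [Tv, not_forall] at n
  obtain ⟨l, z, hz, z0, hj⟩ := n
  have G0 : tot G ≠ 0 := fun e => m0 ((Submodule.mem_bot ℂ).1 (sep' hθ ⊥
    (fun i a ha => by simp [(Submodule.mem_bot ℂ).1 ha]) hG ((Submodule.mem_bot ℂ).2 e) m))
  let I : Submodule ℂ K :=
    { carrier := {a | a / tot G ∈ P.ring}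
      add_mem' := fun {a b} ha hb => by
        change (a + b) / tot G ∈ P.ring
        rw [add_div]
        exact add_mem ha hb
      zero_mem' := by
        change (0 : K) / tot G ∈ P.ring
        rw [zero_div]
        exact zero_mem _
      smul_mem' := fun c a ha => by
        change (c • a) / tot G ∈ P.ring
        rw [smul_div_assoc]
        exact smul_mem P c ha }
  have k : G m / tot G ∈ P.ring := by
    refine sep' hθ I (fun i a ha => ?_) hG ?_ m
    · change θ i a / tot G ∈ P.ring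
      have e : θ i a / tot G = θ i (a / tot G) + a / tot G * (θ i (tot G) / tot G) := by
        rw [Derivation.leibniz_div]
        simp only [smul_eq_mul]
        field_simp
        ring
      rw [e]
      exact add_mem (reg hθ mem frac grd i ha) (mul_mem ha (lg hθ mem frac grd hz z0 hj i G0))
    · change tot G / tot G ∈ P.ring
      rw [div_self G0]
      exact one_mem _
  have := Pl.ord_nonneg_of_mem _ k
  rw [Pl.ord_div _ m0 G0] at this
  linarith

end I8

open Vale.Agent.P283M.Stm Vale.Agent.P283M.Stm.Var Vale.Agent.P283M.Br Vale.Agent.P283R.Gl in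
/-- **INVR** -/
theorem invr8 : INVR := fun _ _ rat X W s y x h hx E hE n G hG u u0 => by
  obtain ⟨θ, hθ⟩ := I8.exists_eul (rat X W s y x h hx).1
  obtain ⟨U, -, hU, xU, g⟩ := h.2 _ hE
  have e := pq_is E
  refine I8.gau hθ (A := {b | ∀ x' ∈ U, RegAt b x'}) (fun a ha => (e _).2 (ha _ xU))
    (fun a ha => ?_) g n hG u0
  obtain ⟨b, h1, h2, h3⟩ := Am.frac (f := a) hU xU ((e a).1 ha)
  exact ⟨_, Am.mem_reg.1 h3, b, Am.mem_reg.1 h1, e.dom.rd h2,
    by rw [mul_div_cancel_left₀ a h2.1]⟩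

end Vale.Agent.P283R.C3
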