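import Mathlib

/-!
Block C3, the pure matching step: a bound on the number of disjoint bad pairs gives a small kept
set, and outside it all lifted edge vectors are integer multiples of one vector.
-/

namespace P283R.C3.L16

open Finset

/-- `n` pairwise disjoint pairs, each satisfying `Bad`. -/
def Pairs {α : Type*} (Bad : α → α → Prop) (n : ℕ) : Prop :=
  ∃ a b : Fin n → α, Function.Injective a ∧ Function.Injective b ∧ (∀ i j, a i ≠ b j) ∧
    ∀ i, Bad (a i) (b i)

theorem kept_aux {α : Type*} (c : ℕ) : ∀ (Bad : α → α → Prop), ¬ Pairs Bad (c + 1) →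
    ∃ K : Finset α, K.card ≤ 2 * c ∧ ∀ r ∉ K, ∀ r' ∉ K, r ≠ r' → ¬ Bad r r' := by
  classical
  induction c with
  | zero =>
    intro Bad h
    refine ⟨∅, by simp, fun r _ r' _ hne hb => h ⟨fun _ => r, fun _ => r', ?_, ?_, ?_, ?_⟩⟩
    · exact fun i j _ => Subsingleton.elim (α := Fin 1) i j
    · exact fun i j _ => Subsingleton.elim (α := Fin 1) i j
    · exact fun _ _ => hne
    · exact fun _ => hb
  | succ c ih =>
    intro Bad h
    by_cases h0 : ∃ r r', r ≠ r' ∧ Bad r r'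
    · obtain ⟨r, r', hne, hb⟩ := h0
      obtain ⟨K, hK, hK'⟩ := ih (fun x y => Bad x y ∧ x ≠ r ∧ x ≠ r' ∧ y ≠ r ∧ y ≠ r') (by
        rintro ⟨a, b, ha, hb', hab, hB⟩
        refine h ⟨Fin.cons r a, Fin.cons r' b, ?_, ?_, ?_, ?_⟩
        · rw [Fin.cons_injective_iff]
          exact ⟨by rintro ⟨i, hi⟩; exact (hB i).2.1 hi, ha⟩
        · rw [Fin.cons_injective_iff]
          exact ⟨by rintro ⟨i, hi⟩; exact (hB i).2.2.2.2 hi, hb'⟩
        · intro i j
          refine Fin.cases ?_ (fun i => ?_) i <;> refine Fin.cases ?_ (fun j => ?_) j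
          · simpa using hne
          · simpa using (hB j).2.2.2.1.symm
          · simpa using (hB i).2.2.1
          · simpa using hab i j
        · intro i
          refine Fin.cases ?_ (fun i => ?_) i
          · simpa using hb
          · simpa using (hB i).1)
      refine ⟨insert r (insert r' K), ?_, fun x hx y hy hxy hB => ?_⟩
      · have h1 := card_insert_le r (insert r' K)
        have h2 := card_insert_le r' K
        omega
      · simp only [mem_insert, not_or] at hx hy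
        exact hK' x hx.2.2 y hy.2.2 hxy ⟨hB, hx.1, hx.2.1, hy.1, hy.2.1⟩
    · exact ⟨∅, by simp, fun r _ r' _ hne hb => h0 ⟨r, r', hne, hb⟩⟩

/-- Vectors parallel to a fixed non-zero integer vector are integer multiples of one vector. -/
theorem prim {ι : Type*} [Fintype ι] (e₀ : ι → ℤ) (h₀ : e₀ ≠ 0) :
    ∃ T : ι → ℤ, T ≠ 0 ∧ (∃ c : ι → ℤ, ∑ j, T j * c j = 1) ∧
      ∀ e : ι → ℤ, (∀ i j, e i * e₀ j = e j * e₀ i) → ∃ τ : ℤ, e = τ • T := by
  classical
  obtain ⟨i₀, hi₀⟩ := Function.ne_iff.1 h₀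
  obtain ⟨T, hT, hg⟩ := Finset.extract_gcd e₀ (s := univ) ⟨i₀, mem_univ _⟩
  obtain ⟨c, hc⟩ := Finset.gcd_eq_sum_mul univ T
  rw [hg] at hc
  have hg0 : univ.gcd e₀ ≠ 0 := fun h => hi₀ (by rw [hT i₀ (mem_univ _), h]; simp)
  refine ⟨T, fun h => ?_, ⟨c, hc.symm⟩, fun e he => ⟨∑ j, e j * c j, funext fun i => ?_⟩⟩
  · rw [h] at hc; simp at hc
  · have h1 : ∀ j, e i * T j = e j * T i := fun j => mul_left_cancel₀ hg0 (by
      have := he i j
      rw [hT i (mem_univ _), hT j (mem_univ _)] at this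
      linear_combination this)
    simp only [Pi.smul_apply, smul_eq_mul, sum_mul]
    calc e i = e i * ∑ j, T j * c j := by rw [← hc, mul_one]
      _ = ∑ j, e j * c j * T i := by
        rw [mul_sum]
        exact sum_congr rfl fun j _ => by rw [← mul_assoc, h1 j]; ring

/-- Matching step. `E r` is the set of lifted edge vectors at the point `r`; a pair of points is
bad if two of their lifted edge vectors are not parallel. If there are no `c + 1` disjoint bad
pairs, then outside `2 c + 1` points all lifted edge vectors are multiples of one vector. -/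
theorem one_dir {α ι : Type*} [Fintype ι] (E : α → Set (ι → ℤ)) (c : ℕ)
    (h : ¬ Pairs (fun r r' => ∃ e ∈ E r, ∃ e' ∈ E r', ∃ i j, e i * e' j ≠ e j * e' i) (c + 1)) :
    ∃ K : Finset α, K.card ≤ 2 * c + 1 ∧ ∃ T : ι → ℤ, ∀ r ∉ K, ∀ e ∈ E r, ∃ τ : ℤ, e = τ • T := by
  classical
  obtain ⟨K, hK, hK'⟩ := kept_aux c _ h
  by_cases h0 : ∃ r ∉ K, ∃ e ∈ E r, e ≠ 0
  · obtain ⟨r₀, hr₀, e₀, he₀, hne⟩ := h0
    obtain ⟨T, -, -, hT⟩ := prim e₀ hne
    refine ⟨insert r₀ K, (card_insert_le _ _).trans (by omega), T, fun r hr e he => ?_⟩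
    simp only [mem_insert, not_or] at hr
    refine hT e fun i j => ?_
    by_contra hc
    exact hK' r hr.2 r₀ hr₀ hr.1 ⟨e, he, e₀, he₀, i, j, hc⟩
  · refine ⟨K, by omega, 0, fun r hr e he => ⟨0, ?_⟩⟩
    by_contra hc
    exact h0 ⟨r, hr, e, he, by simpa using hc⟩

/-- Disjoint pairs for a disjunction: one of the two relations has many disjoint pairs. -/
theorem Pairs.or {α : Type*} {A B : α → α → Prop} {a b : ℕ}
    (h : Pairs (fun r r' => A r r' ∨ B r r') (a + b + 1)) :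
    Pairs A (a + 1) ∨ Pairs B (b + 1) := by
  classical
  obtain ⟨x, y, hx, hy, hxy, hB⟩ := h
  have key : ∀ (C : α → α → Prop) (n : ℕ) (s : Finset (Fin (a + b + 1))), n ≤ s.card →
      (∀ i ∈ s, C (x i) (y i)) → Pairs C n := by
    intro C n s hn hs
    obtain ⟨t, hts, ht⟩ := exists_subset_card_eq hn
    let φ : Fin n → Fin (a + b + 1) := fun i => (t.orderEmbOfFin ht i)
    have hφ : Function.Injective φ := (t.orderEmbOfFin ht).injective
    exact ⟨x ∘ φ, y ∘ φ, hx.comp hφ, hy.comp hφ, fun i j => hxy _ _,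
      fun i => hs _ (hts (t.orderEmbOfFin_mem ht i))⟩
  have hc := card_filter_add_card_filter_not (s := (univ : Finset (Fin (a + b + 1))))
    (fun i => A (x i) (y i))
  rw [card_univ, Fintype.card_fin] at hc
  by_cases h1 : a + 1 ≤ (univ.filter fun i => A (x i) (y i)).card
  · exact Or.inl (key A _ _ h1 fun i hi => (mem_filter.1 hi).2)
  · exact Or.inr (key B _ (univ.filter fun i => ¬ A (x i) (y i)) (by omega)
      fun i hi => (hB i).resolve_left (mem_filter.1 hi).2)

theorem Pairs.mono {α : Type*} {A B : α → α → Prop} {n : ℕ} (h : Pairs A n)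
    (hAB : ∀ r r', A r r' → B r r') : Pairs B n := by
  obtain ⟨x, y, hx, hy, hxy, hB⟩ := h
  exact ⟨x, y, hx, hy, hxy, fun i => hAB _ _ (hB i)⟩

/-- Steps (2), (3), (4) put together: few disjoint non-parallel pairs and few disjoint parallel
pairs of different slopes give a kept set and one lifted direction. -/
theorem matching {α : Type*} (E : α → Set ((Fin 2 → ℤ) × ℤ)) (a b : ℕ)
    (h2 : ¬ Pairs (fun r r' => ∃ e ∈ E r, ∃ e' ∈ E r', e.1 0 * e'.1 1 ≠ e.1 1 * e'.1 0) (a + 1))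
    (h3 : ¬ Pairs (fun r r' => ∃ e ∈ E r, ∃ e' ∈ E r', e.1 0 * e'.1 1 = e.1 1 * e'.1 0 ∧
      ∃ i, e.1 i * e'.2 ≠ e.2 * e'.1 i) (b + 1)) :
    ∃ K : Finset α, K.card ≤ 2 * (a + b) + 1 ∧ ∃ (T : Fin 2 → ℤ) (k₀ : ℤ),
      ∀ r ∉ K, ∀ e ∈ E r, ∃ τ : ℤ, e.1 = τ • T ∧ e.2 = τ * k₀ := by
  let φ : (Fin 2 → ℤ) × ℤ → Fin 3 → ℤ := fun e => ![e.1 0, e.1 1, e.2]
  obtain ⟨K, hK, T, hT⟩ := one_dir (fun r => φ '' E r) (a + b) (fun h => by
    refine (Pairs.or (h.mono ?_)).elim h2 h3
    rintro r r' ⟨_, ⟨e, he, rfl⟩, _, ⟨e', he', rfl⟩, i, j, hij⟩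
    by_cases hp : e.1 0 * e'.1 1 = e.1 1 * e'.1 0
    · refine Or.inr ⟨e, he, e', he', hp, ?_⟩
      by_contra hc
      simp only [not_exists, not_not] at hc
      have h0 := hc 0
      have h1 := hc 1
      apply hij
      fin_cases i <;> fin_cases j <;> simp [φ, hp, h0, h1]
    · exact Or.inl ⟨e, he, e', he', hp⟩)
  refine ⟨K, hK, ![T 0, T 1], T 2, fun r hr e he => ?_⟩
  obtain ⟨τ, hτ⟩ := hT r hr (φ e) ⟨e, he, rfl⟩
  refine ⟨τ, funext fun i => ?_, by simpa [φ] using congrFun hτ 2⟩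
  fin_cases i
  · simpa [φ] using congrFun hτ 0
  · simpa [φ] using congrFun hτ 1

end P283R.C3.L16
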