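import Mathlib.Data.ZMod.Basic
import Mathlib.Data.Rat.Floor
import Mathlib.Algebra.BigOperators.Fin
import Mathlib.Algebra.BigOperators.Ring.Finset
import Mathlib.Data.Set.Card
import Mathlib.Data.Fintype.Pi
import Mathlib.Tactic.FieldSimp
import Mathlib.Tactic.Ring
import Mathlib.Tactic.Linarith
import Mathlib.Tactic.LinearCombination
import Mathlib.Tactic.FinCases

/-!
# P283R, block C3: a sum of many lattice parallelograms contains a nonzero point of `L ℤ²`
-/

open Finset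

namespace Vale.Agent.P283R.C3

namespace P10

variable {ι : Type} {e e' : ι → Fin 2 → ℤ}

/-- `y` lies in the sum of the parallelograms -/
def Rch (e e' : ι → Fin 2 → ℤ) (J : Finset ι) (y : Fin 2 → ℚ) : Prop :=
  ∃ a b : ι → ℚ, (∀ i, 0 ≤ a i ∧ a i ≤ 1 ∧ 0 ≤ b i ∧ b i ≤ 1) ∧
    ∀ k, ∑ i ∈ J, (a i * e i k + b i * e' i k) = y k

theorem Rch.ins [DecidableEq ι] {J : Finset ι} {y : Fin 2 → ℚ} (h : Rch e e' J y) {j : ι}
    (hj : j ∉ J) {α β : ℚ} (a0 : 0 ≤ α) (a1 : α ≤ 1) (b0 : 0 ≤ β) (b1 : β ≤ 1) :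
    Rch e e' (insert j J) fun k => y k + (α * e j k + β * e' j k) := by
  obtain ⟨a, b, h1, h2⟩ := h
  refine ⟨Function.update a j α, Function.update b j β, fun i => ?_, fun k => ?_⟩
  · by_cases c : i = j
    · subst c
      simp [a0, a1, b0, b1]
    · simpa [Function.update_of_ne c] using h1 i
  · show _ = y k + _
    rw [sum_insert hj, Function.update_self, Function.update_self, ← h2 k, add_comm]
    congr 1
    refine sum_congr rfl fun i hi => ?_
    have c : i ≠ j := fun c => hj (c ▸ hi)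
    rw [Function.update_of_ne c, Function.update_of_ne c]

/-- a parallelogram is a fundamental domain -/
theorem fund {v w : Fin 2 → ℤ} (h : v 0 * w 1 ≠ v 1 * w 0) (x : Fin 2 → ℚ) :
    ∃ (α β : ℚ) (p q : ℤ), 0 ≤ α ∧ α ≤ 1 ∧ 0 ≤ β ∧ β ≤ 1 ∧
      ∀ k, x k = α * v k + β * w k + (p * v k + q * w k : ℤ) := by
  have d : (v 0 * w 1 - v 1 * w 0 : ℚ) ≠ 0 := by exact_mod_cast sub_ne_zero.2 h
  set s : ℚ := (x 0 * w 1 - x 1 * w 0) / (v 0 * w 1 - v 1 * w 0) with hs
  set t : ℚ := (v 0 * x 1 - v 1 * x 0) / (v 0 * w 1 - v 1 * w 0) with ht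
  refine ⟨Int.fract s, Int.fract t, ⌊s⌋, ⌊t⌋, Int.fract_nonneg _, (Int.fract_lt_one _).le,
    Int.fract_nonneg _, (Int.fract_lt_one _).le, fun k => ?_⟩
  have e : x k = s * v k + t * w k := by
    rw [hs, ht]
    fin_cases k
    · show x 0 = _ * (v 0 : ℚ) + _ * (w 0 : ℚ)
      rw [div_mul_eq_mul_div, div_mul_eq_mul_div, ← add_div, eq_div_iff d]
      ring
    · show x 1 = _ * (v 1 : ℚ) + _ * (w 1 : ℚ)
      rw [div_mul_eq_mul_div, div_mul_eq_mul_div, ← add_div, eq_div_iff d]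
      ring
  rw [e, Int.fract, Int.fract]
  push_cast
  ring

/-- the residues of the lattice points -/
def Res (N : ℕ) (e e' : ι → Fin 2 → ℤ) (J : Finset ι) : Set (Fin 2 → ZMod N) :=
  {g | ∃ m : Fin 2 → ℤ, Rch e e' J (fun k => m k) ∧ g = fun k => (m k : ZMod N)}

theorem stab {N : ℕ} [NeZero N] {A : Set (Fin 2 → ZMod N)} {t : Fin 2 → ℤ}
    (h : ∀ g ∈ A, (fun k => g k + t k) ∈ A) (p : ℤ) : ∀ g ∈ A, (fun k => g k + p * t k) ∈ A := by
  have a : ∀ n : ℕ, ∀ g ∈ A, (fun k => g k + n * t k) ∈ A := fun n => by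
    induction n with
    | zero => exact fun g hg => by simpa using hg
    | succ n ih =>
      intro g hg
      have := h _ (ih g hg)
      simpa [add_mul, add_assoc] using this
  intro g hg
  have := a (p : ZMod N).val g hg
  rwa [ZMod.natCast_zmod_val] at this

theorem grow [DecidableEq ι] {N : ℕ} [NeZero N] (J : Finset ι)
    (h : ∀ i ∈ J, e i 0 * e' i 1 ≠ e i 1 * e' i 0) :
    Res N e e' J = Set.univ ∨ J.card + 1 ≤ (Res N e e' J).ncard := by
  induction J using Finset.induction_on with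
  | empty =>
    exact .inr ((Set.ncard_pos (Set.toFinite _)).2
      ⟨_, 0, ⟨0, 0, fun _ => by simp, fun _ => by simp⟩, rfl⟩)
  | insert j J hj ih =>
    have st : ∀ g ∈ Res N e e' J, ∀ (α β : ℚ) (t : Fin 2 → ℤ), 0 ≤ α → α ≤ 1 → 0 ≤ β → β ≤ 1 →
        (∀ k, (t k : ℚ) = α * e j k + β * e' j k) →
        (fun k => g k + t k) ∈ Res N e e' (insert j J) := by
      rintro _ ⟨m, hm, rfl⟩ α β t a0 a1 b0 b1 ht
      refine ⟨m + t, ?_, by ext k; simp⟩
      have := hm.ins hj a0 a1 b0 b1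
      simpa only [Pi.add_apply, Int.cast_add, ht] using this
    have sub : Res N e e' J ⊆ Res N e e' (insert j J) := fun g hg => by
      simpa using st g hg 0 0 0 le_rfl zero_le_one le_rfl zero_le_one (by simp)
    rcases ih fun i hi => h i (mem_insert_of_mem hi) with c | c
    · exact .inl (Set.eq_univ_of_univ_subset (c ▸ sub))
    by_cases q : Res N e e' (insert j J) ⊆ Res N e e' J
    · refine .inl (Set.eq_univ_of_forall fun g => sub ?_)
      obtain ⟨g₀, h₀⟩ : (Res N e e' J).Nonempty :=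
        (Set.ncard_pos (Set.toFinite _)).1 (by omega)
      obtain ⟨α, β, p, r, a0, a1, b0, b1, k1⟩ := fund (h j (mem_insert_self _ _))
        fun k => (((g k - g₀ k).val : ℤ) : ℚ)
      have s1 := q (st g₀ h₀ α β (fun k => (g k - g₀ k).val - (p * e j k + r * e' j k)) a0 a1 b0 b1
        fun k => by rw [Int.cast_sub, k1 k]; ring)
      have s2 := stab (fun g hg => q (st g hg 1 0 (e j) zero_le_one le_rfl le_rfl zero_le_one
        (by simp))) p _ s1
      have s3 := stab (fun g hg => q (st g hg 0 1 (e' j) le_rfl zero_le_one zero_le_one le_rfl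
        (by simp))) r _ s2
      have : g = fun k => g₀ k + (((g k - g₀ k).val - (p * e j k + r * e' j k) : ℤ) : ZMod N) +
          p * e j k + r * e' j k := by
        ext k
        push_cast
        rw [ZMod.natCast_zmod_val]
        ring
      rw [this]
      exact s3
    · have := Set.ncard_lt_ncard ⟨sub, q⟩ (Set.toFinite _)
      rw [card_insert_of_notMem hj]
      exact .inr (by omega)

end P10

open P10 in
/-- **the sum of many lattice parallelograms contains a nonzero point of `L ℤ²`** -/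
theorem par {ι : Type} {L : ℕ} (hL : 0 < L) (I : Finset ι) (hI : 4 * L ^ 2 + 1 ≤ I.card)
    (e e' : ι → Fin 2 → ℤ) (h : ∀ i ∈ I, e i 0 * e' i 1 ≠ e i 1 * e' i 0) (x : Fin 2 → ℚ) :
    ∃ a b : ι → ℚ, (∀ i, 0 ≤ a i ∧ a i ≤ 1 ∧ 0 ≤ b i ∧ b i ≤ 1) ∧ ∃ n : Fin 2 → ℤ, n ≠ 0 ∧
      ∀ k, x k + ∑ i ∈ I, (a i * e i k + b i * e' i k) = L * n k := by
  classical
  obtain ⟨j, hj⟩ : I.Nonempty := card_pos.1 (by omega)
  have : NeZero (2 * L) := ⟨by omega⟩
  have u : Res (2 * L) e e' (I.erase j) = Set.univ := by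
    rcases grow (N := 2 * L) (I.erase j) fun i hi => h i (mem_of_mem_erase hi) with c | c
    · exact c
    · have := Set.ncard_le_card (Res (2 * L) e e' (I.erase j))
      rw [Nat.card_eq_fintype_card, Fintype.card_fun, ZMod.card, Fintype.card_fin, mul_pow] at this
      rw [card_erase_of_mem hj] at c
      omega
  obtain ⟨α, β, p, r, a0, a1, b0, b1, k1⟩ := fund (h j hj) (-x)
  obtain ⟨m, hm, e1⟩ : (fun k => ((L + (p * e j k + r * e' j k) : ℤ) : ZMod (2 * L))) ∈
    Res (2 * L) e e' (I.erase j) := u ▸ trivial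
  obtain ⟨a, b, h1, h2⟩ := hm.ins (notMem_erase j I) a0 a1 b0 b1
  rw [insert_erase hj] at h2
  have dv : ∀ k, ∃ c : ℤ, m k - (L + (p * e j k + r * e' j k)) = (2 * L : ℕ) * c := fun k =>
    (ZMod.intCast_eq_intCast_iff_dvd_sub _ _ _).1 (congrFun e1 k)
  choose c hc using dv
  refine ⟨a, b, h1, fun k => 2 * c k + 1, fun z => ?_, fun k => ?_⟩
  · have := congrFun z 0
    simp only [Pi.zero_apply] at this
    omega
  · have a1 := k1 k
    have a2 : ((m k - (L + (p * e j k + r * e' j k)) : ℤ) : ℚ) = (((2 * L : ℕ) * c k : ℤ) : ℚ) :=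
      congrArg _ (hc k)
    rw [h2 k]
    rw [Pi.neg_apply] at a1
    push_cast at a1 a2 ⊢
    linear_combination a2 - a1

end Vale.Agent.P283R.C3
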