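import Vale.Agent.P283R.C3.St

/-!
# P283R, block C3: the row `SHR`
-/

open Set CategoryTheory AlgebraicGeometry
open Vale.Agent.P289 Vale.Agent.P289.H219 Vale.Agent.P270L Vale.Agent.P283M.Am

noncomputable section

namespace Vale.Agent.P283R.C3

open Vale.Agent.P287D Vale.Agent.P283M Vale.Agent.P283M.Br Vale.Agent.P283M.Stm.Var
open Vale.Agent.P283R.Gl

/-- at most one constant is a value of a section at a point -/
theorem one_val53 {Z : Scheme.{0}} {V : Z.Opens} (c : ℂ →+* Γ(Z, V)) (t : Γ(Z, V)) (w : Z) :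
    ∃ p₀, w ∈ V → ∀ p ≠ p₀, w ∈ Z.basicOpen (t - c p) := by
  by_cases h : ∃ p₀, w ∉ Z.basicOpen (t - c p₀)
  · obtain ⟨p₀, h⟩ := h
    refine ⟨p₀, fun hw p hp => ?_⟩
    rw [Scheme.mem_basicOpen _ _ _ hw] at h ⊢
    have u := (((sub_ne_zero.2 hp.symm).isUnit.map c).map (Z.presheaf.germ V w hw).hom)
    have e : c (p₀ - p) = (t - c p) + -(t - c p₀) := by rw [map_sub]; ring
    rw [e, map_add, map_neg] at u
    exact (IsLocalRing.isUnit_or_isUnit_of_isUnit_add u).resolve_right fun a => h ((IsUnit.neg_iff _).1 a)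
  · exact ⟨0, fun _ p _ => not_not.1 fun a => h ⟨p, a⟩⟩

/-- **SHR** -/
theorem shr53 : SHR := by
  classical
  intro X Z f V z s y T hf _ hV hzV h hs hT
  obtain ⟨h1, _, h3, h4⟩ := hf
  obtain ⟨x₀, rfl⟩ := h3.surj z
  have : Nonempty ↑(f ⁻¹ᵁ V) := ⟨⟨x₀, hzV⟩⟩
  have := h4 V
  have ec : ∀ c, pl f V (cst Z.str V c) = algebraMap ℂ X.K c := fun c => by
    change X.X.germToFunctionField _ ((f.app V).hom (cst Z.str V c)) = constants X.str c
    rw [app_cst, germ_cst, h1]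
  obtain ⟨t, rfl⟩ := exists_pl f V (g := s) (mem_reg.2 fun x hx => har X _ x fun E hE => by
    rw [pq_ord]
    exact hs E (hE.mem_open (f ⁻¹ᵁ V).isOpen hx))
  choose π hπ using one_val53 (cst Z.str V) t
  let B : Finset ℂ := (hT.toFinset.image fun E => π (f E.1)).erase (π (f x₀))
  let l : Γ(Z.X, V) := ∏ p ∈ B, (t - cst Z.str V p)
  have hl : ∀ w ∈ V, w ∈ Z.X.basicOpen l ↔ ∀ p ∈ B, w ∈ Z.X.basicOpen (t - cst Z.str V p) :=
    fun w hw => by
      simp only [Scheme.mem_basicOpen _ _ _ hw, l, map_prod, IsUnit.prod_iff]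
  have hz := (hl _ hzV).2 fun p hp => hπ _ hzV p (Finset.ne_of_mem_erase hp)
  refine ⟨Z.X.basicOpen l, π (f x₀), Z.X.basicOpen_le l, hV.basicOpen l, hz,
    ⟨h.1, fun x hx => ?_⟩, fun E hE hE' p hp a => ?_⟩
  · obtain ⟨U, UV, hU, xU, hg⟩ := h.2 x (Z.X.basicOpen_le l hx)
    have : Nonempty U := ⟨⟨x, xU⟩⟩
    have rl : ∀ x' ∈ U, RegAt (pl f V l) x' := fun x' a => mem_reg.1 (pl_reg f V l) x' (UV a)
    obtain ⟨a, ha⟩ := Am.reg_iff.1 (mem_reg.2 rl)
    have un : ∀ x' ∈ U, x' ∈ X.X.basicOpen a ↔ S.Un x' (pl f V l) := fun x' b => by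
      rw [← un_secK a b, ha]
    have l0 : pl f V l ≠ 0 := ((un_pl (Z.X.basicOpen_le l hx) l).2 hx).1
    have ls : pl f V l ∈ IntermediateField.adjoin ℂ {pl f V t} := by
      rw [map_prod]
      refine prod_mem fun p _ => ?_
      rw [map_sub, ec]
      exact sub_mem (IntermediateField.mem_adjoin_simple_self _ _) (algebraMap_mem _ p)
    refine ⟨X.X.basicOpen a, fun x' b => (un_pl (f := f) (V := V) (x := x')
      (UV (X.X.basicOpen_le a b)) l).1 ((un x' (X.X.basicOpen_le a b)).1 b), hU.basicOpen a,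
      (un x xU).2 ((un_pl (f := f) (V := V) (x := x) (UV xU) l).2 hx), fun g k => ?_⟩
    obtain ⟨N, hN⟩ := ext_sec (W := U) (D := 0) (E := 0) (g := pl f V l) (f := g) fs_zero l0
      (fun p hp => (sc_zero (nrm X)).2 (rl p hp))
      fun p hp q => (sc_zero (nrm X)).2 (k p ((un p hp).2 ((gn_zero (nrm X)).1 q)))
    have m := hg _ fun p hp => (sc_zero (nrm X)).1 (by simpa using hN N le_rfl p hp)
    have le : Submodule.span ℂ {b ∈ {b | ∀ x' ∈ U, RegAt b x'} | ∃ u, b ∈ Hm (pl f V t) y u} ≤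
        (Submodule.span ℂ {b ∈ {b | ∀ x' ∈ X.X.basicOpen a, RegAt b x'} |
          ∃ u, b ∈ Hm (pl f V t) y u}).comap (LinearMap.mulRight ℂ (pl f V l ^ N)⁻¹) := by
      refine Submodule.span_le.2 ?_
      rintro _ ⟨b1, u, φ, b2, rfl⟩
      exact Submodule.subset_span ⟨fun x' c => reg_mul (b1 x' (X.X.basicOpen_le a c))
        (((un x' (X.X.basicOpen_le a c)).1 c).pow N).2.2, u, φ * (pl f V l ^ N)⁻¹,
        mul_mem b2 (inv_mem (pow_mem ls N)), mul_right_comm _ _ _⟩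
    have r := le m
    rwa [Submodule.mem_comap, LinearMap.mulRight_apply,
      mul_inv_cancel_right₀ (pow_ne_zero N l0)] at r
  · have v : f E.1 ∈ V := Z.X.basicOpen_le l hE'
    have u : f E.1 ∈ Z.X.basicOpen (t - cst Z.str V p) := by
      by_cases c : p = π (f E.1)
      · exact (hl _ v).1 hE' p (Finset.mem_erase.2
          ⟨hp, Finset.mem_image.2 ⟨E, hT.mem_toFinset.2 hE, c.symm⟩⟩)
      · exact hπ _ v p c
    have o := (pq_is E).dom.ord ((un_pl v _).2 u)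
    rw [map_sub, ec] at o
    exact a.ne' o

end Vale.Agent.P283R.C3
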