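import Vale.Agent.P283R.C3.St

/-!
# P283R, block C3: the kept prime divisors and the classes
-/

open Set

noncomputable section

namespace Vale.Agent.P283R.C3

open Vale.Agent.P287D Vale.Agent.P283M Vale.Agent.P283R.To

theorem rays (fac : FAC) : RAYS := by
  intro K _ _ ι s y w P h Kp
  obtain ⟨f1, -, -, -, -, -, f7⟩ := fac K s y h.rat
  have fin : {E | Kt s y w P Kp E}.Finite := by
    refine (((Kp.finite_toSet.biUnion fun p _ => h.fin (s - algebraMap ℂ K p)).union
      (h.fin s)).union (finite_iUnion fun j => h.fin (y j))).subset ?_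
    rintro E ⟨a, b, c⟩
    by_cases k : ∃ r, At s (P E) r
    · obtain ⟨r, k⟩ := k
      left
      cases r with
      | none =>
        right
        refine ⟨a, fun e => ?_⟩
        simp [At, mu, e] at k
      | some p =>
        left
        refine mem_iUnion₂.2 ⟨p, by_contra fun n => c p n k, a, fun e => ?_⟩
        simp [At, mu, e] at k
    · right
      by_contra n
      refine b fun u x hx x0 => ?_
      obtain ⟨c, m, c0, rfl⟩ := f1 u x hx x0
      rw [Pl.ord_smul _ c0, f7 _ m u (not_exists.1 k)]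
      refine Finset.sum_eq_zero fun j _ => ?_
      have : (P E).ord (y j) = 0 := by_contra fun z => n (mem_iUnion.2 ⟨j, a, z⟩)
      rw [this, mul_zero]
  obtain ⟨k, r, i, e⟩ := fin.fin_param
  exact ⟨k, r, i, fun E => by rw [← mem_range, e]; rfl⟩

theorem span (fac : FAC) : SPAN := by
  classical
  intro K _ _ ι s y w P h Kp e τ a k r g inj hr κ c b fin tv gd
  obtain ⟨-, f2, -, f4, f5, f6, -⟩ := fac K s y h.rat
  let S : Set ℂ := {p | p ∉ Kp ∧ (∃ E, w E ∧ At s (P E) (some p)) ∧ b p ≠ 0}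
  have hS : S.Finite := by
    refine (fin.biUnion (t := fun E => {p | At s (P E) (some p)}) fun E _ =>
      Set.Subsingleton.finite fun p hp p' hp' => Option.some.inj (f4 _ _ _ hp hp')).subset ?_
    rintro p ⟨p0, ⟨E, wE, aE⟩, b0⟩
    obtain ⟨E', w', a', t'⟩ := g.base E p wE p0 aE
    refine mem_iUnion₂.2 ⟨E', ⟨w', ?_⟩, a'⟩
    rw [gd E' p w' p0 a', t']
    simpa using b0
  let n : ℂ →₀ ℤ := Finsupp.onFinset hS.toFinset (fun p => if p ∈ S then b p else 0) fun p hp =>
    hS.mem_toFinset.2 (by_contra fun q => hp (if_neg q))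
  refine ⟨Fin.cons c fun i => κ (r i) - (P (r i)).ord (hm s y n 0), hm s y n 0, (f2 n 0).1,
    fun E wE => ?_⟩
  rw [Fin.sum_univ_succ]
  simp only [dd, Fin.cons_zero, Fin.cons_succ]
  by_cases kt : Kt s y w P Kp E
  · obtain ⟨i, rfl⟩ := (hr E).2 kt
    have t0 : τ (r i) = 0 := by_contra fun z =>
      let ⟨_, p, p0, aE⟩ := g.off _ z
      kt.2.2 p p0 aE
    rw [t0, Finset.sum_eq_single i (fun j _ ne => by
      rw [Finsupp.single_eq_of_ne fun q => ne (inj q).symm, mul_zero]) (by simp)]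
    simp
  · have z : ∑ i, (κ (r i) - (P (r i)).ord (hm s y n 0)) * (Finsupp.single (r i) 1 : ι →₀ ℤ) E
        = 0 := Finset.sum_eq_zero fun i _ => by
      rw [Finsupp.single_eq_of_ne fun q => kt ((hr E).1 ⟨i, q.symm⟩), mul_zero]
    rw [z, add_zero]
    by_cases t : Tv s y (P E)
    · have t0 : τ E = 0 := by_contra fun z =>
        let ⟨_, p, _, aE⟩ := g.off _ z
        f5 _ _ aE t
      rw [tv E wE t, t 0 _ (f2 n 0).2 (f2 n 0).1, t0]
      simp
    · obtain ⟨p, p0, aE⟩ : ∃ p ∉ Kp, At s (P E) (some p) := by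
        by_contra q
        exact kt ⟨wE, t, fun p p0 aE => q ⟨p, p0, aE⟩⟩
      have np : n p = b p := by
        by_cases b0 : b p = 0
        · simp [n, b0]
        · exact if_pos ⟨p0, ⟨E, wE, aE⟩, b0⟩
      rw [gd E p wE p0 aE, f6 _ _ n 0 aE, (g.one E p wE p0 aE).1]
      simp [od, np, mul_comm]

theorem spanr : SPANR := fun fac => ⟨rays fac, span fac⟩

end Vale.Agent.P283R.C3
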