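import Vale.Agent.P283R.C3.Su10b
import Vale.Agent.P283R.C3.All

/-!
# P283R, block C3: an invariant affine neighbourhood in the base, complexity one
-/

open Set CategoryTheory AlgebraicGeometry

noncomputable section

namespace Vale.Agent.P283R.C3

open Vale.Agent.P283R.To Vale.Agent.P283R.Gl

namespace S10

section

variable {K : Type} [Field K] [Algebra ℂ K] {r : ℕ}

/-- the homogeneous functions of the degree `u` -/
def Hr (s : K) (y : Fin r → K) (u : Fin r → ℤ) : Set K :=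
  {a | ∃ φ ∈ IntermediateField.adjoin ℂ {s}, a = φ * mon y u}

theorem gr_hr (s : K) {y : Fin r → K} (y0 : ∀ j, y j ≠ 0) : Gr (Hr s y) where
  zero _ := ⟨0, zero_mem _, (zero_mul _).symm⟩
  one := ⟨1, one_mem _, by simp [mon]⟩
  add := by
    rintro u _ ⟨a, ha, rfl⟩ _ ⟨b, hb, rfl⟩
    exact ⟨_, add_mem ha hb, (add_mul _ _ _).symm⟩
  smul := by
    rintro u c _ ⟨a, ha, rfl⟩
    exact ⟨_, IntermediateField.smul_mem _ ha, (smul_mul_assoc _ _ _).symm⟩
  mul := by
    rintro u v _ ⟨a, ha, rfl⟩ _ ⟨b, hb, rfl⟩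
    exact ⟨_, mul_mem ha hb, by rw [mon_add y0]; ring⟩
  inv := by
    rintro u _ ⟨a, ha, rfl⟩
    refine ⟨_, inv_mem ha, ?_⟩
    rw [mul_inv, mon, mon, ← Finset.prod_inv_distrib]
    simp only [Pi.neg_apply, zpow_neg]

theorem tr_hr {s : K} {y : Fin r → K} (h : D.Rat (Fin.cons s y : Fin (r + 1) → K))
    (t : Fin r → ℂˣ) : ∃ θ : K ≃ₐ[ℂ] K, ∀ u, ∀ a ∈ Hr s y u, θ a = chi u t • a := by
  obtain ⟨θ, hθ⟩ := exists_tr h (Fin.cons 1 t)
  have e : ∀ (c : ℤ) (u : Fin r → ℤ), θ (s ^ c * mon y u) = chi u t • (s ^ c * mon y u) :=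
    fun c u => by
      have := hθ (Fin.cons c u)
      have e1 : mon (Fin.cons s y : Fin (r + 1) → K) (Fin.cons c u) = s ^ c * mon y u := by
        simp only [mon, Fin.prod_univ_succ, Fin.cons_zero, Fin.cons_succ]
      have e2 : chi (Fin.cons c u : Fin (r + 1) → ℤ) (Fin.cons 1 t) = chi u t := by
        change ((∏ i, _ : ℂˣ) : ℂ) = ((∏ i, _ : ℂˣ) : ℂ)
        simp only [Fin.prod_univ_succ, Fin.cons_zero, Fin.cons_succ, one_zpow, one_mul]
      rwa [e1, e2] at this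
  have es : θ s = s := by
    have := e 1 0
    have e2 : chi (0 : Fin r → ℤ) t = 1 := by
      change ((∏ i, _ : ℂˣ) : ℂ) = 1
      simp
    simpa [mon, e2] using this
  refine ⟨θ, ?_⟩
  rintro u _ ⟨φ, hφ, rfl⟩
  have e1 : θ φ = φ := by
    induction hφ using IntermediateField.adjoin_induction with
    | mem a ha => exact ha ▸ es
    | algebraMap c => exact θ.commutes c
    | add a b _ _ ha hb => rw [map_add, ha, hb]
    | inv a _ ha => rw [map_inv₀, ha]
    | mul a b _ _ ha hb => rw [map_mul, ha, hb]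
  have := e 0 u
  rw [zpow_zero, one_mul] at this
  rw [map_mul, e1, this, mul_smul_comm]

end

open Sl Sl.Var

variable {X Z : Sl.Var} {f : X.X ⟶ Z.X} {z : Pt Z.X} {W : Z.X.Opens} {r : ℕ}

theorem co_iff {s : X.K} {y : Fin r → X.K} {W : X.X.Opens} : Co (X := X.o) (Hr s y) W ↔
    ∀ x : Pt X.X, x.In W → ∃ U ≤ W, IsAffineOpen U ∧ x.In U ∧ GradedBy s y (regOn U) := by
  refine forall₂_congr fun x _ => exists_congr fun U => and_congr_right fun _ =>
    and_congr_right fun _ => and_congr_right fun _ => forall₂_congr fun g _ => ?_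
  refine ⟨fun k => Submodule.span_mono ?_ k, fun k => Submodule.span_mono ?_ k⟩
  · rintro _ ⟨i, m, φ, j, l⟩
    exact ⟨i, φ, j, m, l⟩
  · rintro _ ⟨i, φ, j, m, l⟩
    exact ⟨i, m, φ, j, l⟩

/-- the invariant affine neighbourhood from the properties of the prime divisors -/
theorem sum_of (hf : Contraction f) (zW : z.In W) (h : ComplexityOne (pre f W) r)
    (A : ∀ (s : X.K) (y : Fin r → X.K) (U : X.X.Opens) (x : Pt X.X),
      AlgebraicIndependent ℂ (Fin.cons s y : Fin (r + 1) → X.K) → Co (X := X.o) (Hr s y) U →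
      x ∈ U → D.Rat (Fin.cons s y : Fin (r + 1) → X.K) ∧ Fa (X := X.o) (Hr s y) U) :
    ∃ V : Z.X.Opens, IsAffineOpen V ∧ z.In V ∧ ComplexityOne (pre f V) r := by
  obtain ⟨s, y, a, b⟩ := h
  obtain ⟨x, hx⟩ := hf.2.2.1.surj z
  have c : Co (X := X.o) (Hr s y) (pre f W) := co_iff.2 b
  obtain ⟨V, v1, v2, v3⟩ := sumi (X := X.o) (Z := Z.o)
    (gr_hr s (y := y) fun j => AlgebraicIndependent.ne_zero a j.succ)
    (tr_hr (A s y _ x a c (show f x ∈ W from hx ▸ zW)).1) (fun U x c e => (A s y U x a c e).2)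
    hf zW c
  exact ⟨V, v1, v2, s, y, a, co_iff.1 v3⟩

end S10

open Sl Sl.Var

/-- **an invariant affine neighbourhood** -/
theorem sumi {X Z : Sl.Var} {f : X.X ⟶ Z.X} {z : Pt Z.X} {W : Z.X.Opens} (hf : Contraction f)
    (zW : z.In W) (h : ComplexityOne (pre f W) 2) :
    ∃ V : Z.X.Opens, IsAffineOpen V ∧ z.In V ∧ ComplexityOne (pre f V) 2 :=
  S10.sum_of hf zW h fun s y U x a c e =>
    have m := fmr cz_row kt rat inv (laur70 fac20 sums rat) (misr fac20 sums rat) X.o U s y x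
      ⟨a, c⟩ e
    ⟨m.rat, m.inv, m.lau, m.eqn⟩

/-- **bounded klt complements for threefolds of complexity one, any boundary** -/
theorem on_c3w : On fun d _ Z f ω B z => d = 3 ∧ FanoType f ω ∧ NefOver f (-logCan ω B) ∧
    ∃ W : Z.X.Opens, z.In W ∧ ComplexityOne (pre f W) 2 := fun d hd ε hε R hR =>
  (on_c3 d hd ε hε R hR).imp fun _ H => ⟨H.1, fun X Z f ω B z a b c e s t u =>
    let ⟨_, i, j⟩ := u.2.2.2
    H.2 X Z f ω B z a b c e s t ⟨u.1, u.2.1, u.2.2.1, sumi s i j⟩⟩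

end Vale.Agent.P283R.C3
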