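import Vale.Agent.P283R.To.GlAll

/-!
# P283R, block C3: invariant affine neighbourhoods for a grading, homogeneous sections
-/

set_option linter.all false

open Set CategoryTheory AlgebraicGeometry

noncomputable section

namespace Vale.Agent.P283R.C3.S10

open Vale.Agent.P289 (Pt)
open Vale.Agent.P287D Vale.Agent.P283M.Stm Vale.Agent.P283M.Stm.Var Vale.Agent.P297Z
open Vale.Agent.P283M Vale.Agent.P283M.Br Vale.Agent.P283R.To Vale.Agent.P283R.Tor
open Vale.Agent.P283R.Sch Vale.Agent.P283R.Gl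

section

variable {K : Type} [Field K] [Algebra ℂ K] {r : ℕ}

/-- the homogeneous functions -/
structure Gr (H : (Fin r → ℤ) → Set K) : Prop where
  zero : ∀ u, 0 ∈ H u
  one : 1 ∈ H 0
  add : ∀ u, ∀ a ∈ H u, ∀ b ∈ H u, a + b ∈ H u
  smul : ∀ u (c : ℂ), ∀ a ∈ H u, c • a ∈ H u
  mul : ∀ u v, ∀ a ∈ H u, ∀ b ∈ H v, a * b ∈ H (u + v)
  inv : ∀ u, ∀ a ∈ H u, a⁻¹ ∈ H (-u)

/-- the sum of the components -/
def tt (G : (Fin r → ℤ) →₀ K) : K := G.sum fun _ a => a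

/-- the place is trivial on the homogeneous functions -/
def Tw (H : (Fin r → ℤ) → Set K) (P : Pl K) : Prop := ∀ u, ∀ a ∈ H u, a ≠ 0 → P.ord a = 0

variable {H : (Fin r → ℤ) → Set K}

theorem Gr.pow (h : Gr H) {u} {a : K} (ha : a ∈ H u) (N : ℕ) : ∃ v, a ^ N ∈ H v := by
  induction N with
  | zero => exact ⟨0, by rw [pow_zero]; exact h.one⟩
  | succ N ih => exact let ⟨v, hv⟩ := ih; ⟨_, by rw [pow_succ]; exact h.mul _ _ _ hv _ ha⟩

theorem Gr.dec (h : Gr H) (A : Submodule ℂ K) {g : K}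
    (hg : g ∈ Submodule.span ℂ {b ∈ (A : Set K) | ∃ u, b ∈ H u}) :
    ∃ G : (Fin r → ℤ) →₀ K, (∀ u, G u ∈ H u) ∧ (∀ u, G u ∈ A) ∧ g = tt G := by
  classical
  induction hg using Submodule.span_induction with
  | mem b hb =>
    obtain ⟨a, u, c⟩ := hb
    refine ⟨Finsupp.single u b, fun v => ?_, fun v => ?_,
      (Finsupp.sum_single_index (h := fun _ a => a) rfl).symm⟩ <;>
      rw [Finsupp.single_apply] <;> split_ifs with e
    exacts [e ▸ c, h.zero _, a, A.zero_mem]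
  | zero => exact ⟨0, h.zero, fun _ => A.zero_mem, rfl⟩
  | add a b _ _ ha hb =>
    obtain ⟨G, a1, a2, rfl⟩ := ha
    obtain ⟨G', b1, b2, rfl⟩ := hb
    exact ⟨G + G', fun u => h.add u _ (a1 u) _ (b1 u), fun u => A.add_mem (a2 u) (b2 u),
      (Finsupp.sum_add_index' (fun _ => rfl) fun _ _ _ => rfl).symm⟩
  | smul c a _ ha =>
    obtain ⟨G, a1, a2, rfl⟩ := ha
    refine ⟨c • G, fun u => h.smul u c _ (a1 u), fun u => A.smul_mem c (a2 u), ?_⟩
    rw [tt, tt, Finsupp.sum_smul_index' fun _ => rfl, Finsupp.smul_sum]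

end

variable {X : Var} {r k : ℕ} {H : (Fin r → ℤ) → Set X.K} {W U : X.X.Opens} {t : Finset X.K}
  {a g : X.K} {x : Pt X.X}

/-- the functions which are regular on `U` -/
def rg (U : X.X.Opens) : Submodule ℂ X.K where
  carrier := {b | ∀ x' ∈ U, RegAt b x'}
  add_mem' a b x hx := (la x).add_mem (a x hx) (b x hx)
  zero_mem' x _ := (la x).zero_mem
  smul_mem' c _ a x hx := reg_smul c (a x hx)

/-- `W` is covered by graded affine charts -/
def Co (H : (Fin r → ℤ) → Set X.K) (W : X.X.Opens) : Prop :=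
  ∀ x ∈ W, ∃ U ≤ W, IsAffineOpen U ∧ x ∈ U ∧ ∀ g, (∀ x' ∈ U, RegAt g x') →
    g ∈ Submodule.span ℂ {b ∈ {b | ∀ x' ∈ U, RegAt b x'} | ∃ u, b ∈ H u}

/-- the prime divisors of `W` -/
structure Fa (H : (Fin r → ℤ) → Set X.K) (W : X.X.Opens) : Prop where
  inv : ∀ E : X.PrimeDiv, E.1 ∈ W → ¬ Tw H (pq E) → ∀ G : (Fin r → ℤ) →₀ X.K, (∀ u, G u ∈ H u) →
    ∀ u, G u ≠ 0 → (pq E).ord (tt G) ≤ (pq E).ord (G u)
  lau : ∀ φ : X.K, φ ≠ 0 → (∀ E : X.PrimeDiv, E.1 ∈ W → Tw H (pq E) → 0 ≤ (pq E).ord φ) →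
    ∃ G : (Fin r → ℤ) →₀ X.K, (∀ u, G u ∈ H u) ∧ φ = tt G
  eqn : ∀ c : X.PrimeDiv → ℤ, {E | c E ≠ 0}.Finite →
    ∃ φ : X.K, φ ≠ 0 ∧ ∀ E : X.PrimeDiv, E.1 ∈ W → Tw H (pq E) → (pq E).ord φ = c E

/-- a unit has a component which is a unit -/
theorem ex_un {G : (Fin r → ℤ) →₀ X.K} (h : ∀ m, RegAt (a * G m) x) (u : UnAt (a * tt G) x) :
    ∃ m, UnAt (a * G m) x := by
  have e : a * tt G = ∑ m ∈ G.support, a * G m := by simp only [tt, Finsupp.sum, Finset.mul_sum]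
  obtain ⟨m, -, v⟩ := P270L.S.exists_un_of_sum (p := x) G.support (f := fun m => a * G m) h (e ▸ u)
  exact ⟨m, v⟩

/-- the components of a regular function are regular -/
theorem Fa.reg (h : Fa H W) {G : (Fin r → ℤ) →₀ X.K} (hG : ∀ u, G u ∈ H u)
    (hg : ∀ x ∈ W, RegAt (tt G) x) (m : Fin r → ℤ) : ∀ x ∈ W, RegAt (G m) x := fun x hx => by
  rcases eq_or_ne (G m) 0 with e | e
  · rw [e]
    exact (la x).zero_mem
  refine har X _ x fun E hE => ?_
  have c : E.1 ∈ W := hE.mem_open W.isOpen hx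
  rw [pq_ord]
  by_cases z : Tw H (pq E)
  · exact (z _ _ (hG m) e).ge
  · exact (Pl.ord_nonneg_of_mem _ ((pq_is E _).2 (hg _ c))).trans (h.inv E c z G hG m e)

/-- the complement of finitely many invariant prime divisors -/
theorem Co.sub (gr : Gr H) (h : Co H W) (fa : Fa H W) {B : Set X.PrimeDiv} (hB : B.Finite)
    (h0 : ∀ E ∈ B, ¬ Tw H (pq E)) {W' : X.X.Opens}
    (e : ∀ x, x ∈ W' ↔ x ∈ W ∧ ∀ E ∈ B, ¬ E.1 ⤳ x) : Co H W' := by
  classical
  intro x hx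
  obtain ⟨xW, xB⟩ := (e x).1 hx
  obtain ⟨U, UW, hU, xU, eS⟩ := h x xW
  have k : ∀ T : Finset X.PrimeDiv, (∀ E ∈ T, E ∈ B) → ∃ m, ∃ b ∈ H m, (∀ x' ∈ U, RegAt b x') ∧
      UnAt b x ∧ ∀ E ∈ T, E.1 ∈ U → ¬ UnAt b E.1 := fun T hT => by
    induction T using Finset.induction_on with
    | empty =>
      exact ⟨0, 1, gr.one, fun _ _ => reg_one, unAt_one, fun _ a => (Finset.notMem_empty _ a).elim⟩
    | insert E T _ ih =>
      obtain ⟨m, β, m0, m1, m2, m3⟩ := ih fun E a => hT E (Finset.mem_insert_of_mem a)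
      by_cases c : E.1 ∈ U
      swap
      · exact ⟨m, β, m0, m1, m2, fun E' a b => by
          rcases Finset.mem_insert.1 a with rfl | a
          exacts [(c b).elim, m3 E' a b]⟩
      have EB := hT E (Finset.mem_insert_self _ _)
      obtain ⟨b, b1, b2⟩ := not_forall₂.1 fun q => xB E EB (Am.spec_of_un hU xU c q)
      obtain ⟨b2, b3⟩ := Classical.not_imp.1 b2
      obtain ⟨G, G0, G1, rfl⟩ := gr.dec (rg U) (eS b (Am.mem_reg.1 b1))
      obtain ⟨m', v⟩ := ex_un (a := 1) (x := x) (G := G)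
        (fun m => by rw [one_mul]; exact G1 m x xU) (by rw [one_mul]; exact b2)
      rw [one_mul] at v
      have nu : ¬ UnAt (G m') E.1 := fun q => b3 (by
        have q1 := (pq_is E).dom.ord q
        have q2 := fa.inv E (UW c) (h0 E EB) G G0 m' v.1
        have q3 := Am.mem_reg.1 b1 _ c
        have q4 := Pl.ord_nonneg_of_mem _ ((pq_is E _).2 q3)
        exact ⟨b2.1, q3, (pq_is E _).1 ((Pl.ord_nonneg_iff _ (inv_ne_zero b2.1)).1
          (by rw [Pl.ord_inv]; omega))⟩)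
      refine ⟨m + m', β * G m', gr.mul _ _ _ m0 _ (G0 m'),
        fun x' a' => reg_mul (m1 x' a') (G1 m' x' a'), m2.mul v, fun E' a' b' q => ?_⟩
      rcases Finset.mem_insert.1 a' with rfl | a'
      · exact nu (P270L.S.un_of_mul (G1 m' _ b') (m1 _ b') (mul_comm β _ ▸ q))
      · exact m3 E' a' b' (P270L.S.un_of_mul (m1 _ b') (G1 m' _ b') q)
  obtain ⟨m, β, m0, m1, m2, m3⟩ := k hB.toFinset fun E a => hB.mem_toFinset.1 a
  have : Nonempty U := ⟨⟨x, xU⟩⟩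
  obtain ⟨b, hb⟩ := Am.reg_iff.1 (Am.mem_reg.2 m1)
  have ub : ∀ p, p ∈ X.X.basicOpen b ↔ p ∈ U ∧ UnAt β p := fun p =>
    ⟨fun a => ⟨X.X.basicOpen_le b a, hb ▸ (Am.un_secK b (X.X.basicOpen_le b a)).2 a⟩,
      fun a => (Am.un_secK b a.1).1 (hb ▸ a.2)⟩
  refine ⟨X.X.basicOpen b, fun p hp => (e p).2 ⟨UW ((ub p).1 hp).1, fun E EB q => ?_⟩,
    hU.basicOpen b, (ub x).2 ⟨xU, m2⟩, fun c hc => ?_⟩
  · exact m3 E (hB.mem_toFinset.2 EB) (q.mem_open U.isOpen ((ub p).1 hp).1)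
      (UnAt.gen ((ub p).1 hp).2 q)
  · obtain ⟨N, hN⟩ := Am.ext_sec (W := U) (D := 0) (E := 0) (f := c) Am.fs_zero m2.1
      (fun p hp => (Am.sc_zero (Am.nrm X)).2 (m1 p hp)) fun p hp q =>
        (Am.sc_zero (Am.nrm X)).2 (hc p ((ub p).2 ⟨hp, (Am.gn_zero (Am.nrm X)).1 q⟩))
    obtain ⟨G, G0, G1, G2⟩ := gr.dec (rg U) (eS (c * β ^ N) fun p hp =>
      (Am.sc_zero (Am.nrm X)).1 (by simpa using hN N le_rfl p hp))
    obtain ⟨v, hv⟩ := gr.pow (gr.inv _ _ m0) N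
    have e2 : c = ∑ l ∈ G.support, G l * β⁻¹ ^ N := by
      rw [← Finset.sum_mul, show ∑ l ∈ G.support, G l = c * β ^ N from G2.symm, mul_assoc,
        ← mul_pow, mul_inv_cancel₀ m2.1, one_pow, mul_one]
    rw [e2]
    exact Submodule.sum_mem _ fun l _ => Submodule.subset_span ⟨fun p hp =>
      reg_mul (G1 l p ((ub p).1 hp).1) (reg_pow ((ub p).1 hp).2.2.2 N),
      _, gr.mul _ _ _ (G0 l) _ hv⟩

/-- the function has the component one in the degree zero -/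
def Gd (H : (Fin r → ℤ) → Set X.K) (a : X.K) : Prop :=
  ∃ G : (Fin r → ℤ) →₀ X.K, (∀ u, G u ∈ H u) ∧ G 0 = 1 ∧ a = tt G

/-- homogeneous sections -/
theorem mse (gr : Gr H) (h : Co H W) (fa : Fa H W) (b : Bpf t W) (ha : Sct t k a W) (hx : x ∈ W)
    (hv : Nv t k a x) : ∃ s : X.K, Sct t k s W ∧ Nv t k s x ∧ Gd H (a / s) ∧
      ∀ W' : X.X.Opens, (∀ x', x' ∈ W' ↔ x' ∈ W ∧ Nv t k s x') → Co H W' := by
  classical
  obtain ⟨g₀, hg₀⟩ := b x hx
  have a0 : a ≠ 0 := (div_ne_zero_iff.1 (hv g₀ hg₀).1).1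
  obtain ⟨η, H0, hH⟩ := fa.eqn (fun E => if E.1 ∈ W then -(k * (pq E).mz t) else 0)
    ((fin_mz b).subset fun E c => by
      by_cases w : E.1 ∈ W
      · exact ⟨w, fun z => c (by simp only [if_pos w, z, mul_zero, neg_zero])⟩
      · exact (c (if_neg w)).elim)
  have oH : ∀ E : X.PrimeDiv, E.1 ∈ W → Tw H (pq E) → od t k η E = 0 := fun E c z => by
    rw [od, hH E c z, if_pos c, neg_add_cancel]
  obtain ⟨G, G0, hG⟩ := fa.lau _ (div_ne_zero a0 H0) fun E c z => by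
    have h1 := ha.od b a0 c
    have h2 := oH E c z
    rw [Pl.ord_div _ a0 H0]
    rw [od] at h1 h2
    omega
  have om : ∀ (E : X.PrimeDiv) m, G m ≠ 0 → od t k (η * G m) E = od t k η E + (pq E).ord (G m) :=
    fun E m m0 => by rw [od, od, Pl.ord_mul _ H0 m0]; ring
  have oz : ∀ (E : X.PrimeDiv) m, G m ≠ 0 → E.1 ∈ W → Tw H (pq E) → od t k (η * G m) E = 0 :=
    fun E m m0 c z => by rw [om E m m0, oH E c z, z _ _ (G0 m) m0, add_zero]
  have sm : ∀ m, Sct t k (η * G m) W := fun m => by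
    rcases eq_or_ne (G m) 0 with m0 | m0
    · intro p _ g _
      rw [m0, mul_zero, zero_div]
      exact (la p).zero_mem
    refine sct_of (mul_ne_zero H0 m0) fun E c => ?_
    by_cases z : Tw H (pq E)
    · exact (oz E m m0 c z).ge
    · have h1 := ha.od b a0 c
      have h2 := fa.inv E c z G G0 m m0
      rw [← hG, Pl.ord_div _ a0 H0] at h2
      rw [om E m m0]
      rw [od] at h1 ⊢
      omega
  have e0 : ∀ c, η / g₀ ^ k * c = η * c / g₀ ^ k := fun c => by ring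
  obtain ⟨m, v⟩ := ex_un (a := η / g₀ ^ k) (x := x) (G := G)
    (fun m => by rw [e0]; exact sm m x hx g₀ hg₀)
    (by rw [e0, ← hG, mul_div_cancel₀ _ H0]; exact hv g₀ hg₀)
  have m0 : G m ≠ 0 := right_ne_zero_of_mul v.1
  rw [e0] at v
  have s0 := mul_ne_zero H0 m0
  have ap : ∀ l, ((G m)⁻¹ • G.mapDomain (· - m)) l = (G m)⁻¹ * G (l + m) := fun l => by
    have := Finsupp.mapDomain_apply (f := (· - m)) sub_left_injective G (l + m)
    rw [add_sub_cancel_right] at this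
    rw [Finsupp.smul_apply, this, smul_eq_mul]
  refine ⟨η * G m, sm m, nv_of s0 fun E hE => ?_,
    ⟨(G m)⁻¹ • G.mapDomain (· - m), fun l => ?_, ?_, ?_⟩, fun W' e => ?_⟩
  · rw [← od_eq hg₀ hE s0, pq_ord]
    exact (pq_is E).dom.ord (UnAt.gen v hE)
  · have := gr.mul _ _ _ (gr.inv _ _ (G0 m)) _ (G0 (l + m))
    rwa [← ap, neg_add_cancel_comm_assoc] at this
  · rw [ap, zero_add, inv_mul_cancel₀ m0]
  · rw [← div_div, hG, tt, tt, Finsupp.sum_smul_index' fun _ => rfl,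
      Finsupp.sum_mapDomain_index_inj sub_left_injective, div_eq_inv_mul, Finsupp.mul_sum]
    rfl
  · refine h.sub gr fa (B := {E | E.1 ∈ W ∧ od t k (η * G m) E ≠ 0})
      (((fin X (η * G m)).union (fin_mz b)).subset fun E c => ?_)
      (fun E c z => c.2 (oz E m m0 c.1 z)) fun x' => (e x').trans (and_congr_right fun c =>
        ⟨fun q E r w => ?_, fun q => nv_of s0 fun E w => ?_⟩)
    · by_contra q
      rw [mem_union, not_or, mem_setOf, mem_setOf, not_not, not_and, not_not] at q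
      exact c.2 (by rw [od, ← pq_ord, q.1, q.2 c.1, mul_zero, add_zero])
    · obtain ⟨g, hg⟩ := b x' c
      exact r.2 (q.od hg w).2
    · exact by_contra fun r => q E ⟨w.mem_open W.isOpen c, r⟩ w

end Vale.Agent.P283R.C3.S10
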