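import Vale.Agent.P283R.C3.Su10a

/-!
# P283R, block C3: invariant affine neighbourhoods for a grading
-/

set_option linter.all false

open Set CategoryTheory AlgebraicGeometry

noncomputable section

namespace Vale.Agent.P283R.C3.S10

open Vale.Agent.P289 (Pt)
open Vale.Agent.P283M.Stm Vale.Agent.P283M.Stm.Var Vale.Agent.P283M Vale.Agent.P283M.Br
open Vale.Agent.P283R.To Vale.Agent.P283R.Sch Vale.Agent.P283R.Gl Vale.Agent.P283R.Tor

/-- some translate is a unit -/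
theorem ex_unit {K : Type} [Field K] [Algebra ℂ K] {r : ℕ} {O : ValuationSubring K}
    (hc : ∀ c, algebraMap ℂ K c ∈ O) {G : (Fin r → ℤ) →₀ K} (hg : ∀ m, G m ∈ O) (g0 : G 0 = 1) :
    ∃ t, ∑ m ∈ G.support, chi m t • G m ∉ O.nonunits := by
  classical
  by_contra h
  push Not at h
  let ρ := IsLocalRing.residue O
  let κ : ℂ →+* O := (algebraMap ℂ K).codRestrict O hc
  let v : (Fin r → ℤ) → O := fun m => ⟨_, hg m⟩
  have inj : Function.Injective fun m : Fin r → ℤ => ((ρ.comp κ).toMonoidHom.comp (chi m)) :=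
    fun m m' a => chi_inj (MonoidHom.ext fun t => (ρ.comp κ).injective (DFunLike.congr_fun a t))
  have li := (linearIndependent_monoidHom (Fin r → ℂˣ) (IsLocalRing.ResidueField O)).comp _ inj
  have := linearIndependent_iff'.1 li G.support (fun m => ρ (v m)) (funext fun t => by
    have e : ((∑ m ∈ G.support, v m * κ (chi m t) : O) : K) = ∑ m ∈ G.support, chi m t • G m := by
      rw [← O.coe_subtype, map_sum]
      refine Finset.sum_congr rfl fun m hm => ?_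
      simp only [Algebra.smul_def, map_mul]
      exact mul_comm _ _
    have a := (IsLocalRing.residue_eq_zero_iff _).2
      (ValuationSubring.coe_mem_nonunits_iff.1 (e ▸ h t))
    rw [map_sum] at a
    rw [Finset.sum_apply]
    exact (Finset.sum_congr rfl fun m _ => (map_mul ρ _ _).symm).trans a) 0
    (Finsupp.mem_support_iff.2 (g0 ▸ one_ne_zero))
  have v0 : v 0 = 1 := Subtype.ext g0
  rw [v0, map_one] at this
  exact one_ne_zero this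

variable {X Z : Var} {r : ℕ} {H : (Fin r → ℤ) → Set X.K} {f : X.X ⟶ Z.X}

/-- the translations -/
def Tr (H : (Fin r → ℤ) → Set X.K) : Prop :=
  ∀ t : Fin r → ℂˣ, ∃ θ : X.K ≃ₐ[ℂ] X.K, ∀ u, ∀ a ∈ H u, θ a = chi u t • a

/-- the criterion for affineness -/
theorem aff (gr : Gr H) (tr : Tr H) {V : Z.X.Opens} [ne : Nonempty ↑(f ⁻¹ᵁ V)] {b : Γ(Z.X, V)}
    (hf : Contraction f) (h : Co H (f ⁻¹ᵁ V)) (fa : Fa H (f ⁻¹ᵁ V))
    (hb : IsAffineOpen (Z.X.basicOpen b)) (gd : Gd H (Am.pl f V b))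
    (cov : ∀ z ∈ V, ∃ c : Γ(Z.X, V), IsAffineOpen (Z.X.basicOpen c) ∧ z ∈ Z.X.basicOpen c) :
    IsAffineOpen V := by
  obtain ⟨g, gH, g0, e⟩ := gd
  obtain ⟨x₀, hx₀⟩ := id ne
  have := hf.2.1
  have := hf.2.2.2 V
  refine isAffineOpen_of_isAffineOpen_basicOpen V {c | IsAffineOpen (Z.X.basicOpen c)} ?_
    fun _ a => a
  by_contra ne
  let φ := (Am.pl f V).rangeRestrict
  have bij : Function.Bijective φ :=
    ⟨fun _ _ a => Am.pl_inj f V (congrArg Subtype.val a), (Am.pl f V).rangeRestrict_surjective⟩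
  obtain ⟨O, O1, O2⟩ := Ideal.image_subset_nonunits_valuationSubring
    ((Ideal.span {c | IsAffineOpen (Z.X.basicOpen c)}).map φ) fun a => ne (by
      rw [← Ideal.comap_map_of_bijective φ bij (I := Ideal.span _), a, Ideal.comap_top])
  have ro : ∀ c, (∀ x ∈ f ⁻¹ᵁ V, RegAt c x) → c ∈ O := fun c hc =>
    O1 (Am.exists_pl f V (Am.mem_reg.2 hc))
  have hc : ∀ c, algebraMap ℂ X.K c ∈ O := fun c => ro _ fun x _ => reg_const c x
  have sm : ∀ (c : ℂ) a, a ∈ O → c • a ∈ O := fun c a ha => by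
    rw [Algebra.smul_def]
    exact mul_mem (hc c) ha
  have rb : ∀ x ∈ f ⁻¹ᵁ V, RegAt (tt g) x := e ▸ Am.mem_reg.1 (Am.pl_reg f V b)
  obtain ⟨t, ht⟩ := ex_unit hc (fun m => ro _ (fa.reg gH rb m)) g0
  obtain ⟨θ, hθ⟩ := tr t
  have tl : ∀ G : (Fin r → ℤ) →₀ X.K, (∀ u, G u ∈ H u) →
      θ (tt G) = ∑ m ∈ G.support, chi m t • G m := fun G hG => by
    simp only [tt, Finsupp.sum, map_sum]
    exact Finset.sum_congr rfl fun m _ => hθ m _ (hG m)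
  have rg' : ∀ c, (∀ x ∈ f ⁻¹ᵁ V, RegAt c x) → θ c ∈ O := fun c hc => by
    obtain ⟨U, UV, -, -, eS⟩ := h x₀ hx₀
    obtain ⟨G, G0, -, rfl⟩ := gr.dec (rg U) (eS c fun x hx => hc x (UV hx))
    rw [tl G G0]
    exact sum_mem fun m _ => sm _ _ (ro _ (fa.reg G0 hc m))
  rw [← tl g gH, ValuationSubring.mem_nonunits_iff_or, not_or, not_not, map_eq_zero] at ht
  have nb : Nonempty ↑(f ⁻¹ᵁ Z.X.basicOpen b) := by
    have a : genericPoint X.X ∈ f ⁻¹ᵁ V :=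
      (genericPoint_specializes x₀).mem_open (f ⁻¹ᵁ V).isOpen hx₀
    exact ⟨⟨_, (Am.un_pl a b).1
      ⟨e ▸ ht.1, P270L.S.mem_loc_gen _, P270L.S.mem_loc_gen _⟩⟩⟩
  obtain ⟨x, hx, dm⟩ := Am.exists_dom hb (O.comap (θ : X.K →+* X.K)) fun a => by
    obtain ⟨N, hN⟩ := Am.ext_sec (W := f ⁻¹ᵁ V) (D := 0) (E := 0) (g := tt g)
      (f := Am.pl f _ a) Am.fs_zero ht.1 (fun p hp => (Am.sc_zero (Am.nrm X)).2 (rb p hp))
      fun p hp q => (Am.sc_zero (Am.nrm X)).2 (Am.mem_reg.1 (Am.pl_reg f _ a) p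
        ((Am.un_pl hp b).1 (e ▸ (Am.gn_zero (Am.nrm X)).1 q)))
    have k := mul_mem (rg' _ fun p hp => (Am.sc_zero (Am.nrm X)).1 (by simpa using hN N le_rfl p hp))
      (pow_mem ht.2 N)
    rwa [map_mul, map_pow, mul_assoc, ← mul_pow, mul_inv_cancel₀ ((map_ne_zero θ).2 ht.1), one_pow,
      mul_one] at k
  obtain ⟨U, UV, hU, xU, eS⟩ := h x (Z.X.basicOpen_le b hx)
  have : Nonempty ↑((𝟙 X.X : X.X ⟶ X.X) ⁻¹ᵁ U) := ⟨⟨x, xU⟩⟩
  obtain ⟨x', hx', dm'⟩ := Am.exists_dom (f := 𝟙 X.X) hU O fun a => by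
    obtain ⟨G, G0, G1, G2⟩ := gr.dec (rg U) (eS _ (Am.mem_reg.1 (Am.pl_reg (𝟙 X.X) U a)))
    rw [G2]
    refine sum_mem fun m _ => ?_
    have k : θ (G m) ∈ O := dm.mem (G1 m x xU)
    have := sm (chi m t)⁻¹ _ k
    rwa [hθ m _ (G0 m), inv_smul_smul₀ (chi_ne m t)] at this
  obtain ⟨c, c1, c2⟩ := cov (f x') (UV hx')
  have u := (Am.un_pl (f := f) (V := V) (x := x') (UV hx') c).2 c2
  rcases (ValuationSubring.mem_nonunits_iff_or _).1
    (O2 ⟨φ c, Ideal.mem_map_of_mem φ (Ideal.subset_span c1), rfl⟩) with a | a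
  exacts [u.1 a, a (dm'.mem u.2.2)]

/-- **an invariant affine neighbourhood** -/
theorem sumi (gr : Gr H) (tr : Tr H)
    (fa : ∀ (W : X.X.Opens) (x : Pt X.X), Co H W → x ∈ W → Fa H W) {W : Z.X.Opens} {z : Pt Z.X}
    (hf : Contraction f) (zW : z ∈ W) (ht : Co H (f ⁻¹ᵁ W)) :
    ∃ V, IsAffineOpen V ∧ z ∈ V ∧ Co H (f ⁻¹ᵁ V) := by
  classical
  obtain ⟨t, bt, A⟩ := amz Z
  obtain ⟨p, p1, p2⟩ := pul' X Z f hf
  have p0 : ∀ {a}, a ≠ 0 → p a ≠ 0 := fun h => (map_ne_zero p).2 h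
  have pu : ∀ (x : Pt X.X) a, UnAt a (x.map f) → UnAt (p a) x := fun x a h =>
    ⟨p0 h.1, (p1 x a h.2.1).1, map_inv₀ p a ▸ (p1 x _ h.2.2).1⟩
  have pg : ∀ (x : Pt X.X) g, GenAt t g (x.map f) → GenAt (t.image p) (p g) x := fun x g h =>
    ⟨Finset.mem_image_of_mem _ h.1, p0 h.2.1, fun b hb => by
      obtain ⟨c, hc, rfl⟩ := Finset.mem_image.1 hb
      exact map_div₀ p c g ▸ (p1 x _ (h.2.2 c hc)).1⟩
  have pe : ∀ a g k, p (a / g ^ k) = p a / p g ^ k := fun a g k => by rw [map_div₀, map_pow]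
  have ne : ∀ O : Z.X.Opens, Nonempty O → Nonempty ↑(f ⁻¹ᵁ O) := fun O ⟨q⟩ =>
    let ⟨x, hx⟩ := hf.2.2.1.surj q.1
    ⟨⟨x, show f x ∈ O from hx ▸ q.2⟩⟩
  have dn : ∀ (O : Z.X.Opens) [Nonempty O] c, (∀ x ∈ f ⁻¹ᵁ O, RegAt c x) →
      ∃ b : Γ(Z.X, O), p (P289.H594.secK O b) = c := fun O _ c h => by
    have := ne O ‹_›
    have := hf.2.2.2 O
    obtain ⟨b, hb⟩ := Am.exists_pl f O (Am.mem_reg.2 h)
    exact ⟨b, (p2 O b).trans hb⟩
  obtain ⟨k, a, U, k0, hU, zU, UW, sa, eU⟩ := A W z zW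
  obtain ⟨x₀, rfl⟩ := hf.2.2.1.surj z
  have nv : ∀ (x : Pt X.X) c, (∀ g, GenAt t g (x.map f) → RegAt (c / g ^ k) (x.map f)) →
      (Nv (t.image p) k (p c) x ↔ Nv t k c (x.map f)) := fun x c h => by
    obtain ⟨g, hg⟩ := bt (Pt.map f x) trivial
    rw [nv_iff hg, nv_iff (pg x g hg), ← pe]
    exact ⟨(p1 x _ (h g hg)).2, pu x _⟩
  have sp : Sct (t.image p) k (p a) (f ⁻¹ᵁ W) := fun x _ b hb => by
    obtain ⟨g, hg⟩ := bt (Pt.map f x) trivial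
    rw [chg (pg x g hg).2.1, ← pe]
    exact reg_mul (p1 x _ (sa _ trivial g hg)).1 (reg_pow (hb.2.2 _ (pg x g hg).1) k)
  obtain ⟨s, s1, s2, eG, s3⟩ := mse (x := x₀) gr ht (fa _ x₀ ht zW)
    (fun x _ => let ⟨g, hg⟩ := bt (Pt.map f x) trivial; ⟨_, pg x g hg⟩) sp zW
    ((nv x₀ a (sa _ trivial)).2 ((eU _).1 zU))
  have : Nonempty U := ⟨⟨_, zU⟩⟩
  obtain ⟨b₀, hb₀⟩ := dn U (s / p a) fun x hx => by
    obtain ⟨g, hg⟩ := bt (Pt.map f x) trivial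
    exact reg_div (s1 x (UW hx) _ (pg x g hg)) (pe a g k ▸ pu x _ ((eU _).1 hx g hg))
  have a0 : a ≠ 0 :=
    let ⟨g, hg⟩ := bt (f x₀) trivial
    (div_ne_zero_iff.1 ((eU _).1 zU g hg).1).1
  obtain ⟨s₀, rfl, e₀⟩ : ∃ s₀, p s₀ = s ∧ P289.H594.secK U b₀ = s₀ / a :=
    ⟨P289.H594.secK U b₀ * a, by rw [map_mul, hb₀, div_mul_cancel₀ _ (p0 a0)],
      (mul_div_cancel_right₀ _ a0).symm⟩
  have s4 : Sct t k s₀ W := fun q hq g hg => by
    let O : Z.X.Opens := W ⊓ ⟨_, open_gen t g⟩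
    have : Nonempty O := ⟨⟨q, hq, hg⟩⟩
    obtain ⟨b, hb⟩ := dn O (p (s₀ / g ^ k)) fun x hx => pe s₀ g k ▸ s1 x hx.1 _ (pg x g hx.2)
    rw [← p.injective hb]
    exact Am.mem_reg.1 (Am.secK_reg O b) q ⟨hq, hg⟩
  let V : Z.X.Opens := ⟨{q | q ∈ W ∧ Nv t k s₀ q}, isOpen_iff_forall_mem_open.2 fun q hq => by
    obtain ⟨g, hg⟩ := bt q trivial
    have u := hq.2 g hg
    exact ⟨(W : Set Z.X) ∩ ({r | GenAt t g r} ∩ {r | RegAt (s₀ / g ^ k)⁻¹ r}), fun r hr =>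
      ⟨hr.1, (nv_iff hr.2.1).2 ⟨u.1, s4 r hr.1 g hr.2.1, hr.2.2⟩⟩,
      W.isOpen.inter ((open_gen t g).inter (open_reg _)), hq.1, hg, u.2.2⟩⟩
  have zV : f x₀ ∈ V := ⟨zW, (nv x₀ s₀ (s4 _ zW)).1 s2⟩
  have tV : Co H (f ⁻¹ᵁ V) := s3 _ fun x =>
    and_congr_right fun c => (nv x s₀ (s4 _ c)).symm
  have : Nonempty V := ⟨⟨_, zV⟩⟩
  have := ne V ‹_›
  have mb : ∀ {O : Z.X.Opens} [Nonempty O] (c : Γ(Z.X, O)) (q : Z.X),
      q ∈ Z.X.basicOpen c ↔ q ∈ O ∧ UnAt (P289.H594.secK O c) q := fun c q =>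
    ⟨fun a => ⟨Z.X.basicOpen_le c a, (Am.un_secK c (Z.X.basicOpen_le c a)).2 a⟩,
      fun a => (Am.un_secK c a.1).1 a.2⟩
  obtain ⟨b, hb⟩ := (Am.reg_iff (U := V) (f := a / s₀)).1 (Am.mem_reg.2 fun q hq =>
    let ⟨g, hg⟩ := bt q trivial
    reg_div (sa q trivial g hg) (hq.2 g hg))
  refine ⟨V, aff gr tr (b := b) hf tV (fa _ x₀ tV zV) ?_ (by rwa [← p2, hb, map_div₀])
    fun q hq => ?_, zV, tV⟩
  · have : Z.X.basicOpen b = Z.X.basicOpen b₀ := TopologicalSpace.Opens.ext (Set.ext fun q => by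
      obtain ⟨g, hg⟩ := bt q trivial
      refine (mb b q).trans (Iff.trans ?_ (mb b₀ q).symm)
      rw [hb, e₀]
      refine ⟨fun c => ?_, fun c => ?_⟩
      · have u := (un_div (c.1.2 g hg)).1 c.2
        exact ⟨(eU q).2 ((nv_iff hg).2 u), (un_div u).2 (c.1.2 g hg)⟩
      · have u := (un_div ((eU q).1 c.1 g hg)).1 c.2
        exact ⟨⟨UW c.1, (nv_iff hg).2 u⟩, (un_div u).2 ((eU q).1 c.1 g hg)⟩)
    rw [this]
    exact hU.basicOpen b₀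
  · obtain ⟨k', a', U', -, hU', qU, UV, sa', eU'⟩ := A V q hq
    have e1 : ∀ g : Z.K, a' ^ k / g ^ (k * k') = (a' / g ^ k') ^ k := fun g => by
      rw [div_pow, ← pow_mul, mul_comm]
    have e2 : ∀ g : Z.K, s₀ ^ k' / g ^ (k * k') = (s₀ / g ^ k) ^ k' := fun g => by
      rw [div_pow, ← pow_mul]
    obtain ⟨c, hc⟩ := (Am.reg_iff (U := V) (f := a' ^ k / s₀ ^ k')).1 (Am.mem_reg.2 fun r hr =>
      let ⟨g, hg⟩ := bt r trivial
      reg_div (e1 g ▸ reg_pow (sa' r trivial g hg) k) (e2 g ▸ UnAt.pow (hr.2 g hg) k'))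
    have : Z.X.basicOpen c = U' := TopologicalSpace.Opens.ext (Set.ext fun r => by
      obtain ⟨g, hg⟩ := bt r trivial
      refine (mb c r).trans ?_
      rw [hc]
      refine ⟨fun w => (eU' r).2 ((nv_iff hg).2 ?_), fun w => ⟨UV w, ?_⟩⟩
      · have u := (un_div (e2 g ▸ UnAt.pow (w.1.2 g hg) k')).1 w.2
        obtain ⟨j, rfl⟩ := Nat.exists_eq_succ_of_ne_zero k0.ne'
        rw [e1, pow_succ'] at u
        exact P270L.S.un_of_mul (sa' r trivial g hg) (reg_pow (sa' r trivial g hg) j) u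
      · exact (un_div (e2 g ▸ UnAt.pow ((UV w).2 g hg) k')).2
          (e1 g ▸ UnAt.pow ((eU' r).1 w g hg) k))
    exact ⟨c, this ▸ hU', this ▸ qU⟩

end Vale.Agent.P283R.C3.S10
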