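import Vale.Agent.P283R.C3.St
import Vale.Agent.P283R.Cx.Ga
import Vale.Agent.P283R.Br.Glue

/-!
# P283R, block C3: the assembly
-/

open Set CategoryTheory AlgebraicGeometry

noncomputable section

namespace Vale.Agent.P283R.C3

open Vale.Agent.P287D Vale.Agent.P283M Vale.Agent.P283R.To Vale.Agent.P297Z

section

variable {K : Type} [Field K] [Algebra ℂ K] {ι : Type} {s : K} {y : Fin 2 → K} {w : ι → Prop}
  {P : ι → Pl K}

/-- the invariant representative -/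
theorem rep (F : Fm s y w P) (q : ℕ) (c : ι → ℤ) (c0 : ∀ E, 0 ≤ c E) (cf : {E | c E ≠ 0}.Finite) :
    ∃ (g : K) (κ : ι → ℤ), g ≠ 0 ∧ (∀ E, κ E = q * cz s y (P E) + c E - (P E).ord g) ∧
      (∀ E, w E → Tv s y (P E) → 0 ≤ (P E).ord g ∧ κ E = 0) ∧ {E | w E ∧ κ E ≠ 0}.Finite ∧
      ∀ E, q * cz s y (P E) - (P E).ord g ≤ κ E := by
  obtain ⟨g, g0, hg⟩ := F.eqn c cf
  refine ⟨g, _, g0, fun _ => rfl, fun E a b => ?_, ?_, fun E => ?_⟩
  · rw [hg E a b, F.kt E a b]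
    exact ⟨c0 E, by ring⟩
  · refine ((F.finc.union (F.fin g)).union cf).subset fun E h => ?_
    by_contra z
    simp only [mem_union, mem_ofPred_eq, not_or, not_and, not_not] at z
    exact h.2 (by rw [z.1.1 h.1, z.1.2 h.1, z.2]; ring)
  · linarith [c0 E]

theorem spk (F : Fm s y w P) {k : ℕ} {D : Fin k → ι →₀ ℤ} {Kp : Finset ℂ} {τ : ι →₀ ℤ}
    (sp : ∀ (κ : ι → ℤ) (c : ℤ) (b : ℂ → ℤ), {E | w E ∧ κ E ≠ 0}.Finite →
      (∀ E, w E → Tv s y (P E) → κ E = 0) →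
      (∀ E p, w E → p ∉ Kp → At s (P E) (some p) → κ E = b p + τ E * c) →
      ∃ (m : Fin k → ℤ) (φ : K), φ ≠ 0 ∧ ∀ E, w E → κ E = (P E).ord φ + ∑ i, m i * D i E)
    (h : ∀ E p, w E → p ∉ Kp → At s (P E) (some p) → cz s y (P E) = 0) :
    ∃ (m : Fin k → ℤ) (φ : K), φ ≠ 0 ∧
      ∀ E, w E → cz s y (P E) = (P E).ord φ + ∑ i, m i * D i E :=
  sp (fun E => cz s y (P E)) 0 0 F.finc F.kt fun E p a b c => (h E p a b c).trans (by simp)

end

open Sl Sl.Var Vale.Agent.P283R.Gl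

variable {X Z : Sl.Var} {f : X.X ⟶ Z.X} {ω : X.Form 3} {B : X.QDiv} {z : Pt Z.X}
  {V : Z.X.Opens} {s g H : X.K} {y : Fin 2 → X.K} {κ c : X.PrimeDiv → ℤ} {q : ℕ}

theorem fin_of (G : GSP) (hV : IsAffineOpen V) (zV : z.In V)
    (F : Fm s y (fun E : X.o.PrimeDiv => E.1 ∈ f ⁻¹ᵁ V) pq) (H0 : H ≠ 0) (g0 : g ≠ 0)
    (eH : ∀ E, formOrd ω (RingEquiv.refl X.K) E = cz s y (pq (X := X.o) E) +
      (pq (X := X.o) E).ord H)
    (ec : ∀ E, q * B.coeff E = c E) (mn : ∀ r : ℕ, (∀ E, ∃ m : ℤ, r * B.coeff E = m) → q ∣ r)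
    (eκ : ∀ E, κ E = q * cz s y (pq (X := X.o) E) + c E - (pq (X := X.o) E).ord g)
    (κ0 : ∀ E : X.o.PrimeDiv, E.1 ∈ f ⁻¹ᵁ V → Tv s y (pq E) → κ E = 0)
    (κf : {E : X.o.PrimeDiv | E.1 ∈ f ⁻¹ᵁ V ∧ κ E ≠ 0}.Finite) {Kp : Finset ℂ} {e τ a} {k : ℤ}
    {b : ℂ → ℤ} (d : Gd s y (fun E : X.o.PrimeDiv => E.1 ∈ f ⁻¹ᵁ V) pq Kp e τ a)
    (h : ∀ (E : X.o.PrimeDiv) p, E.1 ∈ f ⁻¹ᵁ V → p ∉ Kp → At s (pq E) (some p) →
      cz s y (pq E) = 0 ∧ κ E = b p + τ E * k) : Generated (Kp.card + 9) f ω B z := by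
  obtain ⟨n, N, D, le, gg, sp⟩ := G _ _ s y _ _ F Kp e τ a d
  refine ⟨n, N, V, D, le, hV, zV, ?_, fun r hr => ?_, .inr ?_⟩
  · refine Eq.mp (congrArg _ (funext fun m => Set.ext fun φ => ?_)) gg
    refine forall_congr' fun _ => forall_congr' fun E => forall_congr' fun _ => ?_
    rw [← pq_ord]
    rfl
  · obtain ⟨r, rfl⟩ := mn r hr
    obtain ⟨m, φ, φ0, v⟩ := sp κ k b κf κ0 fun E p x y' z' => (h E p x y' z').2
    have u0 : φ * g * H ^ q ≠ 0 := mul_ne_zero (mul_ne_zero φ0 g0) (pow_ne_zero _ H0)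
    refine ⟨fun i => r * m i, (φ * g * H ^ q) ^ r, pow_ne_zero _ u0, fun E x => ?_⟩
    have k1 := v E x
    have k2 : ord ((φ * g * H ^ q) ^ r) E = r * ((pq (X := X.o) E).ord φ +
        (pq (X := X.o) E).ord g + q * (pq (X := X.o) E).ord H) := by
      refine (pq_ord (X := X.o) E _).trans ?_
      rw [← zpow_natCast, Pl.ord_zpow, Pl.ord_mul _ (mul_ne_zero φ0 g0) (pow_ne_zero _ H0),
        Pl.ord_mul _ φ0 g0, ← zpow_natCast, Pl.ord_zpow]
    have k3 : comb D (fun i => r * m i) E = r * ∑ i, m i * D i E := by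
      rw [Finset.mul_sum]
      exact Finset.sum_congr rfl fun i _ => mul_assoc _ _ _
    have k4 : r * (q * formOrd ω (RingEquiv.refl X.K) E + c E) =
        ord ((φ * g * H ^ q) ^ r) E + comb D (fun i => r * m i) E := by
      rw [k2, k3, eH]
      linear_combination r * k1 - r * eκ E
    rw [← k4]
    simp only [logCan]
    push_cast
    rw [← ec]
    ring
  · obtain ⟨m, φ, φ0, v⟩ := spk F sp fun E p x y' z' => (h E p x y' z').1
    refine ⟨m, φ * H, mul_ne_zero φ0 H0, fun E x => ?_⟩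
    have k1 := v E x
    have k2 : ord (φ * H) E = (pq (X := X.o) E).ord φ + (pq (X := X.o) E).ord H :=
      (pq_ord (X := X.o) E _).trans (Pl.ord_mul _ φ0 H0)
    have k4 : formOrd ω (RingEquiv.refl X.K) E = ord (φ * H) E + comb D m E := by
      rw [k2, eH, show comb D m E = ∑ i, m i * D i E from rfl]
      linear_combination k1
    rw [← k4]
    exact add_zero _

theorem form_eq (C : CZ) (a : dimension X.str = (3 : ℕ)) (b : ω.Nonzero) (r : D.Rat (fr s y)) :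
    ∃ H : X.K, H ≠ 0 ∧ ∀ E, formOrd ω (RingEquiv.refl X.K) E = cz s y (pq (X := X.o) E) +
      (pq (X := X.o) E).ord H := by
  obtain ⟨j, j0, fm⟩ := P283M.Br.frm X.o _ (P283M.Br.ffd X.o _ a) ω b
  obtain ⟨h, h0, e⟩ := (C _ s y r).2.2.1
  refine ⟨h * j, mul_ne_zero h0 j0, fun E => ?_⟩
  have := fm X.o (RingEquiv.refl _) E _ (pq_is (X := X.o) E) fun g => pq_ord (X := X.o) E g
  have k := this.trans (congrArg (· + _) (e _))
  rw [Pl.ord_mul _ h0 j0, ← add_assoc]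
  exact Int.cast_injective (α := ℝ) (k.trans (by push_cast; rfl))

theorem coY (h : ComplexityOne (pre f V) 2) : ∃ s y, CoY (X := X.o) (f ⁻¹ᵁ V) s y :=
  by
  obtain ⟨s, y, a, b⟩ := h
  refine ⟨s, y, a, fun x hx => ?_⟩
  obtain ⟨U, c, d, e, k⟩ := b x hx
  refine ⟨U, c, d, e, fun g hg => Submodule.span_mono ?_ (k g hg)⟩
  rintro _ ⟨i, φ, j, m, l⟩
  exact ⟨i, m, φ, j, l⟩

/-- **TOP** -/
theorem top : TOP := by
  intro C L G FF' M S W ε q hε hq
  have L' : ∀ r : ℕ, ∃ N : ℕ, 1 ≤ r → _ := fun r => by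
    by_cases k : 1 ≤ r
    · exact (L ε r hε k).imp fun _ h _ => h
    · exact ⟨0, fun a => (k a).elim⟩
  choose N hN using L'
  refine ⟨(Finset.range (q + 1)).sup N + 10,
    fun X Z f ω B z V a b p i t u n zc hV zV co => ?_⟩
  obtain ⟨r, hr, mn⟩ := least B
  have rq := Nat.le_of_dvd hq (mn q i)
  have r1 : 1 ≤ r := Nat.pos_of_dvd_of_pos (mn q i) hq
  have le : N r ≤ (Finset.range (q + 1)).sup N :=
    Finset.le_sup (Finset.mem_range.2 (Nat.lt_succ_of_le rq))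
  choose c hc using hr
  have c0 : ∀ E, 0 ≤ c E := fun E => by
    have := mul_nonneg (Nat.cast_nonneg (α := ℚ) r) (p.1 E trivial)
    rw [hc] at this
    exact_mod_cast this
  have cf : {E | c E ≠ 0}.Finite := B.support.finite_toSet.subset fun E e =>
    Finsupp.mem_support_iff.2 fun x => e (by
      have := hc E
      rw [show B.coeff E = 0 from x, mul_zero] at this
      exact_mod_cast this.symm)
  obtain ⟨x, hx⟩ := t.2.2.1.surj z
  have xV : ∀ V : Z.X.Opens, z.In V → x ∈ f ⁻¹ᵁ V := fun V h => show f x ∈ V from hx ▸ h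
  obtain ⟨s, y, co⟩ := coY co
  by_cases el : ∀ r, ∃ E : X.o.PrimeDiv, E.1 ∈ f ⁻¹ᵁ V ∧ At s (pq E) r
  · have F := FF' X.o _ s y x co (xV V zV)
    obtain ⟨g, κ, g0, e1, e2, e3, e4⟩ := rep F r c c0 cf
    obtain ⟨H, H0, eH⟩ := form_eq C a b F.rat
    obtain ⟨Kp, e, τ, v, k, β, l, d, h⟩ := hN r r1 _ _ s y _ _ F g κ g0
      (fun E i j => (e2 E i j).1) e3 (fun E _ => e4 E)
      (W X.o Z.o f ω B z ε r V s g y κ (P283M.Br.ffd X.o _ a) b ((pair_iff _ _ ω B).1 p) t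
        ((fanoType_iff f ω).1 u) ((nefOver_iff f _).1 n) zc hV zV r1 F g0
        (fun E _ => by rw [e1]; push_cast; rw [← hc E]; rfl) fun E i j => (e2 E i j).2) el
    exact (fin_of G hV zV F H0 g0 eH hc mn e1 (fun E i j => (e2 E i j).2) e3 d h).elim
      fun k ⟨N', V', D, l', o⟩ => ⟨k, N', V', D, by omega, o⟩
  · obtain ⟨r', el⟩ := not_forall.1 el
    obtain ⟨s, co, s0⟩ := M X.o _ s y x co (xV V zV) r' el
    have F := FF' X.o _ s y x co (xV V zV)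
    obtain ⟨g, κ, g0, e1, e2, e3, -⟩ := rep F r c c0 cf
    obtain ⟨H, H0, eH⟩ := form_eq C a b F.rat
    obtain ⟨V', p₀, l, hV', zV', co', o⟩ := S X.o Z.o f V z s y _ t zc hV zV co s0
      ((e3.union F.finc).union ((F.fin (y 0)).union (F.fin (y 1))))
    have F' := FF' X.o _ s y x co' (xV V' zV')
    have l' : ∀ E : X.o.PrimeDiv, E.1 ∈ f ⁻¹ᵁ V' → E.1 ∈ f ⁻¹ᵁ V := fun E h => l h
    have o' : ∀ (E : X.o.PrimeDiv) p, E.1 ∈ f ⁻¹ᵁ V' → p ∉ ({p₀} : Finset ℂ) →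
        At s (pq E) (some p) → (κ E = 0 ∧ cz s y (pq E) = 0) ∧ (pq E).ord (y 0) = 0 ∧
          (pq E).ord (y 1) = 0 := fun E p i j m => by
      have := fun h => o E h i p (Finset.notMem_singleton.1 j) m
      simpa only [mem_union, mem_ofPred_eq, not_or, not_and, not_not, l' E i, true_and,
        imp_false] using this
    have d : Gd s y (fun E : X.o.PrimeDiv => E.1 ∈ f ⁻¹ᵁ V') pq {p₀} 0 0 0 := by
      refine ⟨fun _ => le_rfl, fun E p i j m => ⟨?_, ?_⟩, fun E h => (h rfl).elim,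
        fun E p i _ m => ⟨E, i, m, rfl⟩⟩
      · have k1 := (C _ s y F.rat).1 (pq E) p
        have k2 : 0 < mu s (pq E) (some p) := m
        rw [(o' E p i j m).1.2] at k1
        omega
      · rw [Fin.forall_fin_two]
        simpa using (o' E p i j m).2
    exact (fin_of (k := 0) (b := 0) G hV' zV' F' H0 g0 eH hc mn e1
      (fun E i j => (e2 E (l' E i) j).2) (e3.subset fun E h => ⟨l' E h.1, h.2⟩) d
      fun E p i j m => ⟨(o' E p i j m).1.2, by simpa using (o' E p i j m).1.1⟩).elim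
      fun k ⟨N', V', D, l', o⟩ => ⟨k, N', V', D, by
        rw [Finset.card_singleton] at l'; omega, o⟩

end Vale.Agent.P283R.C3
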